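/-
P302: bin packing, the optimum OPT and the Gilmore-Gomory configuration LP value.
-/
import Mathlib

open Finset

namespace Vale.Agent.P302

/-- `I` can be packed in `k` bins: an assignment of the items to `k` bins with total size at most
`1` in every bin. -/
def Packs (I : List ℚ) (k : ℕ) : Prop :=
  ∃ f : Fin I.length → Fin k, ∀ j : Fin k,
    ∑ i ∈ Finset.univ.filter (fun i => f i = j), I.get i ≤ 1

/-- `OPT I`: the least number of bins into which the items can be partitioned. -/
noncomputable def OPT (I : List ℚ) : ℕ := sInf {k | Packs I k}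

/-- A configuration: a vector of nonnegative integers indexed by the sizes occurring in `I`
(zero on all other rationals) with `∑ σ c_σ ≤ 1`. -/
def IsConfig (I : List ℚ) (c : ℚ → ℕ) : Prop :=
  (∀ σ, σ ∉ I → c σ = 0) ∧ ∑ σ ∈ I.toFinset, σ * (c σ : ℚ) ≤ 1

/-- `v` is the value of a feasible solution of the configuration LP: finitely many configurations
with nonnegative weights covering every size `σ` at least `n_σ` times. -/
def LPValue (I : List ℚ) (v : ℝ) : Prop :=
  ∃ (n : ℕ) (c : Fin n → ℚ → ℕ) (z : Fin n → ℝ), (∀ i, IsConfig I (c i)) ∧ (∀ i, 0 ≤ z i) ∧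
    (∀ σ ∈ I, (I.count σ : ℝ) ≤ ∑ i, (c i σ : ℝ) * z i) ∧ ∑ i, z i = v

/-- The configuration LP value `LP I`. -/
noncomputable def LP (I : List ℚ) : ℝ := sInf {v | LPValue I v}

end Vale.Agent.P302
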