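/-
P302: generic certificates for lower bounds on OPT and bounds on LP of an explicit instance.
-/
import Vale.Agent.P302.Defs

open Finset

namespace Vale.Agent.P302

/-- Dot product of two lists of naturals (truncated to the shorter one). -/
def dot : List ℕ → List ℕ → ℕ
  | a :: as, b :: bs => a * b + dot as bs
  | _, _ => 0

/-- Maximum of `dot ys c` over all `c` with `dot ss c ≤ room`. -/
def maxY : List ℕ → List ℕ → ℕ → ℕ
  | s :: ss, y :: ys, room =>
      (List.range (room / s + 1)).foldr
        (fun q acc => max acc (q * y + maxY ss ys (room - q * s))) 0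
  | _, _, _ => 0

theorem le_foldr_max (f : ℕ → ℕ) (l : List ℕ) (q : ℕ) (hq : q ∈ l) :
    f q ≤ l.foldr (fun q acc => max acc (f q)) 0 := by
  induction l with
  | nil => simp at hq
  | cons a l ih =>
    simp only [List.foldr_cons]
    rcases List.mem_cons.mp hq with rfl | h
    · exact le_max_right _ _
    · exact le_trans (ih h) (le_max_left _ _)

/-- The knapsack bound. -/
theorem dot_le_maxY (ss ys : List ℕ) (hs : ∀ s ∈ ss, 0 < s) (c : List ℕ) (room : ℕ)
    (hlen : ss.length = ys.length) (hc : c.length = ss.length)
    (h : dot ss c ≤ room) : dot ys c ≤ maxY ss ys room := by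
  induction ss generalizing ys c room with
  | nil =>
    cases ys with
    | nil => simp [dot]
    | cons y ys => simp at hlen
  | cons s ss ih =>
    cases ys with
    | nil => simp at hlen
    | cons y ys =>
      cases c with
      | nil => simp at hc
      | cons q c =>
        simp only [dot] at h ⊢
        have hs0 : 0 < s := hs s (by simp)
        simp only [maxY]
        have hq : q ∈ List.range (room / s + 1) := by
          rw [List.mem_range]
          have h1 : s * q ≤ room := by omega
          have h2 : q ≤ room / s := (Nat.le_div_iff_mul_le hs0).mpr (by rw [mul_comm]; exact h1)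
          omega
        refine le_trans ?_ (le_foldr_max (fun q => q * y + maxY ss ys (room - q * s)) _ q hq)
        have h3 := ih ys (fun x hx => hs x (by simp [hx])) c (room - q * s) (by simpa using hlen)
          (by simpa using hc) (by
            have h4 : s * q = q * s := mul_comm _ _
            omega)
        have e : y * q = q * y := mul_comm _ _
        show y * q + dot ys c ≤ q * y + maxY ss ys (room - q * s)
        omega

/-- All `c` with `c ≤ bs` pointwise and `dot ss c ≤ room`. -/
def enumAll : List ℕ → List ℕ → ℕ → List (List ℕ)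
  | s :: ss, b :: bs, room =>
      (List.range (min b (room / s) + 1)).flatMap
        (fun q => (enumAll ss bs (room - q * s)).map (fun c => q :: c))
  | _, _, _ => [[]]

theorem mem_enumAll (ss bs : List ℕ) (hs : ∀ s ∈ ss, 0 < s) (c : List ℕ) (room : ℕ)
    (hlen : ss.length = bs.length) (hc : c.length = ss.length)
    (hb : ∀ i, c.getD i 0 ≤ bs.getD i 0)
    (h : dot ss c ≤ room) : c ∈ enumAll ss bs room := by
  induction ss generalizing bs c room with
  | nil =>
    have : c = [] := by simpa using hc
    subst this
    simp [enumAll]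
  | cons s ss ih =>
    cases bs with
    | nil => simp at hlen
    | cons b bs =>
      cases c with
      | nil => simp at hc
      | cons q c =>
        simp only [dot] at h
        have hs0 : 0 < s := hs s (by simp)
        simp only [enumAll, List.mem_flatMap, List.mem_map, List.mem_range]
        refine ⟨q, ?_, c, ?_, rfl⟩
        · have h1 : s * q ≤ room := by omega
          have h2 : q ≤ room / s := (Nat.le_div_iff_mul_le hs0).mpr (by rw [mul_comm]; exact h1)
          have h3 := hb 0
          simp only [List.getD_cons_zero] at h3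
          have h4 : q ≤ min b (room / s) := le_min h3 h2
          omega
        · refine ih bs (fun x hx => hs x (by simp [hx])) c (room - q * s) (by simpa using hlen)
            (by simpa using hc) (fun i => ?_) ?_
          · have := hb (i + 1)
            simpa using this
          · have h4 : s * q = q * s := mul_comm _ _
            omega

/-- Pointwise subtraction. -/
def subL : List ℕ → List ℕ → List ℕ
  | a :: as, b :: bs => (a - b) :: subL as bs
  | as, [] => as
  | [], _ => []

theorem getD_subL (a b : List ℕ) (i : ℕ) :
    (subL a b).getD i 0 = a.getD i 0 - b.getD i 0 := by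
  induction a generalizing b i with
  | nil =>
    cases b <;> simp [subL]
  | cons x a ih =>
    cases b with
    | nil => simp [subL]
    | cons y b =>
      cases i with
      | zero => simp [subL]
      | succ i => simpa [subL] using ih b i

/-- Pointwise order. -/
def leL : List ℕ → List ℕ → Bool
  | [], _ => true
  | a :: as, [] => (a == 0) && leL as []
  | a :: as, b :: bs => decide (a ≤ b) && leL as bs

theorem leL_of_le (a b : List ℕ) (h : ∀ i, a.getD i 0 ≤ b.getD i 0) : leL a b = true := by
  induction a generalizing b with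
  | nil => simp [leL]
  | cons x a ih =>
    cases b with
    | nil =>
      simp only [leL, Bool.and_eq_true, beq_iff_eq]
      constructor
      · simpa using h 0
      · apply ih
        intro i
        have := h (i + 1)
        simpa using this
    | cons y b =>
      simp only [leL, Bool.and_eq_true, decide_eq_true_eq]
      constructor
      · simpa using h 0
      · apply ih
        intro i
        have := h (i + 1)
        simpa using this

/-- All entries vanish. -/
def allZero (a : List ℕ) : Bool := a.all (fun x => x == 0)

theorem allZero_of_zero (a : List ℕ) (h : ∀ i, a.getD i 0 = 0) : allZero a = true := by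
  induction a with
  | nil => rfl
  | cons x a ih =>
    simp only [allZero, List.all_cons, Bool.and_eq_true, beq_iff_eq]
    constructor
    · simpa using h 0
    · apply ih
      intro i
      have := h (i + 1)
      simpa using this

/-- `c` is positive at the first position where `r` is nonzero. -/
def firstPos : List ℕ → List ℕ → Bool
  | [], _ => false
  | r :: rs, [] => if r = 0 then firstPos rs [] else false
  | r :: rs, q :: qs => if r = 0 then firstPos rs qs else decide (0 < q)

theorem firstPos_of (r c : List ℕ) (f : ℕ) (h0 : ∀ i < f, r.getD i 0 = 0) (hf : r.getD f 0 ≠ 0)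
    (hc : 0 < c.getD f 0) : firstPos r c = true := by
  induction r generalizing c f with
  | nil => simp at hf
  | cons x r ih =>
    cases f with
    | zero =>
      cases c with
      | nil => simp at hc
      | cons q c =>
        simp only [List.getD_cons_zero] at hf hc
        simp [firstPos, hf, hc]
    | succ f =>
      have hx : x = 0 := by simpa using h0 0 (by omega)
      cases c with
      | nil => simp at hc
      | cons q c =>
        simp only [firstPos, hx, if_true]
        apply ih c f
        · intro i hi
          have := h0 (i + 1) (by omega)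
          simpa using this
        · simpa using hf
        · simpa using hc

/-- The search for a decomposition of `rem` in `k` patterns from `P` (pairs pattern, waste) with
total waste at most the budget. -/
def search (P : List (List ℕ × ℕ)) : ℕ → List ℕ → ℕ → Bool
  | 0, rem, _ => allZero rem
  | k + 1, rem, bud =>
      allZero rem || P.any (fun p =>
        decide (p.2 ≤ bud) && firstPos rem p.1 && leL p.1 rem &&
          search P k (subL rem p.1) (bud - p.2))

/-- Soundness of the search. -/
theorem search_complete (P : List (List ℕ × ℕ)) (k : ℕ) (rem : List ℕ) (bud : ℕ)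
    (cs : Fin k → List ℕ) (w : Fin k → ℕ)
    (hrem : ∀ i, rem.getD i 0 = ∑ j, (cs j).getD i 0)
    (hP : ∀ j, (cs j, w j) ∈ P) (hbud : ∑ j, w j ≤ bud) :
    search P k rem bud = true := by
  induction k generalizing rem bud with
  | zero =>
    simp only [search]
    apply allZero_of_zero
    intro i
    simpa using hrem i
  | succ k ih =>
    simp only [search, Bool.or_eq_true]
    by_cases hz : ∀ i, rem.getD i 0 = 0
    · left
      exact allZero_of_zero rem hz
    · right
      push Not at hz
      classical
      let f := Nat.find hz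
      have hf : rem.getD f 0 ≠ 0 := Nat.find_spec hz
      have h0 : ∀ i < f, rem.getD i 0 = 0 := fun i hi => by
        have := Nat.find_min hz hi
        simpa using this
      have hpos : ∃ j, 0 < (cs j).getD f 0 := by
        by_contra hcon
        push Not at hcon
        apply hf
        rw [hrem f]
        exact Finset.sum_eq_zero fun j _ => Nat.le_zero.mp (hcon j)
      obtain ⟨j, hj⟩ := hpos
      rw [List.any_eq_true]
      refine ⟨(cs j, w j), hP j, ?_⟩
      simp only [Bool.and_eq_true, decide_eq_true_eq]
      have hsumw := Fin.sum_univ_succAbove w j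
      refine ⟨⟨⟨?_, firstPos_of rem (cs j) f h0 hf hj⟩, leL_of_le _ _ fun i => ?_⟩, ?_⟩
      · omega
      · rw [hrem i, Fin.sum_univ_succAbove _ j]
        omega
      · apply ih (subL rem (cs j)) (bud - w j) (fun i => cs (j.succAbove i)) (fun i => w (j.succAbove i))
        · intro i
          rw [getD_subL, hrem i, Fin.sum_univ_succAbove _ j]
          omega
        · intro i
          exact hP _
        · omega

/-- Dot product as a sum. -/
theorem dot_eq_sum (a b : List ℕ) : dot a b = ∑ t : Fin a.length, a.get t * b.getD t 0 := by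
  induction a generalizing b with
  | nil => simp [dot]
  | cons x a ih =>
    cases b with
    | nil =>
      simp [dot]
    | cons y b =>
      simp only [dot, List.length_cons]
      rw [Fin.sum_univ_succ, ih b]
      simp

theorem getD_ofFn {m : ℕ} (g : Fin m → ℕ) (t : Fin m) : (List.ofFn g).getD t 0 = g t := by
  simp [List.getD_eq_getElem?_getD]

theorem getD_ofFn_ge {m : ℕ} (g : Fin m → ℕ) {i : ℕ} (hi : m ≤ i) : (List.ofFn g).getD i 0 = 0 := by
  simp [List.getD_eq_getElem?_getD, hi]

theorem card_filter_get_eq_count {α : Type*} [DecidableEq α] (l : List α) (a : α) :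
    (univ.filter (fun i : Fin l.length => l.get i = a)).card = l.count a := by
  rw [Finset.card_filter]
  have h := Fin.sum_univ_fun_getElem l (fun x => if x = a then 1 else 0)
  simp only [List.get_eq_getElem]
  rw [h]
  induction l with
  | nil => simp
  | cons x l ih =>
    simp only [List.map_cons, List.sum_cons, List.count_cons, beq_iff_eq]
    have := ih (Fin.sum_univ_fun_getElem l (fun x => if x = a then 1 else 0))
    rw [this]
    omega

section bridge

variable (L : ℕ) (items ss bs ys : List ℕ)

/-- The scaled size. -/
def phi (L : ℕ) (n : ℕ) : ℚ := (n : ℚ) / L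

/-- The instance: sizes `n / L`. -/
def inst (L : ℕ) (items : List ℕ) : List ℚ := items.map (phi L)

theorem phi_injective {L : ℕ} (hL : 0 < L) : Function.Injective (phi L) := by
  intro a b h
  have hL' : (L : ℚ) ≠ 0 := by positivity
  simp only [phi] at h
  field_simp at h
  exact_mod_cast h

theorem count_inst {L : ℕ} (hL : 0 < L) (items : List ℕ) (x : ℕ) :
    (inst L items).count (phi L x) = items.count x := by
  simpa [inst] using List.count_map_of_injective items (phi L) (phi_injective hL) x

variable {L items ss bs ys}

/-- The indices of a packing, counted by type. -/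
theorem exists_type (hmem : ∀ a ∈ items, a ∈ ss) (i : Fin (inst L items).length) :
    ∃ t : Fin ss.length, phi L (ss.get t) = (inst L items).get i := by
  have h : (inst L items).get i ∈ inst L items := List.get_mem _ _
  simp only [inst, List.mem_map] at h
  obtain ⟨a, ha, ha'⟩ := h
  obtain ⟨t, ht⟩ := List.get_of_mem (hmem a ha)
  refine ⟨t, ?_⟩
  rw [ht]
  exact ha'

/-- From a packing to a decomposition in count vectors. -/
theorem decomposition_of_packs (hL : 0 < L) (hnd : ss.Nodup) (hmem : ∀ a ∈ items, a ∈ ss)
    {K : ℕ} (h : Packs (inst L items) K) :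
    ∃ N : Fin K → Fin ss.length → ℕ,
      (∀ j, ∑ t, ss.get t * N j t ≤ L) ∧
      (∀ t, ∑ j, N j t = items.count (ss.get t)) := by
  classical
  obtain ⟨f, hf⟩ := h
  choose τ hτ using exists_type (L := L) (items := items) (ss := ss) hmem
  have hinj : Function.Injective (fun t : Fin ss.length => phi L (ss.get t)) := by
    intro a b hab
    exact (List.Nodup.get_inj_iff hnd).mp (phi_injective hL hab)
  refine ⟨fun j t => (univ.filter (fun i => f i = j ∧ τ i = t)).card, ?_, ?_⟩
  · intro j
    have h1 := hf j
    have hL' : (0 : ℚ) < L := by exact_mod_cast hL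
    have h2 : ∑ i ∈ univ.filter (fun i => f i = j), (inst L items).get i =
        (∑ t, ((ss.get t * (univ.filter (fun i => f i = j ∧ τ i = t)).card : ℕ) : ℚ)) / L := by
      rw [Finset.sum_div]
      rw [← Finset.sum_fiberwise _ τ]
      refine Finset.sum_congr rfl fun t _ => ?_
      have : ∀ i ∈ (univ.filter (fun i => f i = j)).filter (fun i => τ i = t),
          (inst L items).get i = phi L (ss.get t) := by
        intro i hi
        simp only [Finset.mem_filter] at hi
        rw [← hτ i, hi.2]
      rw [Finset.sum_congr rfl this, Finset.sum_const, Finset.filter_filter]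
      simp only [nsmul_eq_mul, phi]
      push_cast
      ring
    rw [h2, div_le_one hL'] at h1
    exact_mod_cast h1
  · intro t
    have h1 : ∑ j, (univ.filter (fun i => f i = j ∧ τ i = t)).card =
        (univ.filter (fun i => τ i = t)).card := by
      rw [Finset.card_eq_sum_card_fiberwise (s := univ.filter (fun i => τ i = t)) (f := f)
        (t := univ) (fun _ _ => by simp)]
      refine Finset.sum_congr rfl fun j _ => ?_
      congr 1
      ext i
      simp [and_comm]
    rw [h1, ← count_inst hL, ← card_filter_get_eq_count]
    congr 1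
    ext i
    simp only [Finset.mem_filter, Finset.mem_univ, true_and]
    constructor
    · intro h2
      rw [← hτ i, h2]
    · intro h2
      apply hinj
      simp only
      rw [hτ i, h2]

/-- A tree of dead states of the search: number of bins, budget, remaining counts. -/
inductive DTree where
  | leaf : DTree
  | node (l : DTree) (key k bud : ℕ) (rem : List ℕ) (r : DTree) : DTree

/-- Equality test for lists. -/
def eqL : List ℕ → List ℕ → Bool
  | [], [] => true
  | a :: as, b :: bs => Nat.beq a b && eqL as bs
  | _, _ => false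

theorem eq_of_eqL (a b : List ℕ) (h : eqL a b = true) : a = b := by
  induction a generalizing b with
  | nil =>
    cases b with
    | nil => rfl
    | cons y b => simp [eqL] at h
  | cons x a ih =>
    cases b with
    | nil => simp [eqL] at h
    | cons y b =>
      simp only [eqL, Bool.and_eq_true] at h
      rw [Nat.eq_of_beq_eq_true h.1, ih b h.2]

/-- The search key of a state (any function will do for the soundness). -/
def keyOf (k : ℕ) (rem : List ℕ) : ℕ := rem.foldl (fun acc x => acc * 16 + x) k

/-- Look up a state. -/
def memT : DTree → ℕ → ℕ → List ℕ → ℕ → Bool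
  | .leaf, _, _, _, _ => false
  | .node l a k0 b0 r0 r, x, k, rem, bud =>
      if Nat.beq x a then Nat.beq k k0 && Nat.ble bud b0 && eqL rem r0
      else if Nat.ble x a then memT l x k rem bud else memT r x k rem bud

/-- Membership in the tree. -/
def InT (k b : ℕ) (r0 : List ℕ) : DTree → Prop
  | .leaf => False
  | .node l _ k' b' r' r => (k = k' ∧ b = b' ∧ r0 = r') ∨ InT k b r0 l ∨ InT k b r0 r

theorem memT_sound (t : DTree) (x k : ℕ) (rem : List ℕ) (bud : ℕ)
    (h : memT t x k rem bud = true) : ∃ b0, bud ≤ b0 ∧ InT k b0 rem t := by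
  induction t with
  | leaf => simp [memT] at h
  | node l a k0 b0 r0 r ihl ihr =>
    simp only [memT] at h
    split_ifs at h with h1 h2
    · simp only [Bool.and_eq_true] at h
      refine ⟨b0, Nat.le_of_ble_eq_true h.1.2, Or.inl ⟨Nat.eq_of_beq_eq_true h.1.1, rfl, eq_of_eqL _ _ h.2⟩⟩
    · obtain ⟨b, hb, hin⟩ := ihl h
      exact ⟨b, hb, Or.inr (Or.inl hin)⟩
    · obtain ⟨b, hb, hin⟩ := ihr h
      exact ⟨b, hb, Or.inr (Or.inr hin)⟩

/-- Index of the first positive entry. -/
def firstIdx : List ℕ → ℕ
  | [] => 0
  | x :: xs => if Nat.beq x 0 then firstIdx xs + 1 else 0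

theorem firstIdx_eq (c : List ℕ) (f : ℕ) (h0 : ∀ i < f, c.getD i 0 = 0) (hf : c.getD f 0 ≠ 0) :
    firstIdx c = f := by
  induction c generalizing f with
  | nil => simp at hf
  | cons x c ih =>
    cases f with
    | zero =>
      have hx : x ≠ 0 := by simpa using hf
      have : Nat.beq x 0 = false := by
        rw [← Bool.not_eq_true]
        intro h
        exact hx (Nat.eq_of_beq_eq_true h)
      simp [firstIdx, this]
    | succ f =>
      have hx : x = 0 := by simpa using h0 0 (by omega)
      subst hx
      simp only [firstIdx, Nat.beq_refl, if_true]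
      congr 1
      apply ih
      · intro i hi
        have := h0 (i + 1) (by omega)
        simpa using this
      · simpa using hf

/-- `k` bins and remaining counts `rem` cannot work: either no bins are left and `rem` is not zero
or a lookup in the tree. -/
def deadChild (t : DTree) : ℕ → List ℕ → ℕ → Bool
  | 0, rem, _ => !allZero rem
  | k + 1, rem, bud => memT t (keyOf (k + 1) rem) (k + 1) rem bud

/-- The one step check of a state. -/
def stepOK (groups : List (List (List ℕ × ℕ))) (t : DTree) : ℕ → List ℕ → ℕ → Bool
  | 0, rem, _ => !allZero rem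
  | k + 1, rem, bud =>
      !allZero rem && (groups.getD (firstIdx rem) []).all (fun pw =>
        !Nat.ble pw.2 bud || !leL pw.1 rem || deadChild t k (subL rem pw.1) (bud - pw.2))

/-- The check of all states of a tree. -/
def checkTree (groups : List (List (List ℕ × ℕ))) (root : DTree) : DTree → Bool
  | .leaf => true
  | .node l _ k b r0 r =>
      stepOK groups root k r0 b && checkTree groups root l && checkTree groups root r

theorem checkTree_sound (groups : List (List (List ℕ × ℕ))) (root t : DTree)
    (h : checkTree groups root t = true) (k b : ℕ) (r0 : List ℕ) (hin : InT k b r0 t) :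
    stepOK groups root k r0 b = true := by
  induction t with
  | leaf => exact hin.elim
  | node l a k0 b0 r1 r ihl ihr =>
    simp only [checkTree, Bool.and_eq_true] at h
    rcases hin with ⟨rfl, rfl, rfl⟩ | hin | hin
    · exact h.1.1
    · exact ihl h.1.2 hin
    · exact ihr h.2 hin

/-- No decomposition of `rem` into `k` allowed patterns with total waste at most `bud`. -/
def NoDec (groups : List (List (List ℕ × ℕ))) (k : ℕ) (rem : List ℕ) (bud : ℕ) : Prop :=
  ∀ (cs : Fin k → List ℕ) (w : Fin k → ℕ), (∀ i, rem.getD i 0 = ∑ j, (cs j).getD i 0) →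
    (∀ j, (cs j, w j) ∈ groups.getD (firstIdx (cs j)) []) → ∑ j, w j ≤ bud → False

theorem allZero_spec (a : List ℕ) (h : allZero a = false) :
    ∃ f, (∀ i < f, a.getD i 0 = 0) ∧ a.getD f 0 ≠ 0 := by
  classical
  have hz : ∃ i, a.getD i 0 ≠ 0 := by
    by_contra hcon
    push Not at hcon
    rw [allZero_of_zero a hcon] at h
    exact absurd h (by simp)
  exact ⟨Nat.find hz, fun i hi => by simpa using Nat.find_min hz hi, Nat.find_spec hz⟩

/-- Soundness of the certificate. -/
theorem deadChild_sound (groups : List (List (List ℕ × ℕ))) (t : DTree)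
    (h : checkTree groups t t = true) (k : ℕ) :
    ∀ rem bud, deadChild t k rem bud = true → NoDec groups k rem bud := by
  induction k with
  | zero =>
    intro rem bud hd cs w hrem _ _
    simp only [deadChild, Bool.not_eq_true'] at hd
    have := allZero_of_zero rem (fun i => by simpa using hrem i)
    rw [hd] at this
    exact absurd this (by simp)
  | succ k ih =>
    intro rem bud hd cs w hrem hP hbud
    simp only [deadChild] at hd
    obtain ⟨b0, hb0, hin⟩ := memT_sound _ _ _ _ _ hd
    have hstep := checkTree_sound groups t t h _ _ _ hin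
    simp only [stepOK, Bool.and_eq_true, Bool.not_eq_true'] at hstep
    obtain ⟨f, h0, hf⟩ := allZero_spec rem hstep.1
    have hfi : firstIdx rem = f := firstIdx_eq rem f h0 hf
    have hpos : ∃ j, 0 < (cs j).getD f 0 := by
      by_contra hcon
      push Not at hcon
      apply hf
      rw [hrem f]
      exact Finset.sum_eq_zero fun j _ => Nat.le_zero.mp (hcon j)
    obtain ⟨j, hj⟩ := hpos
    have hle : ∀ i, (cs j).getD i 0 ≤ rem.getD i 0 := by
      intro i
      rw [hrem i, Fin.sum_univ_succAbove _ j]
      omega
    have hcf : firstIdx (cs j) = f := by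
      apply firstIdx_eq _ f
      · intro i hi
        have h1 := hle i
        rw [h0 i hi] at h1
        omega
      · omega
    have hmem := hP j
    rw [hcf, ← hfi] at hmem
    have hall := List.all_eq_true.mp hstep.2 _ hmem
    have hsumw := Fin.sum_univ_succAbove w j
    have hwj : w j ≤ b0 := by omega
    simp only [Bool.or_eq_true, Bool.not_eq_true'] at hall
    rcases hall with (h1 | h1) | h1
    · have : Nat.ble (w j) b0 = true := Nat.ble_eq_true_of_le hwj
      rw [this] at h1
      exact absurd h1 (by simp)
    · rw [leL_of_le _ _ hle] at h1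
      exact absurd h1 (by simp)
    · refine ih _ _ h1 (fun i => cs (j.succAbove i)) (fun i => w (j.succAbove i)) ?_ (fun i => hP _) ?_
      · intro i
        rw [getD_subL, hrem i, Fin.sum_univ_succAbove _ j]
        omega
      · omega

/-- The main lower bound for `OPT`, in certificate form. -/
theorem not_packs_tree (hL : 0 < L) (hpos : ∀ s ∈ ss, 0 < s) (hnd : ss.Nodup)
    (hmem : ∀ a ∈ items, a ∈ ss) (hlenb : bs.length = ss.length) (hleny : ys.length = ss.length)
    (hcount : ∀ t : Fin ss.length, items.count (ss.get t) = bs.getD t 0)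
    {D K G : ℕ} {groups : List (List (List ℕ × ℕ))} {t : DTree} (hdual : maxY ss ys L ≤ D)
    (htot : K * D ≤ dot ys bs + G)
    (hP : ∀ c ∈ enumAll ss bs L, D ≤ dot ys c + G →
      (c, D - dot ys c) ∈ groups.getD (firstIdx c) [])
    (hC : checkTree groups t t = true) (hR : deadChild t K bs G = true) :
    ¬ Packs (inst L items) K := by
  intro h
  obtain ⟨N, hN1, hN2⟩ := decomposition_of_packs hL hnd hmem h
  let cs : Fin K → List ℕ := fun j => List.ofFn (N j)
  let w : Fin K → ℕ := fun j => D - dot ys (cs j)
  have hdotss : ∀ j, dot ss (cs j) ≤ L := by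
    intro j
    rw [dot_eq_sum]
    refine le_trans (le_of_eq ?_) (hN1 j)
    refine Finset.sum_congr rfl fun t _ => ?_
    rw [getD_ofFn]
  have hlen : ∀ j, (cs j).length = ss.length := fun j => by simp [cs]
  have hyle : ∀ j, dot ys (cs j) ≤ D := fun j =>
    le_trans (dot_le_maxY ss ys hpos (cs j) L hleny.symm (hlen j) (hdotss j)) hdual
  have hsumdot : ∑ j, dot ys (cs j) = dot ys bs := by
    have e : ∀ c : List ℕ, dot ys c = ∑ t : Fin ss.length, ys.getD t 0 * c.getD t 0 := by
      intro c
      rw [dot_eq_sum]
      refine Finset.sum_equiv (finCongr hleny) (fun _ => by simp) fun t _ => ?_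
      have h1 : ys.getD t 0 = ys.get t := by
        simp [List.getD_eq_getElem?_getD]
      simp only [finCongr_apply, Fin.val_cast]
      rw [h1]
    simp only [e]
    rw [Finset.sum_comm]
    refine Finset.sum_congr rfl fun t _ => ?_
    rw [← Finset.mul_sum, ← hcount t, ← hN2 t]
    congr 1
    refine Finset.sum_congr rfl fun j _ => ?_
    simp only [cs]
    rw [getD_ofFn]
  have hsumw : ∑ j, w j ≤ G := by
    have h1 : ∑ j, (w j + dot ys (cs j)) = K * D := by
      have : ∀ j, w j + dot ys (cs j) = D := fun j => by
        have := hyle j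
        simp only [w]
        omega
      simp [this]
    rw [Finset.sum_add_distrib, hsumdot] at h1
    omega
  have hmemP : ∀ j, (cs j, w j) ∈ groups.getD (firstIdx (cs j)) [] := by
    intro j
    refine hP (cs j) (mem_enumAll ss bs hpos (cs j) L hlenb.symm (hlen j) ?_ (hdotss j)) ?_
    · intro i
      by_cases hi : i < ss.length
      · have h1 := hcount ⟨i, hi⟩
        have h2 := hN2 ⟨i, hi⟩
        simp only at h1
        rw [← h1, ← h2]
        have h3 : (cs j).getD i 0 = N j ⟨i, hi⟩ := getD_ofFn (N j) ⟨i, hi⟩
        rw [h3]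
        exact Finset.single_le_sum (f := fun j' => N j' ⟨i, hi⟩) (fun _ _ => Nat.zero_le _)
          (Finset.mem_univ j)
      · have h3 : (cs j).getD i 0 = 0 := getD_ofFn_ge (N j) (by omega)
        rw [h3]
        exact Nat.zero_le _
    · have : w j ≤ G := le_trans (Finset.single_le_sum (f := w) (fun _ _ => Nat.zero_le _)
        (Finset.mem_univ j)) hsumw
      have h4 := hyle j
      simp only [w] at this
      omega
  refine deadChild_sound groups t hC K bs G hR cs w (fun i => ?_) hmemP hsumw
  by_cases hi : i < ss.length
  · have h1 := hcount ⟨i, hi⟩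
    have h2 := hN2 ⟨i, hi⟩
    simp only at h1
    rw [← h1, ← h2]
    refine Finset.sum_congr rfl fun j _ => ?_
    exact (getD_ofFn (N j) ⟨i, hi⟩).symm
  · have h3 : bs.getD i 0 = 0 := by
      simp [List.getD_eq_getElem?_getD, hlenb, not_lt.mp hi]
    rw [h3]
    symm
    refine Finset.sum_eq_zero fun j _ => getD_ofFn_ge (N j) (by omega)

/-- The main lower bound for `OPT`. -/
theorem not_packs (hL : 0 < L) (hpos : ∀ s ∈ ss, 0 < s) (hnd : ss.Nodup)
    (hmem : ∀ a ∈ items, a ∈ ss) (hlenb : bs.length = ss.length) (hleny : ys.length = ss.length)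
    (hcount : ∀ t : Fin ss.length, items.count (ss.get t) = bs.getD t 0)
    {D K G : ℕ} {P : List (List ℕ × ℕ)} (hdual : maxY ss ys L ≤ D)
    (htot : K * D ≤ dot ys bs + G)
    (hP : ∀ c ∈ enumAll ss bs L, D ≤ dot ys c + G → (c, D - dot ys c) ∈ P)
    (hS : search P K bs G = false) : ¬ Packs (inst L items) K := by
  intro h
  obtain ⟨N, hN1, hN2⟩ := decomposition_of_packs hL hnd hmem h
  let cs : Fin K → List ℕ := fun j => List.ofFn (N j)
  let w : Fin K → ℕ := fun j => D - dot ys (cs j)
  have hdotss : ∀ j, dot ss (cs j) ≤ L := by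
    intro j
    rw [dot_eq_sum]
    refine le_trans (le_of_eq ?_) (hN1 j)
    refine Finset.sum_congr rfl fun t _ => ?_
    rw [getD_ofFn]
  have hlen : ∀ j, (cs j).length = ss.length := fun j => by simp [cs]
  have hyle : ∀ j, dot ys (cs j) ≤ D := fun j =>
    le_trans (dot_le_maxY ss ys hpos (cs j) L hleny.symm (hlen j) (hdotss j)) hdual
  have hsumdot : ∑ j, dot ys (cs j) = dot ys bs := by
    have e : ∀ c : List ℕ, dot ys c = ∑ t : Fin ss.length, ys.getD t 0 * c.getD t 0 := by
      intro c
      rw [dot_eq_sum]
      refine Finset.sum_equiv (finCongr hleny) (fun _ => by simp) fun t _ => ?_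
      have h1 : ys.getD t 0 = ys.get t := by
        simp [List.getD_eq_getElem?_getD]
      simp only [finCongr_apply, Fin.val_cast]
      rw [h1]
    simp only [e]
    rw [Finset.sum_comm]
    refine Finset.sum_congr rfl fun t _ => ?_
    rw [← Finset.mul_sum, ← hcount t, ← hN2 t]
    congr 1
    refine Finset.sum_congr rfl fun j _ => ?_
    simp only [cs]
    rw [getD_ofFn]
  have hsumw : ∑ j, w j ≤ G := by
    have h1 : ∑ j, (w j + dot ys (cs j)) = K * D := by
      have : ∀ j, w j + dot ys (cs j) = D := fun j => by
        have := hyle j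
        simp only [w]
        omega
      simp [this]
    rw [Finset.sum_add_distrib, hsumdot] at h1
    omega
  have hmemP : ∀ j, (cs j, w j) ∈ P := by
    intro j
    refine hP (cs j) (mem_enumAll ss bs hpos (cs j) L hlenb.symm (hlen j) ?_ (hdotss j)) ?_
    · intro i
      by_cases hi : i < ss.length
      · have h1 := hcount ⟨i, hi⟩
        have h2 := hN2 ⟨i, hi⟩
        simp only at h1
        rw [← h1, ← h2]
        have h3 : (cs j).getD i 0 = N j ⟨i, hi⟩ := getD_ofFn (N j) ⟨i, hi⟩
        rw [h3]
        exact Finset.single_le_sum (f := fun j' => N j' ⟨i, hi⟩) (fun _ _ => Nat.zero_le _)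
          (Finset.mem_univ j)
      · have h3 : (cs j).getD i 0 = 0 := getD_ofFn_ge (N j) (by omega)
        rw [h3]
        exact Nat.zero_le _
    · have : w j ≤ G := le_trans (Finset.single_le_sum (f := w) (fun _ _ => Nat.zero_le _)
        (Finset.mem_univ j)) hsumw
      have h4 := hyle j
      simp only [w] at this
      omega
  have := search_complete P K bs G cs w (fun i => ?_) hmemP hsumw
  · rw [hS] at this
    exact absurd this (by simp)
  · by_cases hi : i < ss.length
    · have h1 := hcount ⟨i, hi⟩
      have h2 := hN2 ⟨i, hi⟩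
      simp only at h1
      rw [← h1, ← h2]
      refine Finset.sum_congr rfl fun j _ => ?_
      exact (getD_ofFn (N j) ⟨i, hi⟩).symm
    · have h3 : bs.getD i 0 = 0 := by
        simp [List.getD_eq_getElem?_getD, hlenb, not_lt.mp hi]
      rw [h3]
      symm
      refine Finset.sum_eq_zero fun j _ => getD_ofFn_ge (N j) (by omega)

/-- `Packs` is monotone in the number of bins. -/
theorem Packs.mono {I : List ℚ} {k K : ℕ} (hk : k ≤ K) (h : Packs I k) : Packs I K := by
  classical
  obtain ⟨f, hf⟩ := h
  refine ⟨fun i => Fin.castLE hk (f i), fun j => ?_⟩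
  by_cases hj : (j : ℕ) < k
  · have : (univ.filter (fun i => Fin.castLE hk (f i) = j)) =
        univ.filter (fun i => f i = ⟨j, hj⟩) := by
      ext i
      simp only [Finset.mem_filter, Finset.mem_univ, true_and, Fin.ext_iff, Fin.val_castLE]
    rw [this]
    exact hf _
  · have : (univ.filter (fun i => Fin.castLE hk (f i) = j)) = ∅ := by
      ext i
      simp only [Finset.mem_filter, Finset.mem_univ, true_and, Fin.ext_iff, Fin.val_castLE,
        Finset.notMem_empty, iff_false]
      have := (f i).isLt
      omega
    rw [this]
    simp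

/-- Every bin holding one item is a packing. -/
theorem packs_self {I : List ℚ} (hI : ∀ a ∈ I, a ≤ 1) : Packs I I.length := by
  classical
  refine ⟨id, fun j => ?_⟩
  have : (univ.filter (fun i => id i = j)) = {j} := by
    ext i
    simp
  rw [this, Finset.sum_singleton]
  exact hI _ (List.get_mem _ _)

/-- `OPT` is attained. -/
theorem OPT_mem {I : List ℚ} (hI : ∀ a ∈ I, a ≤ 1) : Packs I (OPT I) :=
  Nat.sInf_mem (s := {k | Packs I k}) ⟨_, packs_self hI⟩

/-- Lower bound for `OPT`. -/
theorem lt_OPT {I : List ℚ} (hI : ∀ a ∈ I, a ≤ 1) {K : ℕ} (h : ¬ Packs I K) : K < OPT I := by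
  by_contra hcon
  exact h ((OPT_mem hI).mono (not_lt.mp hcon))

/-- Upper bound for `OPT`. -/
theorem OPT_le {I : List ℚ} {K : ℕ} (h : Packs I K) : OPT I ≤ K := Nat.sInf_le h

/-- An explicit packing, from a list of bin numbers. -/
theorem packs_of_assign {L : ℕ} (hL : 0 < L) {items : List ℕ} {K : ℕ} (a : List ℕ)
    (ha : ∀ i ∈ Finset.range items.length, a.getD i 0 < K)
    (hfit : ∀ j ∈ Finset.range K,
      ∑ i ∈ Finset.range items.length, (if a.getD i 0 = j then items.getD i 0 else 0) ≤ L) :
    Packs (inst L items) K := by
  classical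
  have hlen : (inst L items).length = items.length := by simp [inst]
  refine ⟨fun i => ⟨a.getD i 0, ha i (by simpa [hlen] using i.isLt)⟩, fun j => ?_⟩
  have hL' : (0 : ℚ) < L := by exact_mod_cast hL
  have h1 := hfit j (by simp)
  have h2 : ∑ i ∈ univ.filter (fun i : Fin (inst L items).length =>
        (⟨a.getD i 0, ha i (by simpa [hlen] using i.isLt)⟩ : Fin K) = j), (inst L items).get i =
      ((∑ i ∈ Finset.range items.length,
        (if a.getD i 0 = j then items.getD i 0 else 0) : ℕ) : ℚ) / L := by
    rw [Finset.sum_filter, ← Fin.sum_univ_eq_sum_range, Nat.cast_sum, Finset.sum_div]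
    refine Finset.sum_equiv (finCongr hlen) (fun _ => by simp) fun i _ => ?_
    simp only [Fin.ext_iff, finCongr_apply, Fin.val_cast]
    split_ifs with h3
    · have hi : (i : ℕ) < items.length := by simpa [hlen] using i.isLt
      have h5 : (inst L items).get i = phi L (items[(i : ℕ)]'hi) := by
        have h6 : ∀ (l : List ℚ) (_ : l = items.map (phi L)) (k : ℕ) (hk : k < l.length)
            (hk' : k < items.length), l[k] = phi L items[k] := by
          intro l hl k hk hk'
          subst hl
          simp
        exact h6 _ rfl _ _ hi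
      rw [h5, List.getD_eq_getElem _ _ hi]
      rfl
    · simp
  rw [h2, div_le_one hL']
  exact_mod_cast h1

section LPbounds

variable {L : ℕ} {items ss bs ys : List ℕ}

/-- The configuration attached to a vector of counts. -/
noncomputable def cfg (L : ℕ) (ss p : List ℕ) (σ : ℚ) : ℕ :=
  by classical exact ∑ t : Fin ss.length, if σ = phi L (ss.get t) then p.getD t 0 else 0

theorem cfg_phi (hL : 0 < L) (hnd : ss.Nodup) (p : List ℕ) (t : Fin ss.length) :
    cfg L ss p (phi L (ss.get t)) = p.getD t 0 := by
  classical
  unfold cfg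
  rw [Finset.sum_eq_single t]
  · simp
  · intro u _ hu
    rw [if_neg]
    intro h
    exact hu ((List.Nodup.get_inj_iff hnd).mp (phi_injective hL h)).symm
  · simp

theorem toFinset_inst (hss : ∀ s ∈ ss, s ∈ items) (hmem : ∀ a ∈ items, a ∈ ss) :
    (inst L items).toFinset = univ.image (fun t : Fin ss.length => phi L (ss.get t)) := by
  classical
  ext σ
  simp only [List.mem_toFinset, inst, List.mem_map, Finset.mem_image, Finset.mem_univ, true_and]
  constructor
  · rintro ⟨a, ha, rfl⟩
    obtain ⟨t, ht⟩ := List.get_of_mem (hmem a ha)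
    exact ⟨t, by rw [ht]⟩
  · rintro ⟨t, rfl⟩
    exact ⟨ss.get t, hss _ (List.get_mem _ _), rfl⟩

theorem sum_toFinset_inst (hL : 0 < L) (hnd : ss.Nodup) (hss : ∀ s ∈ ss, s ∈ items)
    (hmem : ∀ a ∈ items, a ∈ ss) (g : ℚ → ℚ) :
    ∑ σ ∈ (inst L items).toFinset, g σ = ∑ t : Fin ss.length, g (phi L (ss.get t)) := by
  classical
  rw [toFinset_inst hss hmem, Finset.sum_image]
  intro a _ b _ hab
  exact (List.Nodup.get_inj_iff hnd).mp (phi_injective hL hab)

/-- A vector of counts gives a configuration. -/
theorem isConfig_cfg (hL : 0 < L) (hnd : ss.Nodup) (hss : ∀ s ∈ ss, s ∈ items)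
    (hmem : ∀ a ∈ items, a ∈ ss) (p : List ℕ) (hp : dot ss p ≤ L) :
    IsConfig (inst L items) (cfg L ss p) := by
  classical
  constructor
  · intro σ hσ
    unfold cfg
    refine Finset.sum_eq_zero fun t _ => ?_
    rw [if_neg]
    rintro rfl
    apply hσ
    simp only [inst, List.mem_map]
    exact ⟨ss.get t, hss _ (List.get_mem _ _), rfl⟩
  · rw [sum_toFinset_inst hL hnd hss hmem]
    simp only [cfg_phi hL hnd]
    have hL' : (0 : ℚ) < L := by exact_mod_cast hL
    have h1 : ∑ t : Fin ss.length, phi L (ss.get t) * (p.getD t 0 : ℚ) = ((dot ss p : ℕ) : ℚ) / L := by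
      rw [dot_eq_sum, Nat.cast_sum, Finset.sum_div]
      refine Finset.sum_congr rfl fun t _ => ?_
      simp only [phi]
      push_cast
      ring
    rw [h1, div_le_one hL']
    exact_mod_cast hp

/-- A fractional solution from explicit data: pairs (vector of counts, integer weight), common
denominator `W`. -/
theorem lpValue_of_sol (hL : 0 < L) (hnd : ss.Nodup) (hss : ∀ s ∈ ss, s ∈ items)
    (hmem : ∀ a ∈ items, a ∈ ss) (hcount : ∀ t : Fin ss.length, items.count (ss.get t) = bs.getD t 0)
    {W V : ℕ} (hW : 0 < W) (sol : List (List ℕ × ℕ)) (hfit : ∀ q ∈ sol, dot ss q.1 ≤ L)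
    (hcov : ∀ t : Fin ss.length, bs.getD t 0 * W ≤ (sol.map (fun q => q.1.getD t 0 * q.2)).sum)
    (hV : (sol.map (fun q => q.2)).sum = V) :
    LPValue (inst L items) ((V : ℝ) / W) := by
  classical
  have hW' : (0 : ℝ) < W := by exact_mod_cast hW
  refine ⟨sol.length, fun i => cfg L ss (sol[i.1]).1, fun i => ((sol[i.1]).2 : ℝ) / W, ?_, ?_, ?_, ?_⟩
  · intro i
    exact isConfig_cfg hL hnd hss hmem _ (hfit _ (List.getElem_mem _))
  · intro i
    positivity
  · intro σ hσ
    simp only [inst, List.mem_map] at hσ
    obtain ⟨a, ha, rfl⟩ := hσ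
    obtain ⟨t, ht⟩ := List.get_of_mem (hmem a ha)
    rw [← ht]
    have h1 : (inst L items).count (phi L (ss.get t)) = bs.getD t 0 := by
      rw [count_inst hL, hcount t]
    rw [h1]
    simp only [cfg_phi hL hnd]
    have h2 : ∑ i : Fin sol.length, (((sol[i.1]).1.getD t 0 : ℕ) : ℝ) * (((sol[i.1]).2 : ℝ) / W) =
        (((sol.map (fun q => q.1.getD t 0 * q.2)).sum : ℕ) : ℝ) / W := by
      have h3 := Fin.sum_univ_fun_getElem sol (fun q => q.1.getD t 0 * q.2)
      rw [← h3]
      push_cast
      rw [Finset.sum_div]
      refine Finset.sum_congr rfl fun i _ => ?_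
      ring
    rw [h2, le_div_iff₀ hW']
    exact_mod_cast hcov t
  · have h3 := Fin.sum_univ_fun_getElem sol (fun q => q.2)
    rw [← hV, ← h3]
    push_cast
    rw [Finset.sum_div]

/-- The weak duality bound: every feasible value is at least `dot ys bs / D`. -/
theorem dual_bound (hL : 0 < L) (hpos : ∀ s ∈ ss, 0 < s) (hnd : ss.Nodup)
    (hss : ∀ s ∈ ss, s ∈ items) (hmem : ∀ a ∈ items, a ∈ ss)
    (hleny : ys.length = ss.length)
    (hcount : ∀ t : Fin ss.length, items.count (ss.get t) = bs.getD t 0)
    {D : ℕ} (hdual : maxY ss ys L ≤ D) {v : ℝ} (hv : LPValue (inst L items) v) :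
    ((dot ys bs : ℕ) : ℝ) ≤ D * v := by
  classical
  obtain ⟨n, c, z, hc, hz, hcov, rfl⟩ := hv
  let C : Fin n → Fin ss.length → ℕ := fun i t => c i (phi L (ss.get t))
  have hY : ∀ i, dot ys (List.ofFn (C i)) ≤ D := by
    intro i
    refine le_trans (dot_le_maxY ss ys hpos _ L hleny.symm (by simp) ?_) hdual
    have h1 := (hc i).2
    rw [sum_toFinset_inst hL hnd hss hmem] at h1
    have hL' : (0 : ℚ) < L := by exact_mod_cast hL
    have h2 : ∑ t : Fin ss.length, phi L (ss.get t) * (c i (phi L (ss.get t)) : ℚ) =
        ((dot ss (List.ofFn (C i)) : ℕ) : ℚ) / L := by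
      rw [dot_eq_sum, Nat.cast_sum, Finset.sum_div]
      refine Finset.sum_congr rfl fun t _ => ?_
      rw [getD_ofFn]
      simp only [phi, C]
      push_cast
      ring
    rw [h2, div_le_one hL'] at h1
    exact_mod_cast h1
  have e : ∀ c : List ℕ, dot ys c = ∑ t : Fin ss.length, ys.getD t 0 * c.getD t 0 := by
    intro c
    rw [dot_eq_sum]
    refine Finset.sum_equiv (finCongr hleny) (fun _ => by simp) fun t _ => ?_
    have h1 : ys.getD t 0 = ys.get t := by
      simp [List.getD_eq_getElem?_getD]
    simp only [finCongr_apply, Fin.val_cast]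
    rw [h1]
  have hb : ∀ t : Fin ss.length, (bs.getD t 0 : ℝ) ≤ ∑ i, (C i t : ℝ) * z i := by
    intro t
    have hm : phi L (ss.get t) ∈ inst L items := by
      simp only [inst, List.mem_map]
      exact ⟨ss.get t, hss _ (List.get_mem _ _), rfl⟩
    have h1 := hcov _ hm
    rw [count_inst hL, hcount t] at h1
    exact h1
  calc ((dot ys bs : ℕ) : ℝ) = ∑ t : Fin ss.length, (ys.getD t 0 : ℝ) * (bs.getD t 0 : ℝ) := by
        rw [e]
        push_cast
        rfl
    _ ≤ ∑ t : Fin ss.length, (ys.getD t 0 : ℝ) * ∑ i, (C i t : ℝ) * z i := by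
        refine Finset.sum_le_sum fun t _ => ?_
        exact mul_le_mul_of_nonneg_left (hb t) (by positivity)
    _ = ∑ i, z i * ((dot ys (List.ofFn (C i)) : ℕ) : ℝ) := by
        simp only [e, Finset.mul_sum]
        rw [Finset.sum_comm]
        refine Finset.sum_congr rfl fun i _ => ?_
        push_cast
        rw [Finset.mul_sum]
        refine Finset.sum_congr rfl fun t _ => ?_
        have := getD_ofFn (C i) t
        rw [this]
        ring
    _ ≤ ∑ i, z i * (D : ℝ) := by
        refine Finset.sum_le_sum fun i _ => ?_
        refine mul_le_mul_of_nonneg_left ?_ (hz i)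
        exact_mod_cast hY i
    _ = D * ∑ i, z i := by
        rw [Finset.mul_sum]
        refine Finset.sum_congr rfl fun i _ => ?_
        ring

/-- The exact value of the configuration LP from a primal and a dual solution. -/
theorem LP_eq (hL : 0 < L) (hpos : ∀ s ∈ ss, 0 < s) (hnd : ss.Nodup)
    (hss : ∀ s ∈ ss, s ∈ items) (hmem : ∀ a ∈ items, a ∈ ss)
    (hleny : ys.length = ss.length)
    (hcount : ∀ t : Fin ss.length, items.count (ss.get t) = bs.getD t 0)
    {D : ℕ} (hD : 0 < D) (hdual : maxY ss ys L ≤ D)
    {W V : ℕ} (hW : 0 < W) (sol : List (List ℕ × ℕ)) (hfit : ∀ q ∈ sol, dot ss q.1 ≤ L)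
    (hcov : ∀ t : Fin ss.length, bs.getD t 0 * W ≤ (sol.map (fun q => q.1.getD t 0 * q.2)).sum)
    (hV : (sol.map (fun q => q.2)).sum = V) (hval : dot ys bs * W = V * D) :
    LP (inst L items) = (V : ℝ) / W := by
  have hD' : (0 : ℝ) < D := by exact_mod_cast hD
  have hW' : (0 : ℝ) < W := by exact_mod_cast hW
  have hprimal := lpValue_of_sol hL hnd hss hmem hcount hW sol hfit hcov hV
  have hlow : ∀ v ∈ {v | LPValue (inst L items) v}, (V : ℝ) / W ≤ v := by
    intro v hv
    have h1 := dual_bound hL hpos hnd hss hmem hleny hcount hdual hv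
    have h2 : ((dot ys bs : ℕ) : ℝ) * W = V * D := by exact_mod_cast hval
    rw [div_le_iff₀ hW']
    have h3 : (V : ℝ) * D ≤ D * v * W := by
      rw [← h2]
      exact mul_le_mul_of_nonneg_right h1 hW'.le
    have h4 : (V : ℝ) * D ≤ v * W * D := by linarith
    exact le_of_mul_le_mul_right h4 hD'
  apply le_antisymm
  · exact csInf_le ⟨_, hlow⟩ hprimal
  · exact le_csInf ⟨_, hprimal⟩ hlow

end LPbounds

end bridge

end Vale.Agent.P302
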