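/-
P302: a stronger certificate for lower bounds on OPT: only patterns that are maximal with respect
to the remaining items have to be searched, and a size bound prunes states.
-/
import Vale.Agent.P302.Cert

open Finset

namespace Vale.Agent.P302

section Fun

variable {m : ℕ} (s : Fin m → ℕ) (L : ℕ)

/-- The count vector `r` splits in `k` vectors of total size at most `L`. -/
def DecF (k : ℕ) (r : Fin m → ℕ) : Prop :=
  ∃ N : Fin k → Fin m → ℕ, (∀ j, ∑ t, s t * N j t ≤ L) ∧ ∀ t, ∑ j, N j t = r t

variable {s L}

/-- Removing one item keeps a decomposition. -/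
theorem DecF.dec_one {k : ℕ} {r : Fin m → ℕ} (h : DecF s L k r) (t0 : Fin m) (hr : 0 < r t0) :
    DecF s L k (Function.update r t0 (r t0 - 1)) := by
  classical
  obtain ⟨N, h1, h2⟩ := h
  have hj : ∃ j0, 0 < N j0 t0 := by
    by_contra hcon
    push Not at hcon
    have : r t0 = 0 := by
      rw [← h2 t0]
      exact Finset.sum_eq_zero fun j _ => Nat.le_zero.mp (hcon j)
    omega
  obtain ⟨j0, hj0⟩ := hj
  refine ⟨fun j t => if j = j0 ∧ t = t0 then N j t - 1 else N j t, ?_, ?_⟩
  · intro j
    refine le_trans (Finset.sum_le_sum fun t _ => ?_) (h1 j)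
    apply Nat.mul_le_mul_left
    dsimp only
    split_ifs <;> omega
  · intro t
    by_cases ht : t = t0
    · subst ht
      rw [Function.update_self]
      have e1 : N j0 t + ∑ x ∈ univ.erase j0, N x t = ∑ j, N j t :=
        Finset.add_sum_erase univ (fun j => N j t) (Finset.mem_univ j0)
      have e2 : (if j0 = j0 ∧ t = t then N j0 t - 1 else N j0 t) +
          ∑ x ∈ univ.erase j0, (if x = j0 ∧ t = t then N x t - 1 else N x t) =
          ∑ j, (if j = j0 ∧ t = t then N j t - 1 else N j t) :=
        Finset.add_sum_erase univ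
          (fun j => if j = j0 ∧ t = t then N j t - 1 else N j t) (Finset.mem_univ j0)
      have e3 : ∑ x ∈ univ.erase j0, (if x = j0 ∧ t = t then N x t - 1 else N x t) =
          ∑ x ∈ univ.erase j0, N x t := by
        refine Finset.sum_congr rfl fun x hx => ?_
        have : x ≠ j0 := (Finset.mem_erase.mp hx).1
        simp [this]
      have e5 : (if j0 = j0 ∧ t = t then N j0 t - 1 else N j0 t) = N j0 t - 1 := by simp
      have e4 := h2 t
      rw [e3, e5] at e2
      show (∑ j, if j = j0 ∧ t = t then N j t - 1 else N j t) = _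
      rw [← e2]
      omega
    · rw [Function.update_of_ne ht, ← h2 t]
      refine Finset.sum_congr rfl fun j _ => ?_
      simp [ht]

/-- A decomposition has the total size bound. -/
theorem DecF.size_le {k : ℕ} {r : Fin m → ℕ} (h : DecF s L k r) : ∑ t, s t * r t ≤ k * L := by
  obtain ⟨N, h1, h2⟩ := h
  have e : ∑ t, s t * r t = ∑ j, ∑ t, s t * N j t := by
    rw [Finset.sum_comm]
    refine Finset.sum_congr rfl fun t _ => ?_
    rw [← h2 t, Finset.mul_sum]
  rw [e]
  calc ∑ j, ∑ t, s t * N j t ≤ ∑ _j : Fin k, L := Finset.sum_le_sum fun j _ => h1 j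
    _ = k * L := by simp

/-- Weighted sums along a decomposition, when each bin has weight at most `D`. -/
theorem DecF.weight_le {k : ℕ} {r : Fin m → ℕ} (h : DecF s L k r) (y : Fin m → ℕ) (D : ℕ)
    (hy : ∀ c : Fin m → ℕ, ∑ t, s t * c t ≤ L → ∑ t, y t * c t ≤ D) :
    ∑ t, y t * r t ≤ k * D := by
  obtain ⟨N, h1, h2⟩ := h
  have e : ∑ t, y t * r t = ∑ j, ∑ t, y t * N j t := by
    rw [Finset.sum_comm]
    refine Finset.sum_congr rfl fun t _ => ?_
    rw [← h2 t, Finset.mul_sum]
  rw [e]
  calc ∑ j, ∑ t, y t * N j t ≤ ∑ _j : Fin k, D := Finset.sum_le_sum fun j _ => hy _ (h1 j)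
    _ = k * D := by simp

/-- Extend the bin of a decomposition until it is maximal. -/
theorem exists_maximal_of {k : ℕ} {r : Fin m → ℕ} {f : Fin m} :
    ∀ (n : ℕ) (c : Fin m → ℕ), ∑ t, (r t - c t) = n → ∑ t, s t * c t ≤ L → (∀ t, c t ≤ r t) →
      0 < c f → DecF s L k (fun t => r t - c t) →
      ∃ c' : Fin m → ℕ, ∑ t, s t * c' t ≤ L ∧ (∀ t, c' t ≤ r t) ∧ 0 < c' f ∧
        (∀ t, c' t < r t → L < ∑ t, s t * c' t + s t) ∧ DecF s L k (fun t => r t - c' t) := by
  classical
  intro n
  induction n with
  | zero =>
    intro c hn h1 h2 h3 h4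
    refine ⟨c, h1, h2, h3, ?_, h4⟩
    intro t ht
    have := (Finset.sum_eq_zero_iff.mp hn) t (Finset.mem_univ t)
    omega
  | succ n ih =>
    intro c hn h1 h2 h3 h4
    by_cases hmax : ∀ t, c t < r t → L < ∑ t, s t * c t + s t
    · exact ⟨c, h1, h2, h3, hmax, h4⟩
    · push Not at hmax
      obtain ⟨t0, ht0, hroom⟩ := hmax
      refine ih (Function.update c t0 (c t0 + 1)) ?_ ?_ ?_ ?_ ?_
      · -- the measure drops by one
        rw [← Finset.add_sum_erase _ _ (Finset.mem_univ t0)] at hn ⊢
        have e : ∑ x ∈ univ.erase t0, (r x - Function.update c t0 (c t0 + 1) x) =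
            ∑ x ∈ univ.erase t0, (r x - c x) := by
          refine Finset.sum_congr rfl fun x hx => ?_
          rw [Function.update_of_ne (Finset.mem_erase.mp hx).1]
        rw [e]
        simp only [Function.update_self]
        omega
      · have e : ∑ t, s t * Function.update c t0 (c t0 + 1) t = ∑ t, s t * c t + s t0 := by
          rw [← Finset.add_sum_erase _ _ (Finset.mem_univ t0),
            ← Finset.add_sum_erase (a := t0) _ (fun t => s t * c t) (Finset.mem_univ t0)]
          have e2 : ∑ x ∈ univ.erase t0, s x * Function.update c t0 (c t0 + 1) x =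
              ∑ x ∈ univ.erase t0, s x * c x := by
            refine Finset.sum_congr rfl fun x hx => ?_
            rw [Function.update_of_ne (Finset.mem_erase.mp hx).1]
          rw [e2]
          simp only [Function.update_self]
          ring
        rw [e]
        exact hroom
      · intro t
        by_cases ht : t = t0
        · subst ht
          simp only [Function.update_self]
          omega
        · rw [Function.update_of_ne ht]
          exact h2 t
      · by_cases hf : f = t0
        · subst hf
          simp
        · rw [Function.update_of_ne hf]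
          exact h3
      · have e : (fun t => r t - Function.update c t0 (c t0 + 1) t) =
            Function.update (fun t => r t - c t) t0 ((r t0 - c t0) - 1) := by
          funext t
          by_cases ht : t = t0
          · subst ht
            simp only [Function.update_self]
            omega
          · rw [Function.update_of_ne ht, Function.update_of_ne ht]
        rw [e]
        exact h4.dec_one t0 (by simpa using Nat.sub_pos_of_lt ht0)

/-- A decomposition into `k + 1` bins can be taken with a bin that contains an item of type `f`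
and is maximal with respect to all items. -/
theorem DecF.exists_maximal {k : ℕ} {r : Fin m → ℕ} (h : DecF s L (k + 1) r) {f : Fin m}
    (hf : 0 < r f) :
    ∃ c : Fin m → ℕ, ∑ t, s t * c t ≤ L ∧ (∀ t, c t ≤ r t) ∧ 0 < c f ∧
      (∀ t, c t < r t → L < ∑ t, s t * c t + s t) ∧ DecF s L k (fun t => r t - c t) := by
  obtain ⟨N, h1, h2⟩ := h
  have hj : ∃ j0, 0 < N j0 f := by
    by_contra hcon
    push Not at hcon
    have : r f = 0 := by
      rw [← h2 f]
      exact Finset.sum_eq_zero fun j _ => Nat.le_zero.mp (hcon j)
    omega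
  obtain ⟨j0, hj0⟩ := hj
  refine exists_maximal_of _ (N j0) rfl (h1 j0) ?_ hj0 ?_
  · intro t
    rw [← h2 t, Fin.sum_univ_succAbove _ j0]
    omega
  · refine ⟨fun i => N (j0.succAbove i), fun i => h1 _, fun t => ?_⟩
    show ∑ j, N (j0.succAbove j) t = r t - N j0 t
    rw [← h2 t, Fin.sum_univ_succAbove _ j0]
    omega

end Fun

/-- A tree of dead states: number of bins, budget, remaining counts. -/
inductive DT where
  | leaf : DT
  | node (l : DT) (key k bud : ℕ) (rem : List ℕ) (r : DT) : DT

/-- Look up a state. -/
def memD : DT → ℕ → ℕ → List ℕ → Bool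
  | .leaf, _, _, _ => false
  | .node l a k0 _ r0 r, x, k, rem =>
      if Nat.beq x a then Nat.beq k k0 && eqL rem r0
      else if Nat.ble x a then memD l x k rem else memD r x k rem

/-- Membership in the tree. -/
def InD (k b : ℕ) (r0 : List ℕ) : DT → Prop
  | .leaf => False
  | .node l _ k' b' r' r => (k = k' ∧ b = b' ∧ r0 = r') ∨ InD k b r0 l ∨ InD k b r0 r

theorem memD_sound (t : DT) (x k : ℕ) (rem : List ℕ)
    (h : memD t x k rem = true) : ∃ b0, InD k b0 rem t := by
  induction t with
  | leaf => simp [memD] at h
  | node l a k0 b0 r0 r ihl ihr =>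
    simp only [memD] at h
    split_ifs at h with h1 h2
    · simp only [Bool.and_eq_true] at h
      exact ⟨b0, Or.inl ⟨Nat.eq_of_beq_eq_true h.1, rfl, eq_of_eqL _ _ h.2⟩⟩
    · obtain ⟨b, hin⟩ := ihl h
      exact ⟨b, Or.inr (Or.inl hin)⟩
    · obtain ⟨b, hin⟩ := ihr h
      exact ⟨b, Or.inr (Or.inr hin)⟩

/-- Is there an item left (beyond `p`) that fits in `room`? -/
def notMax : List ℕ → List ℕ → List ℕ → ℕ → Bool
  | s :: ss, r :: rs, q :: qs, room => (Nat.blt q r && Nat.ble s room) || notMax ss rs qs room
  | _, _, _, _ => false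

theorem notMax_spec : ∀ (ss rem p : List ℕ) (room : ℕ), notMax ss rem p room = true →
    ∃ i, i < ss.length ∧ p.getD i 0 < rem.getD i 0 ∧ ss.getD i 0 ≤ room := by
  intro ss
  induction ss with
  | nil => intro rem p room h; simp [notMax] at h
  | cons s ss ih =>
    intro rem p room h
    cases rem with
    | nil => simp [notMax] at h
    | cons r rs =>
      cases p with
      | nil => simp [notMax] at h
      | cons q qs =>
        simp only [notMax, Bool.or_eq_true, Bool.and_eq_true] at h
        rcases h with ⟨h1, h2⟩ | h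
        · refine ⟨0, by simp, ?_, ?_⟩
          · simpa [Nat.blt_eq] using h1
          · simpa using Nat.le_of_ble_eq_true h2
        · obtain ⟨i, hi, h3, h4⟩ := ih rs qs room h
          refine ⟨i + 1, by simpa using hi, ?_, ?_⟩
          · simpa using h3
          · simpa using h4

/-- A state is dead: too large, or a lookup in the tree. -/
def deadC (ss : List ℕ) (L : ℕ) (t : DT) : ℕ → List ℕ → Bool
  | 0, rem => !allZero rem
  | k + 1, rem => Nat.blt ((k + 1) * L) (dot ss rem) || memD t (keyOf (k + 1) rem) (k + 1) rem

/-- The one step check of a state with budget `b`. -/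
def stepC (ss : List ℕ) (L : ℕ) (groups : List (List (List ℕ × ℕ))) (t : DT) :
    ℕ → List ℕ → ℕ → Bool
  | 0, rem, _ => !allZero rem
  | k + 1, rem, b =>
      !allZero rem && (groups.getD (firstIdx rem) []).all (fun pw =>
        !Nat.ble pw.2 b || !leL pw.1 rem || notMax ss rem pw.1 (L - dot ss pw.1) ||
          deadC ss L t k (subL rem pw.1))

/-- The check of all states of a tree. -/
def checkC (ss ys : List ℕ) (L D G : ℕ) (groups : List (List (List ℕ × ℕ))) (root : DT) :
    DT → Bool
  | .leaf => true
  | .node l _ k b r0 r =>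
      Nat.ble b G && Nat.ble (k * D) (dot ys r0 + b) && stepC ss L groups root k r0 b &&
        checkC ss ys L D G groups root l && checkC ss ys L D G groups root r

theorem checkC_sound {ss ys : List ℕ} {L D G : ℕ} {groups : List (List (List ℕ × ℕ))} {root : DT}
    (t : DT) (h : checkC ss ys L D G groups root t = true) {k b : ℕ} {r0 : List ℕ}
    (hin : InD k b r0 t) :
    b ≤ G ∧ k * D ≤ dot ys r0 + b ∧ stepC ss L groups root k r0 b = true := by
  induction t with
  | leaf => exact hin.elim
  | node l a k' b' r' r ihl ihr =>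
    simp only [checkC, Bool.and_eq_true] at h
    rcases hin with ⟨rfl, rfl, rfl⟩ | hin | hin
    · exact ⟨Nat.le_of_ble_eq_true h.1.1.1.1, Nat.le_of_ble_eq_true h.1.1.1.2, h.1.1.2⟩
    · exact ihl h.1.2 hin
    · exact ihr h.2 hin

section Main

variable {L : ℕ} {items ss bs ys : List ℕ}

/-- `dot` with a list of the length of `ss`, as a sum over `Fin ss.length`. -/
theorem dot_eq_sum' (hleny : ys.length = ss.length) (c : List ℕ) :
    dot ys c = ∑ t : Fin ss.length, ys.getD t 0 * c.getD t 0 := by
  rw [dot_eq_sum]
  refine Finset.sum_equiv (finCongr hleny) (fun _ => by simp) fun t _ => ?_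
  have h1 : ys.getD t 0 = ys.get t := by
    simp [List.getD_eq_getElem?_getD]
  simp only [finCongr_apply, Fin.val_cast]
  rw [h1]

/-- The state `rem` is a sum of `k` patterns. -/
def DecL (ss : List ℕ) (L k : ℕ) (rem : List ℕ) : Prop :=
  DecF (m := ss.length) (fun t => ss.get t) L k (fun t => rem.getD t 0)

/-- Soundness of the certificate. -/
theorem deadC_sound (hpos : ∀ s ∈ ss, 0 < s) (hlenb : bs.length = ss.length)
    (hleny : ys.length = ss.length) {D G : ℕ} {groups : List (List (List ℕ × ℕ))} {t : DT}
    (hdual : maxY ss ys L ≤ D)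
    (hP : ∀ c ∈ enumAll ss bs L, D ≤ dot ys c + G →
      (c, D - dot ys c) ∈ groups.getD (firstIdx c) [])
    (hC : checkC ss ys L D G groups t t = true) (k : ℕ) :
    ∀ rem, (∀ i, rem.getD i 0 ≤ bs.getD i 0) → deadC ss L t k rem = true → ¬ DecL ss L k rem := by
  have hbig : ∀ i, ss.length ≤ i → bs.getD i 0 = 0 := by
    intro i hi
    simp [List.getD_eq_getElem?_getD, hlenb, hi]
  have hfi : ∀ (a : List ℕ), (∀ i, a.getD i 0 ≤ bs.getD i 0) → allZero a = false →
      ∃ f : Fin ss.length, (∀ i < (f : ℕ), a.getD i 0 = 0) ∧ a.getD f 0 ≠ 0 := by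
    intro a ha hz
    obtain ⟨f, h0, hf⟩ := allZero_spec a hz
    have hlt : f < ss.length := by
      by_contra hcon
      have h1 := ha f
      rw [hbig f (by omega)] at h1
      omega
    exact ⟨⟨f, hlt⟩, h0, hf⟩
  have hy : ∀ c : Fin ss.length → ℕ, ∑ t, ss.get t * c t ≤ L →
      ∑ t : Fin ss.length, ys.getD t 0 * c t ≤ D := by
    intro c hc
    have h1 : dot ss (List.ofFn c) ≤ L := by
      rw [dot_eq_sum]
      refine le_trans (le_of_eq ?_) hc
      refine Finset.sum_congr rfl fun t _ => ?_
      rw [getD_ofFn]
    have h2 := dot_le_maxY ss ys hpos (List.ofFn c) L hleny.symm (by simp) h1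
    rw [dot_eq_sum' hleny] at h2
    refine le_trans (le_of_eq ?_) (le_trans h2 hdual)
    refine Finset.sum_congr rfl fun t _ => ?_
    rw [getD_ofFn]
  induction k with
  | zero =>
    intro rem hb hd hD
    simp only [deadC, Bool.not_eq_true'] at hd
    obtain ⟨f, _, hf⟩ := hfi rem hb hd
    obtain ⟨N, _, h2⟩ := hD
    apply hf
    have h3 := h2 f
    simpa using h3.symm
  | succ k ih =>
    intro rem hb hd hD
    simp only [deadC, Bool.or_eq_true] at hd
    rcases hd with hd | hd
    · -- the size bound
      have h1 := hD.size_le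
      have h2 : (k + 1) * L < dot ss rem := by
        simpa [Nat.blt_eq] using hd
      rw [dot_eq_sum] at h2
      have h3 : ∑ t : Fin ss.length, ss.get t * rem.getD t 0 ≤ (k + 1) * L := h1
      omega
    · obtain ⟨b0, hin⟩ := memD_sound _ _ _ _ hd
      obtain ⟨_, hbud, hstep⟩ := checkC_sound t hC hin
      have hbG : b0 ≤ G := (checkC_sound t hC hin).1
      simp only [stepC, Bool.and_eq_true, Bool.not_eq_true'] at hstep
      obtain ⟨f, h0, hf⟩ := hfi rem hb hstep.1
      have hfidx : firstIdx rem = f := firstIdx_eq rem f h0 hf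
      obtain ⟨c, hc1, hc2, hc3, hc4, hc5⟩ :=
        hD.exists_maximal (f := f) (Nat.pos_of_ne_zero hf)
      set cl : List ℕ := List.ofFn c with hcl
      have hclget : ∀ t : Fin ss.length, cl.getD t 0 = c t := fun t => getD_ofFn c t
      have hclbig : ∀ i, ss.length ≤ i → cl.getD i 0 = 0 := fun i hi => getD_ofFn_ge c hi
      have hcle : ∀ i : ℕ, cl.getD i 0 ≤ rem.getD i 0 := by
        intro i
        by_cases hi : i < ss.length
        · have h1 : c ⟨i, hi⟩ ≤ rem.getD i 0 := hc2 ⟨i, hi⟩
          have h2 : cl.getD i 0 = c ⟨i, hi⟩ := hclget ⟨i, hi⟩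
          omega
        · rw [hclbig i (by omega)]
          exact Nat.zero_le _
      have hdotc : dot ss cl ≤ L := by
        rw [dot_eq_sum]
        refine le_trans (le_of_eq ?_) hc1
        refine Finset.sum_congr rfl fun t _ => ?_
        rw [hclget]
      have hyc : dot ys cl ≤ D := by
        rw [dot_eq_sum' hleny]
        refine le_trans (le_of_eq ?_) (hy c hc1)
        refine Finset.sum_congr rfl fun t _ => ?_
        rw [hclget]
      -- the weight computations
      have hsplit : dot ys rem = dot ys cl + dot ys (subL rem cl) := by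
        rw [dot_eq_sum' hleny, dot_eq_sum' hleny, dot_eq_sum' hleny, ← Finset.sum_add_distrib]
        refine Finset.sum_congr rfl fun t _ => ?_
        rw [getD_subL, ← Nat.mul_add]
        have := hcle t
        congr 1
        omega
      have hchild : DecL ss L k (subL rem cl) := by
        have e : (fun t : Fin ss.length => (subL rem cl).getD t 0) =
            fun t : Fin ss.length => rem.getD t 0 - c t := by
          funext t
          rw [getD_subL, hclget]
        show DecF _ _ _ _
        rw [e]
        exact hc5
      have hweight : dot ys (subL rem cl) ≤ k * D := by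
        rw [dot_eq_sum' hleny]
        exact DecF.weight_le hchild (fun t => ys.getD t 0) D hy
      have hw : D - dot ys cl ≤ b0 := by
        have : (k + 1) * D = k * D + D := by ring
        omega
      have hmemE : cl ∈ enumAll ss bs L := by
        refine mem_enumAll ss bs hpos cl L hlenb.symm (by simp [hcl]) (fun i => ?_) hdotc
        exact le_trans (hcle i) (hb i)
      have hmemG := hP cl hmemE (by omega)
      have hcf : firstIdx cl = f := by
        apply firstIdx_eq _ f
        · intro i hi
          have h1 := hcle i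
          rw [h0 i hi] at h1
          omega
        · rw [hclget]
          omega
      rw [hcf, ← hfidx] at hmemG
      have hall := List.all_eq_true.mp hstep.2 _ hmemG
      simp only [Bool.or_eq_true, Bool.not_eq_true'] at hall
      rcases hall with ((h1 | h1) | h1) | h1
      · have : Nat.ble (D - dot ys cl) b0 = true := Nat.ble_eq_true_of_le hw
        rw [this] at h1
        exact absurd h1 (by simp)
      · rw [leL_of_le _ _ hcle] at h1
        exact absurd h1 (by simp)
      · obtain ⟨i, hi, h3, h4⟩ := notMax_spec _ _ _ _ h1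
        have h5 := hc4 ⟨i, hi⟩ (by
          have h6 := hclget ⟨i, hi⟩
          simp only at h6
          simp only
          omega)
        have h7 : ss.getD i 0 = ss.get ⟨i, hi⟩ := by
          simp [List.getD_eq_getElem?_getD, hi]
        have h8 : dot ss cl = ∑ t, ss.get t * c t := by
          rw [dot_eq_sum]
          refine Finset.sum_congr rfl fun t _ => ?_
          rw [hclget]
        omega
      · exact ih (subL rem cl) (fun i => by
          rw [getD_subL]
          exact le_trans (Nat.sub_le _ _) (hb i)) h1 hchild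

/-- The main lower bound for `OPT`, in certificate form. -/
theorem not_packs_tree2 (hL : 0 < L) (hpos : ∀ s ∈ ss, 0 < s) (hnd : ss.Nodup)
    (hmem : ∀ a ∈ items, a ∈ ss) (hlenb : bs.length = ss.length) (hleny : ys.length = ss.length)
    (hcount : ∀ t : Fin ss.length, items.count (ss.get t) = bs.getD t 0)
    {D K G : ℕ} {groups : List (List (List ℕ × ℕ))} {t : DT} (hdual : maxY ss ys L ≤ D)
    (hP : ∀ c ∈ enumAll ss bs L, D ≤ dot ys c + G →
      (c, D - dot ys c) ∈ groups.getD (firstIdx c) [])
    (hC : checkC ss ys L D G groups t t = true) (hR : deadC ss L t K bs = true) :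
    ¬ Packs (inst L items) K := by
  intro h
  obtain ⟨N, hN1, hN2⟩ := decomposition_of_packs hL hnd hmem h
  refine deadC_sound hpos hlenb hleny hdual hP hC K bs (fun _ => le_refl _) hR ⟨N, hN1, fun t' => ?_⟩
  rw [hN2, hcount]

end Main

/-- Equality test for lists of lists. -/
def eqLL : List (List ℕ) → List (List ℕ) → Bool
  | [], [] => true
  | a :: as, b :: bs => eqL a b && eqLL as bs
  | _, _ => false

theorem eq_of_eqLL (a b : List (List ℕ)) (h : eqLL a b = true) : a = b := by
  induction a generalizing b with
  | nil =>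
    cases b with
    | nil => rfl
    | cons y b => simp [eqLL] at h
  | cons x a ih =>
    cases b with
    | nil => simp [eqLL] at h
    | cons y b =>
      simp only [eqLL, Bool.and_eq_true] at h
      rw [eq_of_eqL _ _ h.1, ih b h.2]

/-- The patterns of small waste. -/
def filterB (ys : List ℕ) (D G : ℕ) : List (List ℕ) → List (List ℕ)
  | [] => []
  | c :: l => bif Nat.ble D (dot ys c + G) then c :: filterB ys D G l else filterB ys D G l

theorem mem_filterB (ys : List ℕ) (D G : ℕ) (l : List (List ℕ)) (c : List ℕ) (hc : c ∈ l)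
    (h : D ≤ dot ys c + G) : c ∈ filterB ys D G l := by
  induction l with
  | nil => simp at hc
  | cons a l ih =>
    simp only [filterB]
    cases hb : Nat.ble D (dot ys a + G) with
    | true =>
      simp only [cond_true, List.mem_cons]
      rcases List.mem_cons.mp hc with rfl | hc
      · exact Or.inl rfl
      · exact Or.inr (ih hc)
    | false =>
      simp only [cond_false]
      rcases List.mem_cons.mp hc with rfl | hc
      · rw [Nat.ble_eq_true_of_le h] at hb
        exact absurd hb (by simp)
      · exact ih hc

/-- The flat list of all patterns of the groups, last group first. -/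
def flatG : List (List (List ℕ × ℕ)) → List (List ℕ)
  | [] => []
  | g :: gs => flatG gs ++ g.map (fun p => p.1)

/-- The entries of the groups have the right index and waste. -/
def groupsOK (ys : List ℕ) (D : ℕ) : ℕ → List (List (List ℕ × ℕ)) → Bool
  | _, [] => true
  | i, g :: gs =>
      g.all (fun p => Nat.beq (firstIdx p.1) i && Nat.beq p.2 (D - dot ys p.1)) &&
        groupsOK ys D (i + 1) gs

theorem mem_of_flatG (ys : List ℕ) (D : ℕ) (c : List ℕ) :
    ∀ (gs : List (List (List ℕ × ℕ))) (i : ℕ), groupsOK ys D i gs = true → c ∈ flatG gs →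
      ∃ i', firstIdx c = i + i' ∧ (c, D - dot ys c) ∈ gs.getD i' [] := by
  intro gs
  induction gs with
  | nil => intro i _ h; simp [flatG] at h
  | cons g gs ih =>
    intro i hg hc
    simp only [groupsOK, Bool.and_eq_true] at hg
    simp only [flatG, List.mem_append, List.mem_map] at hc
    rcases hc with hc | ⟨p, hp, rfl⟩
    · obtain ⟨i', h1, h2⟩ := ih (i + 1) hg.2 hc
      refine ⟨i' + 1, by omega, ?_⟩
      simpa using h2
    · have h3 := List.all_eq_true.mp hg.1 p hp
      simp only [Bool.and_eq_true] at h3
      have h4 := Nat.eq_of_beq_eq_true h3.1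
      have h5 := Nat.eq_of_beq_eq_true h3.2
      refine ⟨0, by omega, ?_⟩
      have h6 : (p.1, D - dot ys p.1) = p := by
        rw [← h5]
      simpa [h6] using hp

/-- The pattern list certificate, in the form used above. -/
theorem hP_of_flat {ss bs ys : List ℕ} {L D G : ℕ} {groups : List (List (List ℕ × ℕ))}
    (h1 : eqLL (filterB ys D G (enumAll ss bs L)) (flatG groups) = true)
    (h2 : groupsOK ys D 0 groups = true) :
    ∀ c ∈ enumAll ss bs L, D ≤ dot ys c + G →
      (c, D - dot ys c) ∈ groups.getD (firstIdx c) [] := by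
  intro c hc hb
  have h3 := mem_filterB ys D G _ c hc hb
  rw [eq_of_eqLL _ _ h1] at h3
  obtain ⟨i', h4, h5⟩ := mem_of_flatG ys D c groups 0 h2 h3
  rw [h4, zero_add]
  exact h5

/-- Assembling the check of a tree from the checks of its parts. -/
theorem checkC_node_true {ss ys : List ℕ} {L D G : ℕ} {groups : List (List (List ℕ × ℕ))}
    {root l r : DT} {a k b : ℕ} {r0 : List ℕ}
    (h0 : (Nat.ble b G && Nat.ble (k * D) (dot ys r0 + b) && stepC ss L groups root k r0 b) = true)
    (h1 : checkC ss ys L D G groups root l = true) (h2 : checkC ss ys L D G groups root r = true) :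
    checkC ss ys L D G groups root (.node l a k b r0 r) = true := by
  simp only [Bool.and_eq_true] at h0
  simp only [checkC, Bool.and_eq_true]
  exact ⟨⟨h0, h1⟩, h2⟩

end Vale.Agent.P302
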