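/-
P302: the explicit instance (certificate data and kernel checks).
-/
import Vale.Agent.P302.Cert2

namespace Vale.Agent.P302.GapA

set_option maxRecDepth 100000

/-- The capacity. -/
def capL : ℕ := 3642

/-- The distinct item sizes, in units of `1 / capL`. -/
def ss : List ℕ := [2718, 2708, 2695, 1768, 1540, 1241, 1222, 1220, 1214, 1210, 1201, 1052, 1051, 952, 477, 473, 466, 462, 455]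

/-- The multiplicities. -/
def bs : List ℕ := [1, 1, 1, 1, 1, 1, 1, 1, 2, 1, 1, 2, 1, 1, 4, 1, 2, 1, 1]

/-- The items, in units of `1 / capL`. -/
def items : List ℕ := [2718, 2708, 2695, 1768, 1540, 1241, 1222, 1220, 1214, 1214, 1210, 1201, 1052, 1052, 1051, 952, 477, 477, 477, 477, 473, 466, 466, 462, 455]

/-- The dual solution, in units of `1 / D`. -/
def ys : List ℕ := [324, 308, 292, 186, 162, 132, 132, 128, 124, 120, 116, 108, 105, 96, 48, 40, 32, 24, 16]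

/-- The patterns with small waste, with their waste, by first positive index. -/
noncomputable def groups : List (List (List ℕ × ℕ)) := [[([1, 0, 0, 0, 0, 0, 0, 0, 0, 0, 0, 0, 0, 0, 0, 0, 0, 0, 0], 48), ([1, 0, 0, 0, 0, 0, 0, 0, 0, 0, 0, 0, 0, 0, 0, 0, 0, 0, 1], 32), ([1, 0, 0, 0, 0, 0, 0, 0, 0, 0, 0, 0, 0, 0, 0, 0, 0, 1, 0], 24), ([1, 0, 0, 0, 0, 0, 0, 0, 0, 0, 0, 0, 0, 0, 0, 0, 0, 1, 1], 8), ([1, 0, 0, 0, 0, 0, 0, 0, 0, 0, 0, 0, 0, 0, 0, 0, 1, 0, 0], 16), ([1, 0, 0, 0, 0, 0, 0, 0, 0, 0, 0, 0, 0, 0, 0, 0, 1, 0, 1], 0), ([1, 0, 0, 0, 0, 0, 0, 0, 0, 0, 0, 0, 0, 0, 0, 1, 0, 0, 0], 8), ([1, 0, 0, 0, 0, 0, 0, 0, 0, 0, 0, 0, 0, 0, 1, 0, 0, 0, 0], 0)], [([0, 1, 0, 0, 0, 0, 0, 0, 0, 0, 0, 0, 0, 0, 0, 0, 0, 0, 0], 64), ([0,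 1, 0, 0, 0, 0, 0, 0, 0, 0, 0, 0, 0, 0, 0, 0, 0, 0, 1], 48), ([0, 1, 0, 0, 0, 0, 0, 0, 0, 0, 0, 0, 0, 0, 0, 0, 0, 1, 0], 40), ([0, 1, 0, 0, 0, 0, 0, 0, 0, 0, 0, 0, 0, 0, 0, 0, 0, 1, 1], 24), ([0, 1, 0, 0, 0, 0, 0, 0, 0, 0, 0, 0, 0, 0, 0, 0, 1, 0, 0], 32), ([0, 1, 0, 0, 0, 0, 0, 0, 0, 0, 0, 0, 0, 0, 0, 0, 1, 0, 1], 16), ([0, 1, 0, 0, 0, 0, 0, 0, 0, 0, 0, 0, 0, 0, 0, 0, 1, 1, 0], 8), ([0, 1, 0, 0, 0, 0, 0, 0, 0, 0, 0, 0, 0, 0, 0, 0, 2, 0, 0], 0), ([0, 1, 0, 0, 0, 0, 0, 0, 0, 0, 0, 0, 0, 0, 0, 1, 0, 0, 0], 24), ([0, 1, 0, 0, 0, 0, 0, 0, 0, 0, 0, 0, 0, 0, 0, 1, 0, 0, 1], 8), ([0, 1, 0, 0, 0, 0, 0, 0, 0, 0, 0, 0, 0, 0, 1, 0, 0, 0, 0], 16), ([0, 1, 0, 0, 0, 0, 0, 0, 0, 0, 0, 0, 0, 0, 1, 0, 0, 0, 1], 0)], [([0, 0, 1, 0, 0,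 0, 0, 0, 0, 0, 0, 0, 0, 0, 0, 0, 0, 0, 1], 64), ([0, 0, 1, 0, 0, 0, 0, 0, 0, 0, 0, 0, 0, 0, 0, 0, 0, 1, 0], 56), ([0, 0, 1, 0, 0, 0, 0, 0, 0, 0, 0, 0, 0, 0, 0, 0, 0, 1, 1], 40), ([0, 0, 1, 0, 0, 0, 0, 0, 0, 0, 0, 0, 0, 0, 0, 0, 1, 0, 0], 48), ([0, 0, 1, 0, 0, 0, 0, 0, 0, 0, 0, 0, 0, 0, 0, 0, 1, 0, 1], 32), ([0, 0, 1, 0, 0, 0, 0, 0, 0, 0, 0, 0, 0, 0, 0, 0, 1, 1, 0], 24), ([0, 0, 1, 0, 0, 0, 0, 0, 0, 0, 0, 0, 0, 0, 0, 0, 2, 0, 0], 16), ([0, 0, 1, 0, 0, 0, 0, 0, 0, 0, 0, 0, 0, 0, 0, 1, 0, 0, 0], 40), ([0, 0, 1, 0, 0, 0, 0, 0, 0, 0, 0, 0, 0, 0, 0, 1, 0, 0, 1], 24), ([0, 0, 1, 0, 0, 0, 0, 0, 0, 0, 0, 0, 0, 0, 0, 1, 0, 1, 0], 16), ([0, 0, 1, 0, 0, 0, 0, 0, 0, 0, 0, 0, 0, 0, 0, 1, 1, 0, 0], 8), ([0, 0, 1, 0, 0, 0, 0, 0, 0,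 0, 0, 0, 0, 0, 1, 0, 0, 0, 0], 32), ([0, 0, 1, 0, 0, 0, 0, 0, 0, 0, 0, 0, 0, 0, 1, 0, 0, 0, 1], 16), ([0, 0, 1, 0, 0, 0, 0, 0, 0, 0, 0, 0, 0, 0, 1, 0, 0, 1, 0], 8), ([0, 0, 1, 0, 0, 0, 0, 0, 0, 0, 0, 0, 0, 0, 1, 0, 1, 0, 0], 0)], [([0, 0, 0, 1, 0, 0, 0, 0, 0, 0, 0, 0, 0, 0, 0, 1, 1, 1, 1], 74), ([0, 0, 0, 1, 0, 0, 0, 0, 0, 0, 0, 0, 0, 0, 0, 1, 2, 0, 1], 66), ([0, 0, 0, 1, 0, 0, 0, 0, 0, 0, 0, 0, 0, 0, 0, 1, 2, 1, 0], 58), ([0, 0, 0, 1, 0, 0, 0, 0, 0, 0, 0, 0, 0, 0, 1, 0, 1, 1, 1], 66), ([0, 0, 0, 1, 0, 0, 0, 0, 0, 0, 0, 0, 0, 0, 1, 0, 2, 0, 0], 74), ([0, 0, 0, 1, 0, 0, 0, 0, 0, 0, 0, 0, 0, 0, 1, 0, 2, 0, 1], 58), ([0, 0, 0, 1, 0, 0, 0, 0, 0, 0, 0, 0, 0, 0, 1, 0, 2, 1, 0], 50), ([0, 0, 0, 1, 0, 0, 0, 0, 0, 0, 0, 0,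 0, 0, 1, 1, 0, 1, 0], 74), ([0, 0, 0, 1, 0, 0, 0, 0, 0, 0, 0, 0, 0, 0, 1, 1, 0, 1, 1], 58), ([0, 0, 0, 1, 0, 0, 0, 0, 0, 0, 0, 0, 0, 0, 1, 1, 1, 0, 0], 66), ([0, 0, 0, 1, 0, 0, 0, 0, 0, 0, 0, 0, 0, 0, 1, 1, 1, 0, 1], 50), ([0, 0, 0, 1, 0, 0, 0, 0, 0, 0, 0, 0, 0, 0, 2, 0, 0, 0, 1], 74), ([0, 0, 0, 1, 0, 0, 0, 0, 0, 0, 0, 0, 0, 0, 2, 0, 0, 1, 0], 66), ([0, 0, 0, 1, 0, 0, 0, 0, 0, 0, 0, 0, 0, 0, 2, 0, 0, 1, 1], 50), ([0, 0, 0, 1, 0, 0, 0, 0, 0, 0, 0, 0, 0, 0, 2, 0, 1, 0, 0], 58), ([0, 0, 0, 1, 0, 0, 0, 0, 0, 0, 0, 0, 0, 0, 2, 1, 0, 0, 0], 50), ([0, 0, 0, 1, 0, 0, 0, 0, 0, 0, 0, 0, 0, 0, 3, 0, 0, 0, 0], 42), ([0, 0, 0, 1, 0, 0, 0, 0, 0, 0, 0, 0, 0, 1, 0, 0, 0, 0, 1], 74), ([0, 0, 0, 1, 0, 0, 0, 0, 0, 0, 0, 0, 0, 1, 0,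 0, 0, 1, 0], 66), ([0, 0, 0, 1, 0, 0, 0, 0, 0, 0, 0, 0, 0, 1, 0, 0, 0, 1, 1], 50), ([0, 0, 0, 1, 0, 0, 0, 0, 0, 0, 0, 0, 0, 1, 0, 0, 1, 0, 0], 58), ([0, 0, 0, 1, 0, 0, 0, 0, 0, 0, 0, 0, 0, 1, 0, 0, 1, 0, 1], 42), ([0, 0, 0, 1, 0, 0, 0, 0, 0, 0, 0, 0, 0, 1, 0, 1, 0, 0, 0], 50), ([0, 0, 0, 1, 0, 0, 0, 0, 0, 0, 0, 0, 0, 1, 1, 0, 0, 0, 0], 42), ([0, 0, 0, 1, 0, 0, 0, 0, 0, 0, 0, 0, 1, 0, 0, 0, 0, 0, 1], 65), ([0, 0, 0, 1, 0, 0, 0, 0, 0, 0, 0, 0, 1, 0, 0, 0, 0, 1, 0], 57), ([0, 0, 0, 1, 0, 0, 0, 0, 0, 0, 0, 0, 1, 0, 0, 0, 1, 0, 0], 49), ([0, 0, 0, 1, 0, 0, 0, 0, 0, 0, 0, 0, 1, 0, 0, 1, 0, 0, 0], 41), ([0, 0, 0, 1, 0, 0, 0, 0, 0, 0, 0, 0, 1, 0, 1, 0, 0, 0, 0], 33), ([0, 0, 0, 1, 0, 0, 0, 0, 0, 0, 0, 1, 0, 0, 0, 0, 0, 0,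 1], 62), ([0, 0, 0, 1, 0, 0, 0, 0, 0, 0, 0, 1, 0, 0, 0, 0, 0, 1, 0], 54), ([0, 0, 0, 1, 0, 0, 0, 0, 0, 0, 0, 1, 0, 0, 0, 0, 1, 0, 0], 46), ([0, 0, 0, 1, 0, 0, 0, 0, 0, 0, 0, 1, 0, 0, 0, 1, 0, 0, 0], 38), ([0, 0, 0, 1, 0, 0, 0, 0, 0, 0, 0, 1, 0, 0, 1, 0, 0, 0, 0], 30), ([0, 0, 0, 1, 0, 0, 0, 0, 0, 0, 1, 0, 0, 0, 0, 0, 0, 0, 0], 70), ([0, 0, 0, 1, 0, 0, 0, 0, 0, 0, 1, 0, 0, 0, 0, 0, 0, 0, 1], 54), ([0, 0, 0, 1, 0, 0, 0, 0, 0, 0, 1, 0, 0, 0, 0, 0, 0, 1, 0], 46), ([0, 0, 0, 1, 0, 0, 0, 0, 0, 0, 1, 0, 0, 0, 0, 0, 1, 0, 0], 38), ([0, 0, 0, 1, 0, 0, 0, 0, 0, 0, 1, 0, 0, 0, 0, 1, 0, 0, 0], 30), ([0, 0, 0, 1, 0, 0, 0, 0, 0, 0, 1, 0, 0, 0, 1, 0, 0, 0, 0], 22), ([0, 0, 0, 1, 0, 0, 0, 0, 0, 1, 0, 0, 0, 0, 0, 0, 0, 0, 0], 66),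 ([0, 0, 0, 1, 0, 0, 0, 0, 0, 1, 0, 0, 0, 0, 0, 0, 0, 0, 1], 50), ([0, 0, 0, 1, 0, 0, 0, 0, 0, 1, 0, 0, 0, 0, 0, 0, 0, 1, 0], 42), ([0, 0, 0, 1, 0, 0, 0, 0, 0, 1, 0, 0, 0, 0, 0, 0, 1, 0, 0], 34), ([0, 0, 0, 1, 0, 0, 0, 0, 0, 1, 0, 0, 0, 0, 0, 1, 0, 0, 0], 26), ([0, 0, 0, 1, 0, 0, 0, 0, 0, 1, 0, 0, 0, 0, 1, 0, 0, 0, 0], 18), ([0, 0, 0, 1, 0, 0, 0, 0, 1, 0, 0, 0, 0, 0, 0, 0, 0, 0, 0], 62), ([0, 0, 0, 1, 0, 0, 0, 0, 1, 0, 0, 0, 0, 0, 0, 0, 0, 0, 1], 46), ([0, 0, 0, 1, 0, 0, 0, 0, 1, 0, 0, 0, 0, 0, 0, 0, 0, 1, 0], 38), ([0, 0, 0, 1, 0, 0, 0, 0, 1, 0, 0, 0, 0, 0, 0, 0, 1, 0, 0], 30), ([0, 0, 0, 1, 0, 0, 0, 0, 1, 0, 0, 0, 0, 0, 0, 1, 0, 0, 0], 22), ([0, 0, 0, 1, 0, 0, 0, 0, 1, 0, 0, 0, 0, 0, 1, 0, 0, 0, 0], 14), ([0, 0, 0,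 1, 0, 0, 0, 1, 0, 0, 0, 0, 0, 0, 0, 0, 0, 0, 0], 58), ([0, 0, 0, 1, 0, 0, 0, 1, 0, 0, 0, 0, 0, 0, 0, 0, 0, 0, 1], 42), ([0, 0, 0, 1, 0, 0, 0, 1, 0, 0, 0, 0, 0, 0, 0, 0, 0, 1, 0], 34), ([0, 0, 0, 1, 0, 0, 0, 1, 0, 0, 0, 0, 0, 0, 0, 0, 1, 0, 0], 26), ([0, 0, 0, 1, 0, 0, 0, 1, 0, 0, 0, 0, 0, 0, 0, 1, 0, 0, 0], 18), ([0, 0, 0, 1, 0, 0, 0, 1, 0, 0, 0, 0, 0, 0, 1, 0, 0, 0, 0], 10), ([0, 0, 0, 1, 0, 0, 1, 0, 0, 0, 0, 0, 0, 0, 0, 0, 0, 0, 0], 54), ([0, 0, 0, 1, 0, 0, 1, 0, 0, 0, 0, 0, 0, 0, 0, 0, 0, 0, 1], 38), ([0, 0, 0, 1, 0, 0, 1, 0, 0, 0, 0, 0, 0, 0, 0, 0, 0, 1, 0], 30), ([0, 0, 0, 1, 0, 0, 1, 0, 0, 0, 0, 0, 0, 0, 0, 0, 1, 0, 0], 22), ([0, 0, 0, 1, 0, 0, 1, 0, 0, 0, 0, 0, 0, 0, 0, 1, 0, 0, 0], 14), ([0, 0, 0, 1, 0, 0,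 1, 0, 0, 0, 0, 0, 0, 0, 1, 0, 0, 0, 0], 6), ([0, 0, 0, 1, 0, 1, 0, 0, 0, 0, 0, 0, 0, 0, 0, 0, 0, 0, 0], 54), ([0, 0, 0, 1, 0, 1, 0, 0, 0, 0, 0, 0, 0, 0, 0, 0, 0, 0, 1], 38), ([0, 0, 0, 1, 0, 1, 0, 0, 0, 0, 0, 0, 0, 0, 0, 0, 0, 1, 0], 30), ([0, 0, 0, 1, 0, 1, 0, 0, 0, 0, 0, 0, 0, 0, 0, 0, 1, 0, 0], 22), ([0, 0, 0, 1, 0, 1, 0, 0, 0, 0, 0, 0, 0, 0, 0, 1, 0, 0, 0], 14), ([0, 0, 0, 1, 0, 1, 0, 0, 0, 0, 0, 0, 0, 0, 1, 0, 0, 0, 0], 6), ([0, 0, 0, 1, 1, 0, 0, 0, 0, 0, 0, 0, 0, 0, 0, 0, 0, 0, 0], 24)], [([0, 0, 0, 0, 1, 0, 0, 0, 0, 0, 0, 0, 0, 0, 1, 0, 2, 1, 0], 74), ([0, 0, 0, 0, 1, 0, 0, 0, 0, 0, 0, 0, 0, 0, 1, 1, 1, 0, 1], 74), ([0, 0, 0, 0, 1, 0, 0, 0, 0, 0, 0, 0, 0, 0, 1, 1, 1, 1, 0], 66), ([0, 0, 0, 0, 1, 0, 0, 0, 0,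 0, 0, 0, 0, 0, 1, 1, 2, 0, 0], 58), ([0, 0, 0, 0, 1, 0, 0, 0, 0, 0, 0, 0, 0, 0, 2, 0, 0, 1, 1], 74), ([0, 0, 0, 0, 1, 0, 0, 0, 0, 0, 0, 0, 0, 0, 2, 0, 1, 0, 1], 66), ([0, 0, 0, 0, 1, 0, 0, 0, 0, 0, 0, 0, 0, 0, 2, 0, 1, 1, 0], 58), ([0, 0, 0, 0, 1, 0, 0, 0, 0, 0, 0, 0, 0, 0, 2, 0, 2, 0, 0], 50), ([0, 0, 0, 0, 1, 0, 0, 0, 0, 0, 0, 0, 0, 0, 2, 1, 0, 0, 0], 74), ([0, 0, 0, 0, 1, 0, 0, 0, 0, 0, 0, 0, 0, 0, 2, 1, 0, 0, 1], 58), ([0, 0, 0, 0, 1, 0, 0, 0, 0, 0, 0, 0, 0, 0, 2, 1, 0, 1, 0], 50), ([0, 0, 0, 0, 1, 0, 0, 0, 0, 0, 0, 0, 0, 0, 2, 1, 1, 0, 0], 42), ([0, 0, 0, 0, 1, 0, 0, 0, 0, 0, 0, 0, 0, 0, 3, 0, 0, 0, 0], 66), ([0, 0, 0, 0, 1, 0, 0, 0, 0, 0, 0, 0, 0, 0, 3, 0, 0, 0, 1], 50), ([0, 0, 0, 0, 1, 0, 0, 0, 0, 0, 0, 0,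 0, 0, 3, 0, 0, 1, 0], 42), ([0, 0, 0, 0, 1, 0, 0, 0, 0, 0, 0, 0, 0, 0, 3, 0, 1, 0, 0], 34), ([0, 0, 0, 0, 1, 0, 0, 0, 0, 0, 0, 0, 0, 0, 3, 1, 0, 0, 0], 26), ([0, 0, 0, 0, 1, 0, 0, 0, 0, 0, 0, 0, 0, 0, 4, 0, 0, 0, 0], 18), ([0, 0, 0, 0, 1, 0, 0, 0, 0, 0, 0, 0, 0, 1, 0, 0, 0, 1, 1], 74), ([0, 0, 0, 0, 1, 0, 0, 0, 0, 0, 0, 0, 0, 1, 0, 0, 1, 0, 1], 66), ([0, 0, 0, 0, 1, 0, 0, 0, 0, 0, 0, 0, 0, 1, 0, 0, 1, 1, 0], 58), ([0, 0, 0, 0, 1, 0, 0, 0, 0, 0, 0, 0, 0, 1, 0, 0, 2, 0, 0], 50), ([0, 0, 0, 0, 1, 0, 0, 0, 0, 0, 0, 0, 0, 1, 0, 1, 0, 0, 0], 74), ([0, 0, 0, 0, 1, 0, 0, 0, 0, 0, 0, 0, 0, 1, 0, 1, 0, 0, 1], 58), ([0, 0, 0, 0, 1, 0, 0, 0, 0, 0, 0, 0, 0, 1, 0, 1, 0, 1, 0], 50), ([0, 0, 0, 0, 1, 0, 0, 0, 0, 0, 0, 0, 0, 1, 0,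 1, 1, 0, 0], 42), ([0, 0, 0, 0, 1, 0, 0, 0, 0, 0, 0, 0, 0, 1, 1, 0, 0, 0, 0], 66), ([0, 0, 0, 0, 1, 0, 0, 0, 0, 0, 0, 0, 0, 1, 1, 0, 0, 0, 1], 50), ([0, 0, 0, 0, 1, 0, 0, 0, 0, 0, 0, 0, 0, 1, 1, 0, 0, 1, 0], 42), ([0, 0, 0, 0, 1, 0, 0, 0, 0, 0, 0, 0, 0, 1, 1, 0, 1, 0, 0], 34), ([0, 0, 0, 0, 1, 0, 0, 0, 0, 0, 0, 0, 0, 1, 1, 1, 0, 0, 0], 26), ([0, 0, 0, 0, 1, 0, 0, 0, 0, 0, 0, 0, 0, 1, 2, 0, 0, 0, 0], 18), ([0, 0, 0, 0, 1, 0, 0, 0, 0, 0, 0, 0, 1, 0, 0, 0, 0, 1, 1], 65), ([0, 0, 0, 0, 1, 0, 0, 0, 0, 0, 0, 0, 1, 0, 0, 0, 1, 0, 0], 73), ([0, 0, 0, 0, 1, 0, 0, 0, 0, 0, 0, 0, 1, 0, 0, 0, 1, 0, 1], 57), ([0, 0, 0, 0, 1, 0, 0, 0, 0, 0, 0, 0, 1, 0, 0, 0, 1, 1, 0], 49), ([0, 0, 0, 0, 1, 0, 0, 0, 0, 0, 0, 0, 1, 0, 0, 0, 2, 0,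 0], 41), ([0, 0, 0, 0, 1, 0, 0, 0, 0, 0, 0, 0, 1, 0, 0, 1, 0, 0, 0], 65), ([0, 0, 0, 0, 1, 0, 0, 0, 0, 0, 0, 0, 1, 0, 0, 1, 0, 0, 1], 49), ([0, 0, 0, 0, 1, 0, 0, 0, 0, 0, 0, 0, 1, 0, 0, 1, 0, 1, 0], 41), ([0, 0, 0, 0, 1, 0, 0, 0, 0, 0, 0, 0, 1, 0, 0, 1, 1, 0, 0], 33), ([0, 0, 0, 0, 1, 0, 0, 0, 0, 0, 0, 0, 1, 0, 1, 0, 0, 0, 0], 57), ([0, 0, 0, 0, 1, 0, 0, 0, 0, 0, 0, 0, 1, 0, 1, 0, 0, 0, 1], 41), ([0, 0, 0, 0, 1, 0, 0, 0, 0, 0, 0, 0, 1, 0, 1, 0, 0, 1, 0], 33), ([0, 0, 0, 0, 1, 0, 0, 0, 0, 0, 0, 0, 1, 0, 1, 0, 1, 0, 0], 25), ([0, 0, 0, 0, 1, 0, 0, 0, 0, 0, 0, 0, 1, 0, 1, 1, 0, 0, 0], 17), ([0, 0, 0, 0, 1, 0, 0, 0, 0, 0, 0, 0, 1, 0, 2, 0, 0, 0, 0], 9), ([0, 0, 0, 0, 1, 0, 0, 0, 0, 0, 0, 0, 1, 1, 0, 0, 0, 0, 0], 9), ([0,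 0, 0, 0, 1, 0, 0, 0, 0, 0, 0, 1, 0, 0, 0, 0, 0, 1, 1], 62), ([0, 0, 0, 0, 1, 0, 0, 0, 0, 0, 0, 1, 0, 0, 0, 0, 1, 0, 0], 70), ([0, 0, 0, 0, 1, 0, 0, 0, 0, 0, 0, 1, 0, 0, 0, 0, 1, 0, 1], 54), ([0, 0, 0, 0, 1, 0, 0, 0, 0, 0, 0, 1, 0, 0, 0, 0, 1, 1, 0], 46), ([0, 0, 0, 0, 1, 0, 0, 0, 0, 0, 0, 1, 0, 0, 0, 0, 2, 0, 0], 38), ([0, 0, 0, 0, 1, 0, 0, 0, 0, 0, 0, 1, 0, 0, 0, 1, 0, 0, 0], 62), ([0, 0, 0, 0, 1, 0, 0, 0, 0, 0, 0, 1, 0, 0, 0, 1, 0, 0, 1], 46), ([0, 0, 0, 0, 1, 0, 0, 0, 0, 0, 0, 1, 0, 0, 0, 1, 0, 1, 0], 38), ([0, 0, 0, 0, 1, 0, 0, 0, 0, 0, 0, 1, 0, 0, 0, 1, 1, 0, 0], 30), ([0, 0, 0, 0, 1, 0, 0, 0, 0, 0, 0, 1, 0, 0, 1, 0, 0, 0, 0], 54), ([0, 0, 0, 0, 1, 0, 0, 0, 0, 0, 0, 1, 0, 0, 1, 0, 0, 0, 1], 38), ([0, 0, 0, 0,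 1, 0, 0, 0, 0, 0, 0, 1, 0, 0, 1, 0, 0, 1, 0], 30), ([0, 0, 0, 0, 1, 0, 0, 0, 0, 0, 0, 1, 0, 0, 1, 0, 1, 0, 0], 22), ([0, 0, 0, 0, 1, 0, 0, 0, 0, 0, 0, 1, 0, 0, 1, 1, 0, 0, 0], 14), ([0, 0, 0, 0, 1, 0, 0, 0, 0, 0, 0, 1, 0, 0, 2, 0, 0, 0, 0], 6), ([0, 0, 0, 0, 1, 0, 0, 0, 0, 0, 0, 1, 0, 1, 0, 0, 0, 0, 0], 6), ([0, 0, 0, 0, 1, 0, 0, 0, 0, 0, 1, 0, 0, 0, 0, 0, 0, 1, 0], 70), ([0, 0, 0, 0, 1, 0, 0, 0, 0, 0, 1, 0, 0, 0, 0, 0, 1, 0, 0], 62), ([0, 0, 0, 0, 1, 0, 0, 0, 0, 0, 1, 0, 0, 0, 0, 1, 0, 0, 0], 54), ([0, 0, 0, 0, 1, 0, 0, 0, 0, 0, 1, 0, 0, 0, 1, 0, 0, 0, 0], 46), ([0, 0, 0, 0, 1, 0, 0, 0, 0, 1, 0, 0, 0, 0, 0, 0, 0, 0, 1], 74), ([0, 0, 0, 0, 1, 0, 0, 0, 0, 1, 0, 0, 0, 0, 0, 0, 0, 1, 0], 66), ([0, 0, 0, 0, 1, 0, 0, 0,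 0, 1, 0, 0, 0, 0, 0, 0, 1, 0, 0], 58), ([0, 0, 0, 0, 1, 0, 0, 0, 0, 1, 0, 0, 0, 0, 0, 1, 0, 0, 0], 50), ([0, 0, 0, 0, 1, 0, 0, 0, 0, 1, 0, 0, 0, 0, 1, 0, 0, 0, 0], 42), ([0, 0, 0, 0, 1, 0, 0, 0, 1, 0, 0, 0, 0, 0, 0, 0, 0, 0, 1], 70), ([0, 0, 0, 0, 1, 0, 0, 0, 1, 0, 0, 0, 0, 0, 0, 0, 0, 1, 0], 62), ([0, 0, 0, 0, 1, 0, 0, 0, 1, 0, 0, 0, 0, 0, 0, 0, 1, 0, 0], 54), ([0, 0, 0, 0, 1, 0, 0, 0, 1, 0, 0, 0, 0, 0, 0, 1, 0, 0, 0], 46), ([0, 0, 0, 0, 1, 0, 0, 0, 1, 0, 0, 0, 0, 0, 1, 0, 0, 0, 0], 38), ([0, 0, 0, 0, 1, 0, 0, 1, 0, 0, 0, 0, 0, 0, 0, 0, 0, 0, 1], 66), ([0, 0, 0, 0, 1, 0, 0, 1, 0, 0, 0, 0, 0, 0, 0, 0, 0, 1, 0], 58), ([0, 0, 0, 0, 1, 0, 0, 1, 0, 0, 0, 0, 0, 0, 0, 0, 1, 0, 0], 50), ([0, 0, 0, 0, 1, 0, 0, 1, 0, 0, 0,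 0, 0, 0, 0, 1, 0, 0, 0], 42), ([0, 0, 0, 0, 1, 0, 0, 1, 0, 0, 0, 0, 0, 0, 1, 0, 0, 0, 0], 34), ([0, 0, 0, 0, 1, 0, 1, 0, 0, 0, 0, 0, 0, 0, 0, 0, 0, 0, 1], 62), ([0, 0, 0, 0, 1, 0, 1, 0, 0, 0, 0, 0, 0, 0, 0, 0, 0, 1, 0], 54), ([0, 0, 0, 0, 1, 0, 1, 0, 0, 0, 0, 0, 0, 0, 0, 0, 1, 0, 0], 46), ([0, 0, 0, 0, 1, 0, 1, 0, 0, 0, 0, 0, 0, 0, 0, 1, 0, 0, 0], 38), ([0, 0, 0, 0, 1, 0, 1, 0, 0, 0, 0, 0, 0, 0, 1, 0, 0, 0, 0], 30), ([0, 0, 0, 0, 1, 1, 0, 0, 0, 0, 0, 0, 0, 0, 0, 0, 0, 0, 1], 62), ([0, 0, 0, 0, 1, 1, 0, 0, 0, 0, 0, 0, 0, 0, 0, 0, 0, 1, 0], 54), ([0, 0, 0, 0, 1, 1, 0, 0, 0, 0, 0, 0, 0, 0, 0, 0, 1, 0, 0], 46), ([0, 0, 0, 0, 1, 1, 0, 0, 0, 0, 0, 0, 0, 0, 0, 1, 0, 0, 0], 38), ([0, 0, 0, 0, 1, 1, 0, 0, 0, 0, 0, 0, 0, 0,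 1, 0, 0, 0, 0], 30)], [([0, 0, 0, 0, 0, 1, 0, 0, 0, 0, 0, 0, 0, 0, 1, 1, 2, 0, 1], 72), ([0, 0, 0, 0, 0, 1, 0, 0, 0, 0, 0, 0, 0, 0, 1, 1, 2, 1, 0], 64), ([0, 0, 0, 0, 0, 1, 0, 0, 0, 0, 0, 0, 0, 0, 2, 0, 1, 1, 1], 72), ([0, 0, 0, 0, 0, 1, 0, 0, 0, 0, 0, 0, 0, 0, 2, 0, 2, 0, 1], 64), ([0, 0, 0, 0, 0, 1, 0, 0, 0, 0, 0, 0, 0, 0, 2, 0, 2, 1, 0], 56), ([0, 0, 0, 0, 0, 1, 0, 0, 0, 0, 0, 0, 0, 0, 2, 1, 0, 1, 1], 64), ([0, 0, 0, 0, 0, 1, 0, 0, 0, 0, 0, 0, 0, 0, 2, 1, 1, 0, 0], 72), ([0, 0, 0, 0, 0, 1, 0, 0, 0, 0, 0, 0, 0, 0, 2, 1, 1, 0, 1], 56), ([0, 0, 0, 0, 0, 1, 0, 0, 0, 0, 0, 0, 0, 0, 2, 1, 1, 1, 0], 48), ([0, 0, 0, 0, 0, 1, 0, 0, 0, 0, 0, 0, 0, 0, 2, 1, 2, 0, 0], 40), ([0, 0, 0, 0, 0, 1, 0, 0, 0, 0, 0, 0, 0, 0, 3, 0, 0,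 1, 0], 72), ([0, 0, 0, 0, 0, 1, 0, 0, 0, 0, 0, 0, 0, 0, 3, 0, 0, 1, 1], 56), ([0, 0, 0, 0, 0, 1, 0, 0, 0, 0, 0, 0, 0, 0, 3, 0, 1, 0, 0], 64), ([0, 0, 0, 0, 0, 1, 0, 0, 0, 0, 0, 0, 0, 0, 3, 0, 1, 0, 1], 48), ([0, 0, 0, 0, 0, 1, 0, 0, 0, 0, 0, 0, 0, 0, 3, 0, 1, 1, 0], 40), ([0, 0, 0, 0, 0, 1, 0, 0, 0, 0, 0, 0, 0, 0, 3, 0, 2, 0, 0], 32), ([0, 0, 0, 0, 0, 1, 0, 0, 0, 0, 0, 0, 0, 0, 3, 1, 0, 0, 0], 56), ([0, 0, 0, 0, 0, 1, 0, 0, 0, 0, 0, 0, 0, 0, 3, 1, 0, 0, 1], 40), ([0, 0, 0, 0, 0, 1, 0, 0, 0, 0, 0, 0, 0, 0, 3, 1, 0, 1, 0], 32), ([0, 0, 0, 0, 0, 1, 0, 0, 0, 0, 0, 0, 0, 0, 3, 1, 1, 0, 0], 24), ([0, 0, 0, 0, 0, 1, 0, 0, 0, 0, 0, 0, 0, 0, 4, 0, 0, 0, 0], 48), ([0, 0, 0, 0, 0, 1, 0, 0, 0, 0, 0, 0, 0, 0, 4, 0, 0, 0, 1], 32),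 ([0, 0, 0, 0, 0, 1, 0, 0, 0, 0, 0, 0, 0, 0, 4, 0, 0, 1, 0], 24), ([0, 0, 0, 0, 0, 1, 0, 0, 0, 0, 0, 0, 0, 0, 4, 0, 1, 0, 0], 16), ([0, 0, 0, 0, 0, 1, 0, 0, 0, 0, 0, 0, 0, 0, 4, 1, 0, 0, 0], 8), ([0, 0, 0, 0, 0, 1, 0, 0, 0, 0, 0, 0, 0, 1, 0, 0, 1, 1, 1], 72), ([0, 0, 0, 0, 0, 1, 0, 0, 0, 0, 0, 0, 0, 1, 0, 0, 2, 0, 1], 64), ([0, 0, 0, 0, 0, 1, 0, 0, 0, 0, 0, 0, 0, 1, 0, 0, 2, 1, 0], 56), ([0, 0, 0, 0, 0, 1, 0, 0, 0, 0, 0, 0, 0, 1, 0, 1, 0, 1, 1], 64), ([0, 0, 0, 0, 0, 1, 0, 0, 0, 0, 0, 0, 0, 1, 0, 1, 1, 0, 0], 72), ([0, 0, 0, 0, 0, 1, 0, 0, 0, 0, 0, 0, 0, 1, 0, 1, 1, 0, 1], 56), ([0, 0, 0, 0, 0, 1, 0, 0, 0, 0, 0, 0, 0, 1, 0, 1, 1, 1, 0], 48), ([0, 0, 0, 0, 0, 1, 0, 0, 0, 0, 0, 0, 0, 1, 0, 1, 2, 0, 0], 40), ([0, 0, 0,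 0, 0, 1, 0, 0, 0, 0, 0, 0, 0, 1, 1, 0, 0, 1, 0], 72), ([0, 0, 0, 0, 0, 1, 0, 0, 0, 0, 0, 0, 0, 1, 1, 0, 0, 1, 1], 56), ([0, 0, 0, 0, 0, 1, 0, 0, 0, 0, 0, 0, 0, 1, 1, 0, 1, 0, 0], 64), ([0, 0, 0, 0, 0, 1, 0, 0, 0, 0, 0, 0, 0, 1, 1, 0, 1, 0, 1], 48), ([0, 0, 0, 0, 0, 1, 0, 0, 0, 0, 0, 0, 0, 1, 1, 0, 1, 1, 0], 40), ([0, 0, 0, 0, 0, 1, 0, 0, 0, 0, 0, 0, 0, 1, 1, 0, 2, 0, 0], 32), ([0, 0, 0, 0, 0, 1, 0, 0, 0, 0, 0, 0, 0, 1, 1, 1, 0, 0, 0], 56), ([0, 0, 0, 0, 0, 1, 0, 0, 0, 0, 0, 0, 0, 1, 1, 1, 0, 0, 1], 40), ([0, 0, 0, 0, 0, 1, 0, 0, 0, 0, 0, 0, 0, 1, 1, 1, 0, 1, 0], 32), ([0, 0, 0, 0, 0, 1, 0, 0, 0, 0, 0, 0, 0, 1, 1, 1, 1, 0, 0], 24), ([0, 0, 0, 0, 0, 1, 0, 0, 0, 0, 0, 0, 0, 1, 2, 0, 0, 0, 0], 48), ([0, 0, 0, 0, 0, 1,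 0, 0, 0, 0, 0, 0, 0, 1, 2, 0, 0, 0, 1], 32), ([0, 0, 0, 0, 0, 1, 0, 0, 0, 0, 0, 0, 0, 1, 2, 0, 0, 1, 0], 24), ([0, 0, 0, 0, 0, 1, 0, 0, 0, 0, 0, 0, 0, 1, 2, 0, 1, 0, 0], 16), ([0, 0, 0, 0, 0, 1, 0, 0, 0, 0, 0, 0, 0, 1, 2, 1, 0, 0, 0], 8), ([0, 0, 0, 0, 0, 1, 0, 0, 0, 0, 0, 0, 0, 1, 3, 0, 0, 0, 0], 0), ([0, 0, 0, 0, 0, 1, 0, 0, 0, 0, 0, 0, 1, 0, 0, 0, 2, 0, 0], 71), ([0, 0, 0, 0, 0, 1, 0, 0, 0, 0, 0, 0, 1, 0, 0, 1, 0, 1, 0], 71), ([0, 0, 0, 0, 0, 1, 0, 0, 0, 0, 0, 0, 1, 0, 0, 1, 1, 0, 0], 63), ([0, 0, 0, 0, 0, 1, 0, 0, 0, 0, 0, 0, 1, 0, 1, 0, 0, 0, 1], 71), ([0, 0, 0, 0, 0, 1, 0, 0, 0, 0, 0, 0, 1, 0, 1, 0, 0, 1, 0], 63), ([0, 0, 0, 0, 0, 1, 0, 0, 0, 0, 0, 0, 1, 0, 1, 0, 1, 0, 0], 55), ([0, 0, 0, 0, 0, 1, 0, 0, 0, 0,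 0, 0, 1, 0, 1, 1, 0, 0, 0], 47), ([0, 0, 0, 0, 0, 1, 0, 0, 0, 0, 0, 0, 1, 0, 2, 0, 0, 0, 0], 39), ([0, 0, 0, 0, 0, 1, 0, 0, 0, 0, 0, 0, 1, 1, 0, 0, 0, 0, 0], 39), ([0, 0, 0, 0, 0, 1, 0, 0, 0, 0, 0, 1, 0, 0, 0, 0, 2, 0, 0], 68), ([0, 0, 0, 0, 0, 1, 0, 0, 0, 0, 0, 1, 0, 0, 0, 1, 0, 1, 0], 68), ([0, 0, 0, 0, 0, 1, 0, 0, 0, 0, 0, 1, 0, 0, 0, 1, 1, 0, 0], 60), ([0, 0, 0, 0, 0, 1, 0, 0, 0, 0, 0, 1, 0, 0, 1, 0, 0, 0, 1], 68), ([0, 0, 0, 0, 0, 1, 0, 0, 0, 0, 0, 1, 0, 0, 1, 0, 0, 1, 0], 60), ([0, 0, 0, 0, 0, 1, 0, 0, 0, 0, 0, 1, 0, 0, 1, 0, 1, 0, 0], 52), ([0, 0, 0, 0, 0, 1, 0, 0, 0, 0, 0, 1, 0, 0, 1, 1, 0, 0, 0], 44), ([0, 0, 0, 0, 0, 1, 0, 0, 0, 0, 0, 1, 0, 0, 2, 0, 0, 0, 0], 36), ([0, 0, 0, 0, 0, 1, 0, 0, 0, 0, 0, 1, 0,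 1, 0, 0, 0, 0, 0], 36), ([0, 0, 0, 0, 0, 1, 0, 0, 0, 0, 0, 1, 1, 0, 0, 0, 0, 0, 0], 27), ([0, 0, 0, 0, 0, 1, 0, 0, 0, 0, 0, 2, 0, 0, 0, 0, 0, 0, 0], 24), ([0, 0, 0, 0, 0, 1, 0, 0, 0, 0, 1, 0, 0, 0, 0, 0, 1, 1, 0], 68), ([0, 0, 0, 0, 0, 1, 0, 0, 0, 0, 1, 0, 0, 0, 0, 0, 2, 0, 0], 60), ([0, 0, 0, 0, 0, 1, 0, 0, 0, 0, 1, 0, 0, 0, 0, 1, 0, 0, 1], 68), ([0, 0, 0, 0, 0, 1, 0, 0, 0, 0, 1, 0, 0, 0, 0, 1, 0, 1, 0], 60), ([0, 0, 0, 0, 0, 1, 0, 0, 0, 0, 1, 0, 0, 0, 0, 1, 1, 0, 0], 52), ([0, 0, 0, 0, 0, 1, 0, 0, 0, 0, 1, 0, 0, 0, 1, 0, 0, 0, 1], 60), ([0, 0, 0, 0, 0, 1, 0, 0, 0, 0, 1, 0, 0, 0, 1, 0, 0, 1, 0], 52), ([0, 0, 0, 0, 0, 1, 0, 0, 0, 0, 1, 0, 0, 0, 1, 0, 1, 0, 0], 44), ([0, 0, 0, 0, 0, 1, 0, 0, 0, 0, 1, 0, 0, 0, 1, 1,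 0, 0, 0], 36), ([0, 0, 0, 0, 0, 1, 0, 0, 0, 0, 1, 0, 0, 0, 2, 0, 0, 0, 0], 28), ([0, 0, 0, 0, 0, 1, 0, 0, 0, 0, 1, 0, 0, 1, 0, 0, 0, 0, 0], 28), ([0, 0, 0, 0, 0, 1, 0, 0, 0, 0, 1, 0, 1, 0, 0, 0, 0, 0, 0], 19), ([0, 0, 0, 0, 0, 1, 0, 0, 0, 0, 1, 1, 0, 0, 0, 0, 0, 0, 0], 16), ([0, 0, 0, 0, 0, 1, 0, 0, 0, 1, 0, 0, 0, 0, 0, 0, 1, 0, 1], 72), ([0, 0, 0, 0, 0, 1, 0, 0, 0, 1, 0, 0, 0, 0, 0, 0, 1, 1, 0], 64), ([0, 0, 0, 0, 0, 1, 0, 0, 0, 1, 0, 0, 0, 0, 0, 0, 2, 0, 0], 56), ([0, 0, 0, 0, 0, 1, 0, 0, 0, 1, 0, 0, 0, 0, 0, 1, 0, 0, 1], 64), ([0, 0, 0, 0, 0, 1, 0, 0, 0, 1, 0, 0, 0, 0, 0, 1, 0, 1, 0], 56), ([0, 0, 0, 0, 0, 1, 0, 0, 0, 1, 0, 0, 0, 0, 0, 1, 1, 0, 0], 48), ([0, 0, 0, 0, 0, 1, 0, 0, 0, 1, 0, 0, 0, 0, 1, 0, 0, 0, 0],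 72), ([0, 0, 0, 0, 0, 1, 0, 0, 0, 1, 0, 0, 0, 0, 1, 0, 0, 0, 1], 56), ([0, 0, 0, 0, 0, 1, 0, 0, 0, 1, 0, 0, 0, 0, 1, 0, 0, 1, 0], 48), ([0, 0, 0, 0, 0, 1, 0, 0, 0, 1, 0, 0, 0, 0, 1, 0, 1, 0, 0], 40), ([0, 0, 0, 0, 0, 1, 0, 0, 0, 1, 0, 0, 0, 0, 1, 1, 0, 0, 0], 32), ([0, 0, 0, 0, 0, 1, 0, 0, 0, 1, 0, 0, 0, 0, 2, 0, 0, 0, 0], 24), ([0, 0, 0, 0, 0, 1, 0, 0, 0, 1, 0, 0, 0, 1, 0, 0, 0, 0, 0], 24), ([0, 0, 0, 0, 0, 1, 0, 0, 0, 1, 0, 0, 1, 0, 0, 0, 0, 0, 0], 15), ([0, 0, 0, 0, 0, 1, 0, 0, 0, 1, 0, 1, 0, 0, 0, 0, 0, 0, 0], 12), ([0, 0, 0, 0, 0, 1, 0, 0, 1, 0, 0, 0, 0, 0, 0, 0, 1, 0, 1], 68), ([0, 0, 0, 0, 0, 1, 0, 0, 1, 0, 0, 0, 0, 0, 0, 0, 1, 1, 0], 60), ([0, 0, 0, 0, 0, 1, 0, 0, 1, 0, 0, 0, 0, 0, 0, 0, 2, 0, 0], 52), ([0,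 0, 0, 0, 0, 1, 0, 0, 1, 0, 0, 0, 0, 0, 0, 1, 0, 0, 1], 60), ([0, 0, 0, 0, 0, 1, 0, 0, 1, 0, 0, 0, 0, 0, 0, 1, 0, 1, 0], 52), ([0, 0, 0, 0, 0, 1, 0, 0, 1, 0, 0, 0, 0, 0, 0, 1, 1, 0, 0], 44), ([0, 0, 0, 0, 0, 1, 0, 0, 1, 0, 0, 0, 0, 0, 1, 0, 0, 0, 0], 68), ([0, 0, 0, 0, 0, 1, 0, 0, 1, 0, 0, 0, 0, 0, 1, 0, 0, 0, 1], 52), ([0, 0, 0, 0, 0, 1, 0, 0, 1, 0, 0, 0, 0, 0, 1, 0, 0, 1, 0], 44), ([0, 0, 0, 0, 0, 1, 0, 0, 1, 0, 0, 0, 0, 0, 1, 0, 1, 0, 0], 36), ([0, 0, 0, 0, 0, 1, 0, 0, 1, 0, 0, 0, 0, 0, 1, 1, 0, 0, 0], 28), ([0, 0, 0, 0, 0, 1, 0, 0, 1, 0, 0, 0, 0, 0, 2, 0, 0, 0, 0], 20), ([0, 0, 0, 0, 0, 1, 0, 0, 1, 0, 0, 0, 0, 1, 0, 0, 0, 0, 0], 20), ([0, 0, 0, 0, 0, 1, 0, 0, 1, 0, 0, 0, 1, 0, 0, 0, 0, 0, 0], 11), ([0, 0, 0, 0,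 0, 1, 0, 0, 1, 0, 0, 1, 0, 0, 0, 0, 0, 0, 0], 8), ([0, 0, 0, 0, 0, 1, 0, 1, 0, 0, 0, 0, 0, 0, 0, 0, 0, 1, 1], 72), ([0, 0, 0, 0, 0, 1, 0, 1, 0, 0, 0, 0, 0, 0, 0, 0, 1, 0, 1], 64), ([0, 0, 0, 0, 0, 1, 0, 1, 0, 0, 0, 0, 0, 0, 0, 0, 1, 1, 0], 56), ([0, 0, 0, 0, 0, 1, 0, 1, 0, 0, 0, 0, 0, 0, 0, 0, 2, 0, 0], 48), ([0, 0, 0, 0, 0, 1, 0, 1, 0, 0, 0, 0, 0, 0, 0, 1, 0, 0, 0], 72), ([0, 0, 0, 0, 0, 1, 0, 1, 0, 0, 0, 0, 0, 0, 0, 1, 0, 0, 1], 56), ([0, 0, 0, 0, 0, 1, 0, 1, 0, 0, 0, 0, 0, 0, 0, 1, 0, 1, 0], 48), ([0, 0, 0, 0, 0, 1, 0, 1, 0, 0, 0, 0, 0, 0, 0, 1, 1, 0, 0], 40), ([0, 0, 0, 0, 0, 1, 0, 1, 0, 0, 0, 0, 0, 0, 1, 0, 0, 0, 0], 64), ([0, 0, 0, 0, 0, 1, 0, 1, 0, 0, 0, 0, 0, 0, 1, 0, 0, 0, 1], 48), ([0, 0, 0, 0, 0, 1, 0, 1,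 0, 0, 0, 0, 0, 0, 1, 0, 0, 1, 0], 40), ([0, 0, 0, 0, 0, 1, 0, 1, 0, 0, 0, 0, 0, 0, 1, 0, 1, 0, 0], 32), ([0, 0, 0, 0, 0, 1, 0, 1, 0, 0, 0, 0, 0, 0, 1, 1, 0, 0, 0], 24), ([0, 0, 0, 0, 0, 1, 0, 1, 0, 0, 0, 0, 0, 0, 2, 0, 0, 0, 0], 16), ([0, 0, 0, 0, 0, 1, 0, 1, 0, 0, 0, 0, 0, 1, 0, 0, 0, 0, 0], 16), ([0, 0, 0, 0, 0, 1, 0, 1, 0, 0, 0, 0, 1, 0, 0, 0, 0, 0, 0], 7), ([0, 0, 0, 0, 0, 1, 0, 1, 0, 0, 0, 1, 0, 0, 0, 0, 0, 0, 0], 4), ([0, 0, 0, 0, 0, 1, 1, 0, 0, 0, 0, 0, 0, 0, 0, 0, 0, 1, 1], 68), ([0, 0, 0, 0, 0, 1, 1, 0, 0, 0, 0, 0, 0, 0, 0, 0, 1, 0, 1], 60), ([0, 0, 0, 0, 0, 1, 1, 0, 0, 0, 0, 0, 0, 0, 0, 0, 1, 1, 0], 52), ([0, 0, 0, 0, 0, 1, 1, 0, 0, 0, 0, 0, 0, 0, 0, 0, 2, 0, 0], 44), ([0, 0, 0, 0, 0, 1, 1, 0, 0, 0, 0, 0,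 0, 0, 0, 1, 0, 0, 0], 68), ([0, 0, 0, 0, 0, 1, 1, 0, 0, 0, 0, 0, 0, 0, 0, 1, 0, 0, 1], 52), ([0, 0, 0, 0, 0, 1, 1, 0, 0, 0, 0, 0, 0, 0, 0, 1, 0, 1, 0], 44), ([0, 0, 0, 0, 0, 1, 1, 0, 0, 0, 0, 0, 0, 0, 0, 1, 1, 0, 0], 36), ([0, 0, 0, 0, 0, 1, 1, 0, 0, 0, 0, 0, 0, 0, 1, 0, 0, 0, 0], 60), ([0, 0, 0, 0, 0, 1, 1, 0, 0, 0, 0, 0, 0, 0, 1, 0, 0, 0, 1], 44), ([0, 0, 0, 0, 0, 1, 1, 0, 0, 0, 0, 0, 0, 0, 1, 0, 0, 1, 0], 36), ([0, 0, 0, 0, 0, 1, 1, 0, 0, 0, 0, 0, 0, 0, 1, 0, 1, 0, 0], 28), ([0, 0, 0, 0, 0, 1, 1, 0, 0, 0, 0, 0, 0, 0, 1, 1, 0, 0, 0], 20), ([0, 0, 0, 0, 0, 1, 1, 0, 0, 0, 0, 0, 0, 0, 2, 0, 0, 0, 0], 12), ([0, 0, 0, 0, 0, 1, 1, 0, 0, 0, 0, 0, 0, 1, 0, 0, 0, 0, 0], 12), ([0, 0, 0, 0, 0, 1, 1, 0, 0, 0, 0, 0, 1, 0, 0,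 0, 0, 0, 0], 3), ([0, 0, 0, 0, 0, 1, 1, 0, 0, 0, 0, 1, 0, 0, 0, 0, 0, 0, 0], 0)], [([0, 0, 0, 0, 0, 0, 1, 0, 0, 0, 0, 0, 0, 0, 1, 1, 2, 0, 1], 72), ([0, 0, 0, 0, 0, 0, 1, 0, 0, 0, 0, 0, 0, 0, 1, 1, 2, 1, 0], 64), ([0, 0, 0, 0, 0, 0, 1, 0, 0, 0, 0, 0, 0, 0, 2, 0, 1, 1, 1], 72), ([0, 0, 0, 0, 0, 0, 1, 0, 0, 0, 0, 0, 0, 0, 2, 0, 2, 0, 1], 64), ([0, 0, 0, 0, 0, 0, 1, 0, 0, 0, 0, 0, 0, 0, 2, 0, 2, 1, 0], 56), ([0, 0, 0, 0, 0, 0, 1, 0, 0, 0, 0, 0, 0, 0, 2, 1, 0, 1, 1], 64), ([0, 0, 0, 0, 0, 0, 1, 0, 0, 0, 0, 0, 0, 0, 2, 1, 1, 0, 0], 72), ([0, 0, 0, 0, 0, 0, 1, 0, 0, 0, 0, 0, 0, 0, 2, 1, 1, 0, 1], 56), ([0, 0, 0, 0, 0, 0, 1, 0, 0, 0, 0, 0, 0, 0, 2, 1, 1, 1, 0], 48), ([0, 0, 0, 0, 0, 0, 1, 0, 0, 0, 0, 0, 0, 0, 2, 1, 2, 0,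 0], 40), ([0, 0, 0, 0, 0, 0, 1, 0, 0, 0, 0, 0, 0, 0, 3, 0, 0, 1, 0], 72), ([0, 0, 0, 0, 0, 0, 1, 0, 0, 0, 0, 0, 0, 0, 3, 0, 0, 1, 1], 56), ([0, 0, 0, 0, 0, 0, 1, 0, 0, 0, 0, 0, 0, 0, 3, 0, 1, 0, 0], 64), ([0, 0, 0, 0, 0, 0, 1, 0, 0, 0, 0, 0, 0, 0, 3, 0, 1, 0, 1], 48), ([0, 0, 0, 0, 0, 0, 1, 0, 0, 0, 0, 0, 0, 0, 3, 0, 1, 1, 0], 40), ([0, 0, 0, 0, 0, 0, 1, 0, 0, 0, 0, 0, 0, 0, 3, 0, 2, 0, 0], 32), ([0, 0, 0, 0, 0, 0, 1, 0, 0, 0, 0, 0, 0, 0, 3, 1, 0, 0, 0], 56), ([0, 0, 0, 0, 0, 0, 1, 0, 0, 0, 0, 0, 0, 0, 3, 1, 0, 0, 1], 40), ([0, 0, 0, 0, 0, 0, 1, 0, 0, 0, 0, 0, 0, 0, 3, 1, 0, 1, 0], 32), ([0, 0, 0, 0, 0, 0, 1, 0, 0, 0, 0, 0, 0, 0, 3, 1, 1, 0, 0], 24), ([0, 0, 0, 0, 0, 0, 1, 0, 0, 0, 0, 0, 0, 0, 4, 0, 0, 0, 0], 48),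 ([0, 0, 0, 0, 0, 0, 1, 0, 0, 0, 0, 0, 0, 0, 4, 0, 0, 0, 1], 32), ([0, 0, 0, 0, 0, 0, 1, 0, 0, 0, 0, 0, 0, 0, 4, 0, 0, 1, 0], 24), ([0, 0, 0, 0, 0, 0, 1, 0, 0, 0, 0, 0, 0, 0, 4, 0, 1, 0, 0], 16), ([0, 0, 0, 0, 0, 0, 1, 0, 0, 0, 0, 0, 0, 0, 4, 1, 0, 0, 0], 8), ([0, 0, 0, 0, 0, 0, 1, 0, 0, 0, 0, 0, 0, 1, 0, 0, 1, 1, 1], 72), ([0, 0, 0, 0, 0, 0, 1, 0, 0, 0, 0, 0, 0, 1, 0, 0, 2, 0, 1], 64), ([0, 0, 0, 0, 0, 0, 1, 0, 0, 0, 0, 0, 0, 1, 0, 0, 2, 1, 0], 56), ([0, 0, 0, 0, 0, 0, 1, 0, 0, 0, 0, 0, 0, 1, 0, 1, 0, 1, 1], 64), ([0, 0, 0, 0, 0, 0, 1, 0, 0, 0, 0, 0, 0, 1, 0, 1, 1, 0, 0], 72), ([0, 0, 0, 0, 0, 0, 1, 0, 0, 0, 0, 0, 0, 1, 0, 1, 1, 0, 1], 56), ([0, 0, 0, 0, 0, 0, 1, 0, 0, 0, 0, 0, 0, 1, 0, 1, 1, 1, 0], 48), ([0, 0, 0,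 0, 0, 0, 1, 0, 0, 0, 0, 0, 0, 1, 0, 1, 2, 0, 0], 40), ([0, 0, 0, 0, 0, 0, 1, 0, 0, 0, 0, 0, 0, 1, 1, 0, 0, 1, 0], 72), ([0, 0, 0, 0, 0, 0, 1, 0, 0, 0, 0, 0, 0, 1, 1, 0, 0, 1, 1], 56), ([0, 0, 0, 0, 0, 0, 1, 0, 0, 0, 0, 0, 0, 1, 1, 0, 1, 0, 0], 64), ([0, 0, 0, 0, 0, 0, 1, 0, 0, 0, 0, 0, 0, 1, 1, 0, 1, 0, 1], 48), ([0, 0, 0, 0, 0, 0, 1, 0, 0, 0, 0, 0, 0, 1, 1, 0, 1, 1, 0], 40), ([0, 0, 0, 0, 0, 0, 1, 0, 0, 0, 0, 0, 0, 1, 1, 0, 2, 0, 0], 32), ([0, 0, 0, 0, 0, 0, 1, 0, 0, 0, 0, 0, 0, 1, 1, 1, 0, 0, 0], 56), ([0, 0, 0, 0, 0, 0, 1, 0, 0, 0, 0, 0, 0, 1, 1, 1, 0, 0, 1], 40), ([0, 0, 0, 0, 0, 0, 1, 0, 0, 0, 0, 0, 0, 1, 1, 1, 0, 1, 0], 32), ([0, 0, 0, 0, 0, 0, 1, 0, 0, 0, 0, 0, 0, 1, 1, 1, 1, 0, 0], 24), ([0, 0, 0, 0, 0, 0,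 1, 0, 0, 0, 0, 0, 0, 1, 2, 0, 0, 0, 0], 48), ([0, 0, 0, 0, 0, 0, 1, 0, 0, 0, 0, 0, 0, 1, 2, 0, 0, 0, 1], 32), ([0, 0, 0, 0, 0, 0, 1, 0, 0, 0, 0, 0, 0, 1, 2, 0, 0, 1, 0], 24), ([0, 0, 0, 0, 0, 0, 1, 0, 0, 0, 0, 0, 0, 1, 2, 0, 1, 0, 0], 16), ([0, 0, 0, 0, 0, 0, 1, 0, 0, 0, 0, 0, 0, 1, 2, 1, 0, 0, 0], 8), ([0, 0, 0, 0, 0, 0, 1, 0, 0, 0, 0, 0, 0, 1, 3, 0, 0, 0, 0], 0), ([0, 0, 0, 0, 0, 0, 1, 0, 0, 0, 0, 0, 1, 0, 0, 0, 2, 0, 0], 71), ([0, 0, 0, 0, 0, 0, 1, 0, 0, 0, 0, 0, 1, 0, 0, 1, 0, 1, 0], 71), ([0, 0, 0, 0, 0, 0, 1, 0, 0, 0, 0, 0, 1, 0, 0, 1, 1, 0, 0], 63), ([0, 0, 0, 0, 0, 0, 1, 0, 0, 0, 0, 0, 1, 0, 1, 0, 0, 0, 1], 71), ([0, 0, 0, 0, 0, 0, 1, 0, 0, 0, 0, 0, 1, 0, 1, 0, 0, 1, 0], 63), ([0, 0, 0, 0, 0, 0, 1, 0, 0, 0,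 0, 0, 1, 0, 1, 0, 1, 0, 0], 55), ([0, 0, 0, 0, 0, 0, 1, 0, 0, 0, 0, 0, 1, 0, 1, 1, 0, 0, 0], 47), ([0, 0, 0, 0, 0, 0, 1, 0, 0, 0, 0, 0, 1, 0, 2, 0, 0, 0, 0], 39), ([0, 0, 0, 0, 0, 0, 1, 0, 0, 0, 0, 0, 1, 1, 0, 0, 0, 0, 0], 39), ([0, 0, 0, 0, 0, 0, 1, 0, 0, 0, 0, 1, 0, 0, 0, 0, 2, 0, 0], 68), ([0, 0, 0, 0, 0, 0, 1, 0, 0, 0, 0, 1, 0, 0, 0, 1, 0, 1, 0], 68), ([0, 0, 0, 0, 0, 0, 1, 0, 0, 0, 0, 1, 0, 0, 0, 1, 1, 0, 0], 60), ([0, 0, 0, 0, 0, 0, 1, 0, 0, 0, 0, 1, 0, 0, 1, 0, 0, 0, 1], 68), ([0, 0, 0, 0, 0, 0, 1, 0, 0, 0, 0, 1, 0, 0, 1, 0, 0, 1, 0], 60), ([0, 0, 0, 0, 0, 0, 1, 0, 0, 0, 0, 1, 0, 0, 1, 0, 1, 0, 0], 52), ([0, 0, 0, 0, 0, 0, 1, 0, 0, 0, 0, 1, 0, 0, 1, 1, 0, 0, 0], 44), ([0, 0, 0, 0, 0, 0, 1, 0, 0, 0, 0, 1, 0,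 0, 2, 0, 0, 0, 0], 36), ([0, 0, 0, 0, 0, 0, 1, 0, 0, 0, 0, 1, 0, 1, 0, 0, 0, 0, 0], 36), ([0, 0, 0, 0, 0, 0, 1, 0, 0, 0, 0, 1, 1, 0, 0, 0, 0, 0, 0], 27), ([0, 0, 0, 0, 0, 0, 1, 0, 0, 0, 0, 2, 0, 0, 0, 0, 0, 0, 0], 24), ([0, 0, 0, 0, 0, 0, 1, 0, 0, 0, 1, 0, 0, 0, 0, 0, 1, 1, 0], 68), ([0, 0, 0, 0, 0, 0, 1, 0, 0, 0, 1, 0, 0, 0, 0, 0, 2, 0, 0], 60), ([0, 0, 0, 0, 0, 0, 1, 0, 0, 0, 1, 0, 0, 0, 0, 1, 0, 0, 1], 68), ([0, 0, 0, 0, 0, 0, 1, 0, 0, 0, 1, 0, 0, 0, 0, 1, 0, 1, 0], 60), ([0, 0, 0, 0, 0, 0, 1, 0, 0, 0, 1, 0, 0, 0, 0, 1, 1, 0, 0], 52), ([0, 0, 0, 0, 0, 0, 1, 0, 0, 0, 1, 0, 0, 0, 1, 0, 0, 0, 1], 60), ([0, 0, 0, 0, 0, 0, 1, 0, 0, 0, 1, 0, 0, 0, 1, 0, 0, 1, 0], 52), ([0, 0, 0, 0, 0, 0, 1, 0, 0, 0, 1, 0, 0, 0, 1, 0,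 1, 0, 0], 44), ([0, 0, 0, 0, 0, 0, 1, 0, 0, 0, 1, 0, 0, 0, 1, 1, 0, 0, 0], 36), ([0, 0, 0, 0, 0, 0, 1, 0, 0, 0, 1, 0, 0, 0, 2, 0, 0, 0, 0], 28), ([0, 0, 0, 0, 0, 0, 1, 0, 0, 0, 1, 0, 0, 1, 0, 0, 0, 0, 0], 28), ([0, 0, 0, 0, 0, 0, 1, 0, 0, 0, 1, 0, 1, 0, 0, 0, 0, 0, 0], 19), ([0, 0, 0, 0, 0, 0, 1, 0, 0, 0, 1, 1, 0, 0, 0, 0, 0, 0, 0], 16), ([0, 0, 0, 0, 0, 0, 1, 0, 0, 1, 0, 0, 0, 0, 0, 0, 1, 0, 1], 72), ([0, 0, 0, 0, 0, 0, 1, 0, 0, 1, 0, 0, 0, 0, 0, 0, 1, 1, 0], 64), ([0, 0, 0, 0, 0, 0, 1, 0, 0, 1, 0, 0, 0, 0, 0, 0, 2, 0, 0], 56), ([0, 0, 0, 0, 0, 0, 1, 0, 0, 1, 0, 0, 0, 0, 0, 1, 0, 0, 1], 64), ([0, 0, 0, 0, 0, 0, 1, 0, 0, 1, 0, 0, 0, 0, 0, 1, 0, 1, 0], 56), ([0, 0, 0, 0, 0, 0, 1, 0, 0, 1, 0, 0, 0, 0, 0, 1, 1, 0, 0],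 48), ([0, 0, 0, 0, 0, 0, 1, 0, 0, 1, 0, 0, 0, 0, 1, 0, 0, 0, 0], 72), ([0, 0, 0, 0, 0, 0, 1, 0, 0, 1, 0, 0, 0, 0, 1, 0, 0, 0, 1], 56), ([0, 0, 0, 0, 0, 0, 1, 0, 0, 1, 0, 0, 0, 0, 1, 0, 0, 1, 0], 48), ([0, 0, 0, 0, 0, 0, 1, 0, 0, 1, 0, 0, 0, 0, 1, 0, 1, 0, 0], 40), ([0, 0, 0, 0, 0, 0, 1, 0, 0, 1, 0, 0, 0, 0, 1, 1, 0, 0, 0], 32), ([0, 0, 0, 0, 0, 0, 1, 0, 0, 1, 0, 0, 0, 0, 2, 0, 0, 0, 0], 24), ([0, 0, 0, 0, 0, 0, 1, 0, 0, 1, 0, 0, 0, 1, 0, 0, 0, 0, 0], 24), ([0, 0, 0, 0, 0, 0, 1, 0, 0, 1, 0, 0, 1, 0, 0, 0, 0, 0, 0], 15), ([0, 0, 0, 0, 0, 0, 1, 0, 0, 1, 0, 1, 0, 0, 0, 0, 0, 0, 0], 12), ([0, 0, 0, 0, 0, 0, 1, 0, 0, 1, 1, 0, 0, 0, 0, 0, 0, 0, 0], 4), ([0, 0, 0, 0, 0, 0, 1, 0, 1, 0, 0, 0, 0, 0, 0, 0, 1, 0, 1], 68), ([0,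 0, 0, 0, 0, 0, 1, 0, 1, 0, 0, 0, 0, 0, 0, 0, 1, 1, 0], 60), ([0, 0, 0, 0, 0, 0, 1, 0, 1, 0, 0, 0, 0, 0, 0, 0, 2, 0, 0], 52), ([0, 0, 0, 0, 0, 0, 1, 0, 1, 0, 0, 0, 0, 0, 0, 1, 0, 0, 1], 60), ([0, 0, 0, 0, 0, 0, 1, 0, 1, 0, 0, 0, 0, 0, 0, 1, 0, 1, 0], 52), ([0, 0, 0, 0, 0, 0, 1, 0, 1, 0, 0, 0, 0, 0, 0, 1, 1, 0, 0], 44), ([0, 0, 0, 0, 0, 0, 1, 0, 1, 0, 0, 0, 0, 0, 1, 0, 0, 0, 0], 68), ([0, 0, 0, 0, 0, 0, 1, 0, 1, 0, 0, 0, 0, 0, 1, 0, 0, 0, 1], 52), ([0, 0, 0, 0, 0, 0, 1, 0, 1, 0, 0, 0, 0, 0, 1, 0, 0, 1, 0], 44), ([0, 0, 0, 0, 0, 0, 1, 0, 1, 0, 0, 0, 0, 0, 1, 0, 1, 0, 0], 36), ([0, 0, 0, 0, 0, 0, 1, 0, 1, 0, 0, 0, 0, 0, 1, 1, 0, 0, 0], 28), ([0, 0, 0, 0, 0, 0, 1, 0, 1, 0, 0, 0, 0, 0, 2, 0, 0, 0, 0], 20), ([0, 0, 0, 0,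 0, 0, 1, 0, 1, 0, 0, 0, 0, 1, 0, 0, 0, 0, 0], 20), ([0, 0, 0, 0, 0, 0, 1, 0, 1, 0, 0, 0, 1, 0, 0, 0, 0, 0, 0], 11), ([0, 0, 0, 0, 0, 0, 1, 0, 1, 0, 0, 1, 0, 0, 0, 0, 0, 0, 0], 8), ([0, 0, 0, 0, 0, 0, 1, 0, 1, 0, 1, 0, 0, 0, 0, 0, 0, 0, 0], 0), ([0, 0, 0, 0, 0, 0, 1, 1, 0, 0, 0, 0, 0, 0, 0, 0, 0, 1, 1], 72), ([0, 0, 0, 0, 0, 0, 1, 1, 0, 0, 0, 0, 0, 0, 0, 0, 1, 0, 1], 64), ([0, 0, 0, 0, 0, 0, 1, 1, 0, 0, 0, 0, 0, 0, 0, 0, 1, 1, 0], 56), ([0, 0, 0, 0, 0, 0, 1, 1, 0, 0, 0, 0, 0, 0, 0, 0, 2, 0, 0], 48), ([0, 0, 0, 0, 0, 0, 1, 1, 0, 0, 0, 0, 0, 0, 0, 1, 0, 0, 0], 72), ([0, 0, 0, 0, 0, 0, 1, 1, 0, 0, 0, 0, 0, 0, 0, 1, 0, 0, 1], 56), ([0, 0, 0, 0, 0, 0, 1, 1, 0, 0, 0, 0, 0, 0, 0, 1, 0, 1, 0], 48), ([0, 0, 0, 0, 0, 0, 1, 1,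 0, 0, 0, 0, 0, 0, 0, 1, 1, 0, 0], 40), ([0, 0, 0, 0, 0, 0, 1, 1, 0, 0, 0, 0, 0, 0, 1, 0, 0, 0, 0], 64), ([0, 0, 0, 0, 0, 0, 1, 1, 0, 0, 0, 0, 0, 0, 1, 0, 0, 0, 1], 48), ([0, 0, 0, 0, 0, 0, 1, 1, 0, 0, 0, 0, 0, 0, 1, 0, 0, 1, 0], 40), ([0, 0, 0, 0, 0, 0, 1, 1, 0, 0, 0, 0, 0, 0, 1, 0, 1, 0, 0], 32), ([0, 0, 0, 0, 0, 0, 1, 1, 0, 0, 0, 0, 0, 0, 1, 1, 0, 0, 0], 24), ([0, 0, 0, 0, 0, 0, 1, 1, 0, 0, 0, 0, 0, 0, 2, 0, 0, 0, 0], 16), ([0, 0, 0, 0, 0, 0, 1, 1, 0, 0, 0, 0, 0, 1, 0, 0, 0, 0, 0], 16), ([0, 0, 0, 0, 0, 0, 1, 1, 0, 0, 0, 0, 1, 0, 0, 0, 0, 0, 0], 7), ([0, 0, 0, 0, 0, 0, 1, 1, 0, 0, 0, 1, 0, 0, 0, 0, 0, 0, 0], 4)], [([0, 0, 0, 0, 0, 0, 0, 1, 0, 0, 0, 0, 0, 0, 1, 1, 2, 1, 0], 68), ([0, 0, 0, 0, 0, 0, 0, 1, 0, 0, 0,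 0, 0, 0, 2, 0, 2, 0, 1], 68), ([0, 0, 0, 0, 0, 0, 0, 1, 0, 0, 0, 0, 0, 0, 2, 0, 2, 1, 0], 60), ([0, 0, 0, 0, 0, 0, 0, 1, 0, 0, 0, 0, 0, 0, 2, 1, 0, 1, 1], 68), ([0, 0, 0, 0, 0, 0, 0, 1, 0, 0, 0, 0, 0, 0, 2, 1, 1, 0, 1], 60), ([0, 0, 0, 0, 0, 0, 0, 1, 0, 0, 0, 0, 0, 0, 2, 1, 1, 1, 0], 52), ([0, 0, 0, 0, 0, 0, 0, 1, 0, 0, 0, 0, 0, 0, 2, 1, 2, 0, 0], 44), ([0, 0, 0, 0, 0, 0, 0, 1, 0, 0, 0, 0, 0, 0, 3, 0, 0, 1, 1], 60), ([0, 0, 0, 0, 0, 0, 0, 1, 0, 0, 0, 0, 0, 0, 3, 0, 1, 0, 0], 68), ([0, 0, 0, 0, 0, 0, 0, 1, 0, 0, 0, 0, 0, 0, 3, 0, 1, 0, 1], 52), ([0, 0, 0, 0, 0, 0, 0, 1, 0, 0, 0, 0, 0, 0, 3, 0, 1, 1, 0], 44), ([0, 0, 0, 0, 0, 0, 0, 1, 0, 0, 0, 0, 0, 0, 3, 0, 2, 0, 0], 36), ([0, 0, 0, 0, 0, 0, 0, 1, 0, 0, 0, 0, 0, 0,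 3, 1, 0, 0, 0], 60), ([0, 0, 0, 0, 0, 0, 0, 1, 0, 0, 0, 0, 0, 0, 3, 1, 0, 0, 1], 44), ([0, 0, 0, 0, 0, 0, 0, 1, 0, 0, 0, 0, 0, 0, 3, 1, 0, 1, 0], 36), ([0, 0, 0, 0, 0, 0, 0, 1, 0, 0, 0, 0, 0, 0, 3, 1, 1, 0, 0], 28), ([0, 0, 0, 0, 0, 0, 0, 1, 0, 0, 0, 0, 0, 0, 4, 0, 0, 0, 0], 52), ([0, 0, 0, 0, 0, 0, 0, 1, 0, 0, 0, 0, 0, 0, 4, 0, 0, 0, 1], 36), ([0, 0, 0, 0, 0, 0, 0, 1, 0, 0, 0, 0, 0, 0, 4, 0, 0, 1, 0], 28), ([0, 0, 0, 0, 0, 0, 0, 1, 0, 0, 0, 0, 0, 0, 4, 0, 1, 0, 0], 20), ([0, 0, 0, 0, 0, 0, 0, 1, 0, 0, 0, 0, 0, 0, 4, 1, 0, 0, 0], 12), ([0, 0, 0, 0, 0, 0, 0, 1, 0, 0, 0, 0, 0, 1, 0, 0, 2, 0, 1], 68), ([0, 0, 0, 0, 0, 0, 0, 1, 0, 0, 0, 0, 0, 1, 0, 0, 2, 1, 0], 60), ([0, 0, 0, 0, 0, 0, 0, 1, 0, 0, 0, 0, 0, 1, 0, 1, 0,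 1, 1], 68), ([0, 0, 0, 0, 0, 0, 0, 1, 0, 0, 0, 0, 0, 1, 0, 1, 1, 0, 1], 60), ([0, 0, 0, 0, 0, 0, 0, 1, 0, 0, 0, 0, 0, 1, 0, 1, 1, 1, 0], 52), ([0, 0, 0, 0, 0, 0, 0, 1, 0, 0, 0, 0, 0, 1, 0, 1, 2, 0, 0], 44), ([0, 0, 0, 0, 0, 0, 0, 1, 0, 0, 0, 0, 0, 1, 1, 0, 0, 1, 1], 60), ([0, 0, 0, 0, 0, 0, 0, 1, 0, 0, 0, 0, 0, 1, 1, 0, 1, 0, 0], 68), ([0, 0, 0, 0, 0, 0, 0, 1, 0, 0, 0, 0, 0, 1, 1, 0, 1, 0, 1], 52), ([0, 0, 0, 0, 0, 0, 0, 1, 0, 0, 0, 0, 0, 1, 1, 0, 1, 1, 0], 44), ([0, 0, 0, 0, 0, 0, 0, 1, 0, 0, 0, 0, 0, 1, 1, 0, 2, 0, 0], 36), ([0, 0, 0, 0, 0, 0, 0, 1, 0, 0, 0, 0, 0, 1, 1, 1, 0, 0, 0], 60), ([0, 0, 0, 0, 0, 0, 0, 1, 0, 0, 0, 0, 0, 1, 1, 1, 0, 0, 1], 44), ([0, 0, 0, 0, 0, 0, 0, 1, 0, 0, 0, 0, 0, 1, 1, 1, 0, 1, 0], 36),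 ([0, 0, 0, 0, 0, 0, 0, 1, 0, 0, 0, 0, 0, 1, 1, 1, 1, 0, 0], 28), ([0, 0, 0, 0, 0, 0, 0, 1, 0, 0, 0, 0, 0, 1, 2, 0, 0, 0, 0], 52), ([0, 0, 0, 0, 0, 0, 0, 1, 0, 0, 0, 0, 0, 1, 2, 0, 0, 0, 1], 36), ([0, 0, 0, 0, 0, 0, 0, 1, 0, 0, 0, 0, 0, 1, 2, 0, 0, 1, 0], 28), ([0, 0, 0, 0, 0, 0, 0, 1, 0, 0, 0, 0, 0, 1, 2, 0, 1, 0, 0], 20), ([0, 0, 0, 0, 0, 0, 0, 1, 0, 0, 0, 0, 0, 1, 2, 1, 0, 0, 0], 12), ([0, 0, 0, 0, 0, 0, 0, 1, 0, 0, 0, 0, 0, 1, 3, 0, 0, 0, 0], 4), ([0, 0, 0, 0, 0, 0, 0, 1, 0, 0, 0, 0, 1, 0, 0, 0, 2, 0, 0], 75), ([0, 0, 0, 0, 0, 0, 0, 1, 0, 0, 0, 0, 1, 0, 0, 1, 0, 1, 0], 75), ([0, 0, 0, 0, 0, 0, 0, 1, 0, 0, 0, 0, 1, 0, 0, 1, 1, 0, 0], 67), ([0, 0, 0, 0, 0, 0, 0, 1, 0, 0, 0, 0, 1, 0, 1, 0, 0, 0, 1], 75), ([0, 0, 0,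 0, 0, 0, 0, 1, 0, 0, 0, 0, 1, 0, 1, 0, 0, 1, 0], 67), ([0, 0, 0, 0, 0, 0, 0, 1, 0, 0, 0, 0, 1, 0, 1, 0, 1, 0, 0], 59), ([0, 0, 0, 0, 0, 0, 0, 1, 0, 0, 0, 0, 1, 0, 1, 1, 0, 0, 0], 51), ([0, 0, 0, 0, 0, 0, 0, 1, 0, 0, 0, 0, 1, 0, 2, 0, 0, 0, 0], 43), ([0, 0, 0, 0, 0, 0, 0, 1, 0, 0, 0, 0, 1, 1, 0, 0, 0, 0, 0], 43), ([0, 0, 0, 0, 0, 0, 0, 1, 0, 0, 0, 1, 0, 0, 0, 0, 2, 0, 0], 72), ([0, 0, 0, 0, 0, 0, 0, 1, 0, 0, 0, 1, 0, 0, 0, 1, 0, 1, 0], 72), ([0, 0, 0, 0, 0, 0, 0, 1, 0, 0, 0, 1, 0, 0, 0, 1, 1, 0, 0], 64), ([0, 0, 0, 0, 0, 0, 0, 1, 0, 0, 0, 1, 0, 0, 1, 0, 0, 0, 1], 72), ([0, 0, 0, 0, 0, 0, 0, 1, 0, 0, 0, 1, 0, 0, 1, 0, 0, 1, 0], 64), ([0, 0, 0, 0, 0, 0, 0, 1, 0, 0, 0, 1, 0, 0, 1, 0, 1, 0, 0], 56), ([0, 0, 0, 0, 0, 0,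 0, 1, 0, 0, 0, 1, 0, 0, 1, 1, 0, 0, 0], 48), ([0, 0, 0, 0, 0, 0, 0, 1, 0, 0, 0, 1, 0, 0, 2, 0, 0, 0, 0], 40), ([0, 0, 0, 0, 0, 0, 0, 1, 0, 0, 0, 1, 0, 1, 0, 0, 0, 0, 0], 40), ([0, 0, 0, 0, 0, 0, 0, 1, 0, 0, 0, 1, 1, 0, 0, 0, 0, 0, 0], 31), ([0, 0, 0, 0, 0, 0, 0, 1, 0, 0, 0, 2, 0, 0, 0, 0, 0, 0, 0], 28), ([0, 0, 0, 0, 0, 0, 0, 1, 0, 0, 1, 0, 0, 0, 0, 0, 1, 1, 0], 72), ([0, 0, 0, 0, 0, 0, 0, 1, 0, 0, 1, 0, 0, 0, 0, 0, 2, 0, 0], 64), ([0, 0, 0, 0, 0, 0, 0, 1, 0, 0, 1, 0, 0, 0, 0, 1, 0, 0, 1], 72), ([0, 0, 0, 0, 0, 0, 0, 1, 0, 0, 1, 0, 0, 0, 0, 1, 0, 1, 0], 64), ([0, 0, 0, 0, 0, 0, 0, 1, 0, 0, 1, 0, 0, 0, 0, 1, 1, 0, 0], 56), ([0, 0, 0, 0, 0, 0, 0, 1, 0, 0, 1, 0, 0, 0, 1, 0, 0, 0, 1], 64), ([0, 0, 0, 0, 0, 0, 0, 1, 0,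 0, 1, 0, 0, 0, 1, 0, 0, 1, 0], 56), ([0, 0, 0, 0, 0, 0, 0, 1, 0, 0, 1, 0, 0, 0, 1, 0, 1, 0, 0], 48), ([0, 0, 0, 0, 0, 0, 0, 1, 0, 0, 1, 0, 0, 0, 1, 1, 0, 0, 0], 40), ([0, 0, 0, 0, 0, 0, 0, 1, 0, 0, 1, 0, 0, 0, 2, 0, 0, 0, 0], 32), ([0, 0, 0, 0, 0, 0, 0, 1, 0, 0, 1, 0, 0, 1, 0, 0, 0, 0, 0], 32), ([0, 0, 0, 0, 0, 0, 0, 1, 0, 0, 1, 0, 1, 0, 0, 0, 0, 0, 0], 23), ([0, 0, 0, 0, 0, 0, 0, 1, 0, 0, 1, 1, 0, 0, 0, 0, 0, 0, 0], 20), ([0, 0, 0, 0, 0, 0, 0, 1, 0, 1, 0, 0, 0, 0, 0, 0, 1, 1, 0], 68), ([0, 0, 0, 0, 0, 0, 0, 1, 0, 1, 0, 0, 0, 0, 0, 0, 2, 0, 0], 60), ([0, 0, 0, 0, 0, 0, 0, 1, 0, 1, 0, 0, 0, 0, 0, 1, 0, 0, 1], 68), ([0, 0, 0, 0, 0, 0, 0, 1, 0, 1, 0, 0, 0, 0, 0, 1, 0, 1, 0], 60), ([0, 0, 0, 0, 0, 0, 0, 1, 0, 1, 0, 0,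 0, 0, 0, 1, 1, 0, 0], 52), ([0, 0, 0, 0, 0, 0, 0, 1, 0, 1, 0, 0, 0, 0, 1, 0, 0, 0, 1], 60), ([0, 0, 0, 0, 0, 0, 0, 1, 0, 1, 0, 0, 0, 0, 1, 0, 0, 1, 0], 52), ([0, 0, 0, 0, 0, 0, 0, 1, 0, 1, 0, 0, 0, 0, 1, 0, 1, 0, 0], 44), ([0, 0, 0, 0, 0, 0, 0, 1, 0, 1, 0, 0, 0, 0, 1, 1, 0, 0, 0], 36), ([0, 0, 0, 0, 0, 0, 0, 1, 0, 1, 0, 0, 0, 0, 2, 0, 0, 0, 0], 28), ([0, 0, 0, 0, 0, 0, 0, 1, 0, 1, 0, 0, 0, 1, 0, 0, 0, 0, 0], 28), ([0, 0, 0, 0, 0, 0, 0, 1, 0, 1, 0, 0, 1, 0, 0, 0, 0, 0, 0], 19), ([0, 0, 0, 0, 0, 0, 0, 1, 0, 1, 0, 1, 0, 0, 0, 0, 0, 0, 0], 16), ([0, 0, 0, 0, 0, 0, 0, 1, 0, 1, 1, 0, 0, 0, 0, 0, 0, 0, 0], 8), ([0, 0, 0, 0, 0, 0, 0, 1, 1, 0, 0, 0, 0, 0, 0, 0, 1, 0, 1], 72), ([0, 0, 0, 0, 0, 0, 0, 1, 1, 0, 0, 0, 0, 0, 0, 0,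 1, 1, 0], 64), ([0, 0, 0, 0, 0, 0, 0, 1, 1, 0, 0, 0, 0, 0, 0, 0, 2, 0, 0], 56), ([0, 0, 0, 0, 0, 0, 0, 1, 1, 0, 0, 0, 0, 0, 0, 1, 0, 0, 1], 64), ([0, 0, 0, 0, 0, 0, 0, 1, 1, 0, 0, 0, 0, 0, 0, 1, 0, 1, 0], 56), ([0, 0, 0, 0, 0, 0, 0, 1, 1, 0, 0, 0, 0, 0, 0, 1, 1, 0, 0], 48), ([0, 0, 0, 0, 0, 0, 0, 1, 1, 0, 0, 0, 0, 0, 1, 0, 0, 0, 0], 72), ([0, 0, 0, 0, 0, 0, 0, 1, 1, 0, 0, 0, 0, 0, 1, 0, 0, 0, 1], 56), ([0, 0, 0, 0, 0, 0, 0, 1, 1, 0, 0, 0, 0, 0, 1, 0, 0, 1, 0], 48), ([0, 0, 0, 0, 0, 0, 0, 1, 1, 0, 0, 0, 0, 0, 1, 0, 1, 0, 0], 40), ([0, 0, 0, 0, 0, 0, 0, 1, 1, 0, 0, 0, 0, 0, 1, 1, 0, 0, 0], 32), ([0, 0, 0, 0, 0, 0, 0, 1, 1, 0, 0, 0, 0, 0, 2, 0, 0, 0, 0], 24), ([0, 0, 0, 0, 0, 0, 0, 1, 1, 0, 0, 0, 0, 1, 0, 0, 0, 0, 0],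 24), ([0, 0, 0, 0, 0, 0, 0, 1, 1, 0, 0, 0, 1, 0, 0, 0, 0, 0, 0], 15), ([0, 0, 0, 0, 0, 0, 0, 1, 1, 0, 0, 1, 0, 0, 0, 0, 0, 0, 0], 12), ([0, 0, 0, 0, 0, 0, 0, 1, 1, 0, 1, 0, 0, 0, 0, 0, 0, 0, 0], 4)], [([0, 0, 0, 0, 0, 0, 0, 0, 1, 0, 0, 0, 0, 0, 1, 1, 2, 1, 0], 72), ([0, 0, 0, 0, 0, 0, 0, 0, 1, 0, 0, 0, 0, 0, 2, 0, 2, 0, 1], 72), ([0, 0, 0, 0, 0, 0, 0, 0, 1, 0, 0, 0, 0, 0, 2, 0, 2, 1, 0], 64), ([0, 0, 0, 0, 0, 0, 0, 0, 1, 0, 0, 0, 0, 0, 2, 1, 0, 1, 1], 72), ([0, 0, 0, 0, 0, 0, 0, 0, 1, 0, 0, 0, 0, 0, 2, 1, 1, 0, 1], 64), ([0, 0, 0, 0, 0, 0, 0, 0, 1, 0, 0, 0, 0, 0, 2, 1, 1, 1, 0], 56), ([0, 0, 0, 0, 0, 0, 0, 0, 1, 0, 0, 0, 0, 0, 2, 1, 2, 0, 0], 48), ([0, 0, 0, 0, 0, 0, 0, 0, 1, 0, 0, 0, 0, 0, 3, 0, 0, 1, 1], 64), ([0,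 0, 0, 0, 0, 0, 0, 0, 1, 0, 0, 0, 0, 0, 3, 0, 1, 0, 0], 72), ([0, 0, 0, 0, 0, 0, 0, 0, 1, 0, 0, 0, 0, 0, 3, 0, 1, 0, 1], 56), ([0, 0, 0, 0, 0, 0, 0, 0, 1, 0, 0, 0, 0, 0, 3, 0, 1, 1, 0], 48), ([0, 0, 0, 0, 0, 0, 0, 0, 1, 0, 0, 0, 0, 0, 3, 0, 2, 0, 0], 40), ([0, 0, 0, 0, 0, 0, 0, 0, 1, 0, 0, 0, 0, 0, 3, 1, 0, 0, 0], 64), ([0, 0, 0, 0, 0, 0, 0, 0, 1, 0, 0, 0, 0, 0, 3, 1, 0, 0, 1], 48), ([0, 0, 0, 0, 0, 0, 0, 0, 1, 0, 0, 0, 0, 0, 3, 1, 0, 1, 0], 40), ([0, 0, 0, 0, 0, 0, 0, 0, 1, 0, 0, 0, 0, 0, 3, 1, 1, 0, 0], 32), ([0, 0, 0, 0, 0, 0, 0, 0, 1, 0, 0, 0, 0, 0, 4, 0, 0, 0, 0], 56), ([0, 0, 0, 0, 0, 0, 0, 0, 1, 0, 0, 0, 0, 0, 4, 0, 0, 0, 1], 40), ([0, 0, 0, 0, 0, 0, 0, 0, 1, 0, 0, 0, 0, 0, 4, 0, 0, 1, 0], 32), ([0, 0, 0, 0,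 0, 0, 0, 0, 1, 0, 0, 0, 0, 0, 4, 0, 1, 0, 0], 24), ([0, 0, 0, 0, 0, 0, 0, 0, 1, 0, 0, 0, 0, 0, 4, 1, 0, 0, 0], 16), ([0, 0, 0, 0, 0, 0, 0, 0, 1, 0, 0, 0, 0, 1, 0, 0, 2, 0, 1], 72), ([0, 0, 0, 0, 0, 0, 0, 0, 1, 0, 0, 0, 0, 1, 0, 0, 2, 1, 0], 64), ([0, 0, 0, 0, 0, 0, 0, 0, 1, 0, 0, 0, 0, 1, 0, 1, 0, 1, 1], 72), ([0, 0, 0, 0, 0, 0, 0, 0, 1, 0, 0, 0, 0, 1, 0, 1, 1, 0, 1], 64), ([0, 0, 0, 0, 0, 0, 0, 0, 1, 0, 0, 0, 0, 1, 0, 1, 1, 1, 0], 56), ([0, 0, 0, 0, 0, 0, 0, 0, 1, 0, 0, 0, 0, 1, 0, 1, 2, 0, 0], 48), ([0, 0, 0, 0, 0, 0, 0, 0, 1, 0, 0, 0, 0, 1, 1, 0, 0, 1, 1], 64), ([0, 0, 0, 0, 0, 0, 0, 0, 1, 0, 0, 0, 0, 1, 1, 0, 1, 0, 0], 72), ([0, 0, 0, 0, 0, 0, 0, 0, 1, 0, 0, 0, 0, 1, 1, 0, 1, 0, 1], 56), ([0, 0, 0, 0, 0, 0, 0,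 0, 1, 0, 0, 0, 0, 1, 1, 0, 1, 1, 0], 48), ([0, 0, 0, 0, 0, 0, 0, 0, 1, 0, 0, 0, 0, 1, 1, 0, 2, 0, 0], 40), ([0, 0, 0, 0, 0, 0, 0, 0, 1, 0, 0, 0, 0, 1, 1, 1, 0, 0, 0], 64), ([0, 0, 0, 0, 0, 0, 0, 0, 1, 0, 0, 0, 0, 1, 1, 1, 0, 0, 1], 48), ([0, 0, 0, 0, 0, 0, 0, 0, 1, 0, 0, 0, 0, 1, 1, 1, 0, 1, 0], 40), ([0, 0, 0, 0, 0, 0, 0, 0, 1, 0, 0, 0, 0, 1, 1, 1, 1, 0, 0], 32), ([0, 0, 0, 0, 0, 0, 0, 0, 1, 0, 0, 0, 0, 1, 2, 0, 0, 0, 0], 56), ([0, 0, 0, 0, 0, 0, 0, 0, 1, 0, 0, 0, 0, 1, 2, 0, 0, 0, 1], 40), ([0, 0, 0, 0, 0, 0, 0, 0, 1, 0, 0, 0, 0, 1, 2, 0, 0, 1, 0], 32), ([0, 0, 0, 0, 0, 0, 0, 0, 1, 0, 0, 0, 0, 1, 2, 0, 1, 0, 0], 24), ([0, 0, 0, 0, 0, 0, 0, 0, 1, 0, 0, 0, 0, 1, 2, 1, 0, 0, 0], 16), ([0, 0, 0, 0, 0, 0, 0, 0, 1, 0,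 0, 0, 0, 1, 3, 0, 0, 0, 0], 8), ([0, 0, 0, 0, 0, 0, 0, 0, 1, 0, 0, 0, 1, 0, 0, 1, 1, 0, 0], 71), ([0, 0, 0, 0, 0, 0, 0, 0, 1, 0, 0, 0, 1, 0, 1, 0, 0, 1, 0], 71), ([0, 0, 0, 0, 0, 0, 0, 0, 1, 0, 0, 0, 1, 0, 1, 0, 1, 0, 0], 63), ([0, 0, 0, 0, 0, 0, 0, 0, 1, 0, 0, 0, 1, 0, 1, 1, 0, 0, 0], 55), ([0, 0, 0, 0, 0, 0, 0, 0, 1, 0, 0, 0, 1, 0, 2, 0, 0, 0, 0], 47), ([0, 0, 0, 0, 0, 0, 0, 0, 1, 0, 0, 0, 1, 1, 0, 0, 0, 0, 0], 47), ([0, 0, 0, 0, 0, 0, 0, 0, 1, 0, 0, 1, 0, 0, 0, 1, 1, 0, 0], 68), ([0, 0, 0, 0, 0, 0, 0, 0, 1, 0, 0, 1, 0, 0, 1, 0, 0, 1, 0], 68), ([0, 0, 0, 0, 0, 0, 0, 0, 1, 0, 0, 1, 0, 0, 1, 0, 1, 0, 0], 60), ([0, 0, 0, 0, 0, 0, 0, 0, 1, 0, 0, 1, 0, 0, 1, 1, 0, 0, 0], 52), ([0, 0, 0, 0, 0, 0, 0, 0, 1, 0, 0, 1, 0, 0,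 2, 0, 0, 0, 0], 44), ([0, 0, 0, 0, 0, 0, 0, 0, 1, 0, 0, 1, 0, 1, 0, 0, 0, 0, 0], 44), ([0, 0, 0, 0, 0, 0, 0, 0, 1, 0, 0, 1, 1, 0, 0, 0, 0, 0, 0], 35), ([0, 0, 0, 0, 0, 0, 0, 0, 1, 0, 0, 2, 0, 0, 0, 0, 0, 0, 0], 32), ([0, 0, 0, 0, 0, 0, 0, 0, 1, 0, 1, 0, 0, 0, 0, 0, 2, 0, 0], 68), ([0, 0, 0, 0, 0, 0, 0, 0, 1, 0, 1, 0, 0, 0, 0, 1, 0, 1, 0], 68), ([0, 0, 0, 0, 0, 0, 0, 0, 1, 0, 1, 0, 0, 0, 0, 1, 1, 0, 0], 60), ([0, 0, 0, 0, 0, 0, 0, 0, 1, 0, 1, 0, 0, 0, 1, 0, 0, 0, 1], 68), ([0, 0, 0, 0, 0, 0, 0, 0, 1, 0, 1, 0, 0, 0, 1, 0, 0, 1, 0], 60), ([0, 0, 0, 0, 0, 0, 0, 0, 1, 0, 1, 0, 0, 0, 1, 0, 1, 0, 0], 52), ([0, 0, 0, 0, 0, 0, 0, 0, 1, 0, 1, 0, 0, 0, 1, 1, 0, 0, 0], 44), ([0, 0, 0, 0, 0, 0, 0, 0, 1, 0, 1, 0, 0, 0, 2, 0, 0,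 0, 0], 36), ([0, 0, 0, 0, 0, 0, 0, 0, 1, 0, 1, 0, 0, 1, 0, 0, 0, 0, 0], 36), ([0, 0, 0, 0, 0, 0, 0, 0, 1, 0, 1, 0, 1, 0, 0, 0, 0, 0, 0], 27), ([0, 0, 0, 0, 0, 0, 0, 0, 1, 0, 1, 1, 0, 0, 0, 0, 0, 0, 0], 24), ([0, 0, 0, 0, 0, 0, 0, 0, 1, 1, 0, 0, 0, 0, 0, 0, 1, 1, 0], 72), ([0, 0, 0, 0, 0, 0, 0, 0, 1, 1, 0, 0, 0, 0, 0, 0, 2, 0, 0], 64), ([0, 0, 0, 0, 0, 0, 0, 0, 1, 1, 0, 0, 0, 0, 0, 1, 0, 0, 1], 72), ([0, 0, 0, 0, 0, 0, 0, 0, 1, 1, 0, 0, 0, 0, 0, 1, 0, 1, 0], 64), ([0, 0, 0, 0, 0, 0, 0, 0, 1, 1, 0, 0, 0, 0, 0, 1, 1, 0, 0], 56), ([0, 0, 0, 0, 0, 0, 0, 0, 1, 1, 0, 0, 0, 0, 1, 0, 0, 0, 1], 64), ([0, 0, 0, 0, 0, 0, 0, 0, 1, 1, 0, 0, 0, 0, 1, 0, 0, 1, 0], 56), ([0, 0, 0, 0, 0, 0, 0, 0, 1, 1, 0, 0, 0, 0, 1, 0, 1, 0, 0], 48),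 ([0, 0, 0, 0, 0, 0, 0, 0, 1, 1, 0, 0, 0, 0, 1, 1, 0, 0, 0], 40), ([0, 0, 0, 0, 0, 0, 0, 0, 1, 1, 0, 0, 0, 0, 2, 0, 0, 0, 0], 32), ([0, 0, 0, 0, 0, 0, 0, 0, 1, 1, 0, 0, 0, 1, 0, 0, 0, 0, 0], 32), ([0, 0, 0, 0, 0, 0, 0, 0, 1, 1, 0, 0, 1, 0, 0, 0, 0, 0, 0], 23), ([0, 0, 0, 0, 0, 0, 0, 0, 1, 1, 0, 1, 0, 0, 0, 0, 0, 0, 0], 20), ([0, 0, 0, 0, 0, 0, 0, 0, 1, 1, 1, 0, 0, 0, 0, 0, 0, 0, 0], 12), ([0, 0, 0, 0, 0, 0, 0, 0, 2, 0, 0, 0, 0, 0, 0, 0, 1, 1, 0], 68), ([0, 0, 0, 0, 0, 0, 0, 0, 2, 0, 0, 0, 0, 0, 0, 0, 2, 0, 0], 60), ([0, 0, 0, 0, 0, 0, 0, 0, 2, 0, 0, 0, 0, 0, 0, 1, 0, 0, 1], 68), ([0, 0, 0, 0, 0, 0, 0, 0, 2, 0, 0, 0, 0, 0, 0, 1, 0, 1, 0], 60), ([0, 0, 0, 0, 0, 0, 0, 0, 2, 0, 0, 0, 0, 0, 0, 1, 1, 0, 0], 52), ([0, 0, 0,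 0, 0, 0, 0, 0, 2, 0, 0, 0, 0, 0, 1, 0, 0, 0, 1], 60), ([0, 0, 0, 0, 0, 0, 0, 0, 2, 0, 0, 0, 0, 0, 1, 0, 0, 1, 0], 52), ([0, 0, 0, 0, 0, 0, 0, 0, 2, 0, 0, 0, 0, 0, 1, 0, 1, 0, 0], 44), ([0, 0, 0, 0, 0, 0, 0, 0, 2, 0, 0, 0, 0, 0, 1, 1, 0, 0, 0], 36), ([0, 0, 0, 0, 0, 0, 0, 0, 2, 0, 0, 0, 0, 0, 2, 0, 0, 0, 0], 28), ([0, 0, 0, 0, 0, 0, 0, 0, 2, 0, 0, 0, 0, 1, 0, 0, 0, 0, 0], 28), ([0, 0, 0, 0, 0, 0, 0, 0, 2, 0, 0, 0, 1, 0, 0, 0, 0, 0, 0], 19), ([0, 0, 0, 0, 0, 0, 0, 0, 2, 0, 0, 1, 0, 0, 0, 0, 0, 0, 0], 16), ([0, 0, 0, 0, 0, 0, 0, 0, 2, 0, 1, 0, 0, 0, 0, 0, 0, 0, 0], 8), ([0, 0, 0, 0, 0, 0, 0, 0, 2, 1, 0, 0, 0, 0, 0, 0, 0, 0, 0], 4)], [([0, 0, 0, 0, 0, 0, 0, 0, 0, 1, 0, 0, 0, 0, 2, 0, 2, 1, 0], 68), ([0, 0, 0, 0, 0, 0,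 0, 0, 0, 1, 0, 0, 0, 0, 2, 1, 1, 0, 1], 68), ([0, 0, 0, 0, 0, 0, 0, 0, 0, 1, 0, 0, 0, 0, 2, 1, 1, 1, 0], 60), ([0, 0, 0, 0, 0, 0, 0, 0, 0, 1, 0, 0, 0, 0, 2, 1, 2, 0, 0], 52), ([0, 0, 0, 0, 0, 0, 0, 0, 0, 1, 0, 0, 0, 0, 3, 0, 0, 1, 1], 68), ([0, 0, 0, 0, 0, 0, 0, 0, 0, 1, 0, 0, 0, 0, 3, 0, 1, 0, 1], 60), ([0, 0, 0, 0, 0, 0, 0, 0, 0, 1, 0, 0, 0, 0, 3, 0, 1, 1, 0], 52), ([0, 0, 0, 0, 0, 0, 0, 0, 0, 1, 0, 0, 0, 0, 3, 0, 2, 0, 0], 44), ([0, 0, 0, 0, 0, 0, 0, 0, 0, 1, 0, 0, 0, 0, 3, 1, 0, 0, 0], 68), ([0, 0, 0, 0, 0, 0, 0, 0, 0, 1, 0, 0, 0, 0, 3, 1, 0, 0, 1], 52), ([0, 0, 0, 0, 0, 0, 0, 0, 0, 1, 0, 0, 0, 0, 3, 1, 0, 1, 0], 44), ([0, 0, 0, 0, 0, 0, 0, 0, 0, 1, 0, 0, 0, 0, 3, 1, 1, 0, 0], 36), ([0, 0, 0, 0, 0, 0, 0, 0, 0,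 1, 0, 0, 0, 0, 4, 0, 0, 0, 0], 60), ([0, 0, 0, 0, 0, 0, 0, 0, 0, 1, 0, 0, 0, 0, 4, 0, 0, 0, 1], 44), ([0, 0, 0, 0, 0, 0, 0, 0, 0, 1, 0, 0, 0, 0, 4, 0, 0, 1, 0], 36), ([0, 0, 0, 0, 0, 0, 0, 0, 0, 1, 0, 0, 0, 0, 4, 0, 1, 0, 0], 28), ([0, 0, 0, 0, 0, 0, 0, 0, 0, 1, 0, 0, 0, 0, 4, 1, 0, 0, 0], 20), ([0, 0, 0, 0, 0, 0, 0, 0, 0, 1, 0, 0, 0, 1, 0, 0, 2, 1, 0], 68), ([0, 0, 0, 0, 0, 0, 0, 0, 0, 1, 0, 0, 0, 1, 0, 1, 1, 0, 1], 68), ([0, 0, 0, 0, 0, 0, 0, 0, 0, 1, 0, 0, 0, 1, 0, 1, 1, 1, 0], 60), ([0, 0, 0, 0, 0, 0, 0, 0, 0, 1, 0, 0, 0, 1, 0, 1, 2, 0, 0], 52), ([0, 0, 0, 0, 0, 0, 0, 0, 0, 1, 0, 0, 0, 1, 1, 0, 0, 1, 1], 68), ([0, 0, 0, 0, 0, 0, 0, 0, 0, 1, 0, 0, 0, 1, 1, 0, 1, 0, 1], 60), ([0, 0, 0, 0, 0, 0, 0, 0, 0, 1, 0, 0,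 0, 1, 1, 0, 1, 1, 0], 52), ([0, 0, 0, 0, 0, 0, 0, 0, 0, 1, 0, 0, 0, 1, 1, 0, 2, 0, 0], 44), ([0, 0, 0, 0, 0, 0, 0, 0, 0, 1, 0, 0, 0, 1, 1, 1, 0, 0, 0], 68), ([0, 0, 0, 0, 0, 0, 0, 0, 0, 1, 0, 0, 0, 1, 1, 1, 0, 0, 1], 52), ([0, 0, 0, 0, 0, 0, 0, 0, 0, 1, 0, 0, 0, 1, 1, 1, 0, 1, 0], 44), ([0, 0, 0, 0, 0, 0, 0, 0, 0, 1, 0, 0, 0, 1, 1, 1, 1, 0, 0], 36), ([0, 0, 0, 0, 0, 0, 0, 0, 0, 1, 0, 0, 0, 1, 2, 0, 0, 0, 0], 60), ([0, 0, 0, 0, 0, 0, 0, 0, 0, 1, 0, 0, 0, 1, 2, 0, 0, 0, 1], 44), ([0, 0, 0, 0, 0, 0, 0, 0, 0, 1, 0, 0, 0, 1, 2, 0, 0, 1, 0], 36), ([0, 0, 0, 0, 0, 0, 0, 0, 0, 1, 0, 0, 0, 1, 2, 0, 1, 0, 0], 28), ([0, 0, 0, 0, 0, 0, 0, 0, 0, 1, 0, 0, 0, 1, 2, 1, 0, 0, 0], 20), ([0, 0, 0, 0, 0, 0, 0, 0, 0, 1, 0, 0, 0, 1, 3,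 0, 0, 0, 0], 12), ([0, 0, 0, 0, 0, 0, 0, 0, 0, 1, 0, 0, 1, 0, 0, 1, 1, 0, 0], 75), ([0, 0, 0, 0, 0, 0, 0, 0, 0, 1, 0, 0, 1, 0, 1, 0, 0, 1, 0], 75), ([0, 0, 0, 0, 0, 0, 0, 0, 0, 1, 0, 0, 1, 0, 1, 0, 1, 0, 0], 67), ([0, 0, 0, 0, 0, 0, 0, 0, 0, 1, 0, 0, 1, 0, 1, 1, 0, 0, 0], 59), ([0, 0, 0, 0, 0, 0, 0, 0, 0, 1, 0, 0, 1, 0, 2, 0, 0, 0, 0], 51), ([0, 0, 0, 0, 0, 0, 0, 0, 0, 1, 0, 0, 1, 1, 0, 0, 0, 0, 0], 51), ([0, 0, 0, 0, 0, 0, 0, 0, 0, 1, 0, 1, 0, 0, 0, 1, 1, 0, 0], 72), ([0, 0, 0, 0, 0, 0, 0, 0, 0, 1, 0, 1, 0, 0, 1, 0, 0, 1, 0], 72), ([0, 0, 0, 0, 0, 0, 0, 0, 0, 1, 0, 1, 0, 0, 1, 0, 1, 0, 0], 64), ([0, 0, 0, 0, 0, 0, 0, 0, 0, 1, 0, 1, 0, 0, 1, 1, 0, 0, 0], 56), ([0, 0, 0, 0, 0, 0, 0, 0, 0, 1, 0, 1, 0, 0, 2, 0, 0, 0,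 0], 48), ([0, 0, 0, 0, 0, 0, 0, 0, 0, 1, 0, 1, 0, 1, 0, 0, 0, 0, 0], 48), ([0, 0, 0, 0, 0, 0, 0, 0, 0, 1, 0, 1, 1, 0, 0, 0, 0, 0, 0], 39), ([0, 0, 0, 0, 0, 0, 0, 0, 0, 1, 0, 2, 0, 0, 0, 0, 0, 0, 0], 36), ([0, 0, 0, 0, 0, 0, 0, 0, 0, 1, 1, 0, 0, 0, 0, 0, 2, 0, 0], 72), ([0, 0, 0, 0, 0, 0, 0, 0, 0, 1, 1, 0, 0, 0, 0, 1, 0, 1, 0], 72), ([0, 0, 0, 0, 0, 0, 0, 0, 0, 1, 1, 0, 0, 0, 0, 1, 1, 0, 0], 64), ([0, 0, 0, 0, 0, 0, 0, 0, 0, 1, 1, 0, 0, 0, 1, 0, 0, 0, 1], 72), ([0, 0, 0, 0, 0, 0, 0, 0, 0, 1, 1, 0, 0, 0, 1, 0, 0, 1, 0], 64), ([0, 0, 0, 0, 0, 0, 0, 0, 0, 1, 1, 0, 0, 0, 1, 0, 1, 0, 0], 56), ([0, 0, 0, 0, 0, 0, 0, 0, 0, 1, 1, 0, 0, 0, 1, 1, 0, 0, 0], 48), ([0, 0, 0, 0, 0, 0, 0, 0, 0, 1, 1, 0, 0, 0, 2, 0, 0, 0, 0], 40),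 ([0, 0, 0, 0, 0, 0, 0, 0, 0, 1, 1, 0, 0, 1, 0, 0, 0, 0, 0], 40), ([0, 0, 0, 0, 0, 0, 0, 0, 0, 1, 1, 0, 1, 0, 0, 0, 0, 0, 0], 31), ([0, 0, 0, 0, 0, 0, 0, 0, 0, 1, 1, 1, 0, 0, 0, 0, 0, 0, 0], 28)], [([0, 0, 0, 0, 0, 0, 0, 0, 0, 0, 1, 0, 0, 0, 2, 0, 2, 1, 0], 72), ([0, 0, 0, 0, 0, 0, 0, 0, 0, 0, 1, 0, 0, 0, 2, 1, 1, 0, 1], 72), ([0, 0, 0, 0, 0, 0, 0, 0, 0, 0, 1, 0, 0, 0, 2, 1, 1, 1, 0], 64), ([0, 0, 0, 0, 0, 0, 0, 0, 0, 0, 1, 0, 0, 0, 2, 1, 2, 0, 0], 56), ([0, 0, 0, 0, 0, 0, 0, 0, 0, 0, 1, 0, 0, 0, 3, 0, 0, 1, 1], 72), ([0, 0, 0, 0, 0, 0, 0, 0, 0, 0, 1, 0, 0, 0, 3, 0, 1, 0, 1], 64), ([0, 0, 0, 0, 0, 0, 0, 0, 0, 0, 1, 0, 0, 0, 3, 0, 1, 1, 0], 56), ([0, 0, 0, 0, 0, 0, 0, 0, 0, 0, 1, 0, 0, 0, 3, 0, 2, 0, 0], 48), ([0, 0,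 0, 0, 0, 0, 0, 0, 0, 0, 1, 0, 0, 0, 3, 1, 0, 0, 0], 72), ([0, 0, 0, 0, 0, 0, 0, 0, 0, 0, 1, 0, 0, 0, 3, 1, 0, 0, 1], 56), ([0, 0, 0, 0, 0, 0, 0, 0, 0, 0, 1, 0, 0, 0, 3, 1, 0, 1, 0], 48), ([0, 0, 0, 0, 0, 0, 0, 0, 0, 0, 1, 0, 0, 0, 3, 1, 1, 0, 0], 40), ([0, 0, 0, 0, 0, 0, 0, 0, 0, 0, 1, 0, 0, 0, 4, 0, 0, 0, 0], 64), ([0, 0, 0, 0, 0, 0, 0, 0, 0, 0, 1, 0, 0, 0, 4, 0, 0, 0, 1], 48), ([0, 0, 0, 0, 0, 0, 0, 0, 0, 0, 1, 0, 0, 0, 4, 0, 0, 1, 0], 40), ([0, 0, 0, 0, 0, 0, 0, 0, 0, 0, 1, 0, 0, 0, 4, 0, 1, 0, 0], 32), ([0, 0, 0, 0, 0, 0, 0, 0, 0, 0, 1, 0, 0, 0, 4, 1, 0, 0, 0], 24), ([0, 0, 0, 0, 0, 0, 0, 0, 0, 0, 1, 0, 0, 1, 0, 0, 2, 1, 0], 72), ([0, 0, 0, 0, 0, 0, 0, 0, 0, 0, 1, 0, 0, 1, 0, 1, 1, 0, 1], 72), ([0, 0, 0, 0, 0,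 0, 0, 0, 0, 0, 1, 0, 0, 1, 0, 1, 1, 1, 0], 64), ([0, 0, 0, 0, 0, 0, 0, 0, 0, 0, 1, 0, 0, 1, 0, 1, 2, 0, 0], 56), ([0, 0, 0, 0, 0, 0, 0, 0, 0, 0, 1, 0, 0, 1, 1, 0, 0, 1, 1], 72), ([0, 0, 0, 0, 0, 0, 0, 0, 0, 0, 1, 0, 0, 1, 1, 0, 1, 0, 1], 64), ([0, 0, 0, 0, 0, 0, 0, 0, 0, 0, 1, 0, 0, 1, 1, 0, 1, 1, 0], 56), ([0, 0, 0, 0, 0, 0, 0, 0, 0, 0, 1, 0, 0, 1, 1, 0, 2, 0, 0], 48), ([0, 0, 0, 0, 0, 0, 0, 0, 0, 0, 1, 0, 0, 1, 1, 1, 0, 0, 0], 72), ([0, 0, 0, 0, 0, 0, 0, 0, 0, 0, 1, 0, 0, 1, 1, 1, 0, 0, 1], 56), ([0, 0, 0, 0, 0, 0, 0, 0, 0, 0, 1, 0, 0, 1, 1, 1, 0, 1, 0], 48), ([0, 0, 0, 0, 0, 0, 0, 0, 0, 0, 1, 0, 0, 1, 1, 1, 1, 0, 0], 40), ([0, 0, 0, 0, 0, 0, 0, 0, 0, 0, 1, 0, 0, 1, 2, 0, 0, 0, 0], 64), ([0, 0, 0, 0, 0, 0, 0, 0,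 0, 0, 1, 0, 0, 1, 2, 0, 0, 0, 1], 48), ([0, 0, 0, 0, 0, 0, 0, 0, 0, 0, 1, 0, 0, 1, 2, 0, 0, 1, 0], 40), ([0, 0, 0, 0, 0, 0, 0, 0, 0, 0, 1, 0, 0, 1, 2, 0, 1, 0, 0], 32), ([0, 0, 0, 0, 0, 0, 0, 0, 0, 0, 1, 0, 0, 1, 2, 1, 0, 0, 0], 24), ([0, 0, 0, 0, 0, 0, 0, 0, 0, 0, 1, 0, 0, 1, 3, 0, 0, 0, 0], 16), ([0, 0, 0, 0, 0, 0, 0, 0, 0, 0, 1, 0, 1, 0, 0, 0, 2, 0, 1], 71), ([0, 0, 0, 0, 0, 0, 0, 0, 0, 0, 1, 0, 1, 0, 0, 1, 0, 1, 1], 71), ([0, 0, 0, 0, 0, 0, 0, 0, 0, 0, 1, 0, 1, 0, 1, 0, 1, 0, 0], 71), ([0, 0, 0, 0, 0, 0, 0, 0, 0, 0, 1, 0, 1, 0, 1, 1, 0, 0, 0], 63), ([0, 0, 0, 0, 0, 0, 0, 0, 0, 0, 1, 0, 1, 0, 2, 0, 0, 0, 0], 55), ([0, 0, 0, 0, 0, 0, 0, 0, 0, 0, 1, 0, 1, 1, 0, 0, 0, 0, 0], 55), ([0, 0, 0, 0, 0, 0, 0, 0, 0, 0, 1,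 1, 0, 0, 0, 0, 2, 0, 1], 68), ([0, 0, 0, 0, 0, 0, 0, 0, 0, 0, 1, 1, 0, 0, 1, 0, 1, 0, 0], 68), ([0, 0, 0, 0, 0, 0, 0, 0, 0, 0, 1, 1, 0, 0, 1, 1, 0, 0, 0], 60), ([0, 0, 0, 0, 0, 0, 0, 0, 0, 0, 1, 1, 0, 0, 2, 0, 0, 0, 0], 52), ([0, 0, 0, 0, 0, 0, 0, 0, 0, 0, 1, 1, 0, 1, 0, 0, 0, 0, 0], 52), ([0, 0, 0, 0, 0, 0, 0, 0, 0, 0, 1, 1, 1, 0, 0, 0, 0, 0, 0], 43), ([0, 0, 0, 0, 0, 0, 0, 0, 0, 0, 1, 2, 0, 0, 0, 0, 0, 0, 0], 40)], [([0, 0, 0, 0, 0, 0, 0, 0, 0, 0, 0, 1, 0, 0, 2, 1, 1, 1, 0], 72), ([0, 0, 0, 0, 0, 0, 0, 0, 0, 0, 0, 1, 0, 0, 2, 1, 2, 0, 0], 64), ([0, 0, 0, 0, 0, 0, 0, 0, 0, 0, 0, 1, 0, 0, 3, 0, 1, 0, 1], 72), ([0, 0, 0, 0, 0, 0, 0, 0, 0, 0, 0, 1, 0, 0, 3, 0, 1, 1, 0], 64), ([0, 0, 0, 0, 0, 0, 0, 0, 0, 0, 0, 1, 0, 0,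 3, 0, 2, 0, 0], 56), ([0, 0, 0, 0, 0, 0, 0, 0, 0, 0, 0, 1, 0, 0, 3, 1, 0, 0, 1], 64), ([0, 0, 0, 0, 0, 0, 0, 0, 0, 0, 0, 1, 0, 0, 3, 1, 0, 1, 0], 56), ([0, 0, 0, 0, 0, 0, 0, 0, 0, 0, 0, 1, 0, 0, 3, 1, 1, 0, 0], 48), ([0, 0, 0, 0, 0, 0, 0, 0, 0, 0, 0, 1, 0, 0, 4, 0, 0, 0, 0], 72), ([0, 0, 0, 0, 0, 0, 0, 0, 0, 0, 0, 1, 0, 0, 4, 0, 0, 0, 1], 56), ([0, 0, 0, 0, 0, 0, 0, 0, 0, 0, 0, 1, 0, 0, 4, 0, 0, 1, 0], 48), ([0, 0, 0, 0, 0, 0, 0, 0, 0, 0, 0, 1, 0, 0, 4, 0, 1, 0, 0], 40), ([0, 0, 0, 0, 0, 0, 0, 0, 0, 0, 0, 1, 0, 0, 4, 1, 0, 0, 0], 32), ([0, 0, 0, 0, 0, 0, 0, 0, 0, 0, 0, 1, 0, 1, 0, 1, 1, 1, 0], 72), ([0, 0, 0, 0, 0, 0, 0, 0, 0, 0, 0, 1, 0, 1, 0, 1, 2, 0, 0], 64), ([0, 0, 0, 0, 0, 0, 0, 0, 0, 0, 0, 1, 0, 1, 1, 0, 1,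 0, 1], 72), ([0, 0, 0, 0, 0, 0, 0, 0, 0, 0, 0, 1, 0, 1, 1, 0, 1, 1, 0], 64), ([0, 0, 0, 0, 0, 0, 0, 0, 0, 0, 0, 1, 0, 1, 1, 0, 2, 0, 0], 56), ([0, 0, 0, 0, 0, 0, 0, 0, 0, 0, 0, 1, 0, 1, 1, 1, 0, 0, 1], 64), ([0, 0, 0, 0, 0, 0, 0, 0, 0, 0, 0, 1, 0, 1, 1, 1, 0, 1, 0], 56), ([0, 0, 0, 0, 0, 0, 0, 0, 0, 0, 0, 1, 0, 1, 1, 1, 1, 0, 0], 48), ([0, 0, 0, 0, 0, 0, 0, 0, 0, 0, 0, 1, 0, 1, 2, 0, 0, 0, 0], 72), ([0, 0, 0, 0, 0, 0, 0, 0, 0, 0, 0, 1, 0, 1, 2, 0, 0, 0, 1], 56), ([0, 0, 0, 0, 0, 0, 0, 0, 0, 0, 0, 1, 0, 1, 2, 0, 0, 1, 0], 48), ([0, 0, 0, 0, 0, 0, 0, 0, 0, 0, 0, 1, 0, 1, 2, 0, 1, 0, 0], 40), ([0, 0, 0, 0, 0, 0, 0, 0, 0, 0, 0, 1, 0, 1, 2, 1, 0, 0, 0], 32), ([0, 0, 0, 0, 0, 0, 0, 0, 0, 0, 0, 1, 0, 1, 3, 0, 0, 0, 0], 24),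 ([0, 0, 0, 0, 0, 0, 0, 0, 0, 0, 0, 1, 1, 0, 0, 0, 2, 1, 0], 71), ([0, 0, 0, 0, 0, 0, 0, 0, 0, 0, 0, 1, 1, 0, 0, 1, 1, 0, 1], 71), ([0, 0, 0, 0, 0, 0, 0, 0, 0, 0, 0, 1, 1, 0, 0, 1, 1, 1, 0], 63), ([0, 0, 0, 0, 0, 0, 0, 0, 0, 0, 0, 1, 1, 0, 0, 1, 2, 0, 0], 55), ([0, 0, 0, 0, 0, 0, 0, 0, 0, 0, 0, 1, 1, 0, 1, 0, 0, 1, 1], 71), ([0, 0, 0, 0, 0, 0, 0, 0, 0, 0, 0, 1, 1, 0, 1, 0, 1, 0, 1], 63), ([0, 0, 0, 0, 0, 0, 0, 0, 0, 0, 0, 1, 1, 0, 1, 0, 1, 1, 0], 55), ([0, 0, 0, 0, 0, 0, 0, 0, 0, 0, 0, 1, 1, 0, 1, 0, 2, 0, 0], 47), ([0, 0, 0, 0, 0, 0, 0, 0, 0, 0, 0, 1, 1, 0, 1, 1, 0, 0, 0], 71), ([0, 0, 0, 0, 0, 0, 0, 0, 0, 0, 0, 1, 1, 0, 1, 1, 0, 0, 1], 55), ([0, 0, 0, 0, 0, 0, 0, 0, 0, 0, 0, 1, 1, 0, 1, 1, 0, 1, 0], 47), ([0, 0, 0,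 0, 0, 0, 0, 0, 0, 0, 0, 1, 1, 0, 1, 1, 1, 0, 0], 39), ([0, 0, 0, 0, 0, 0, 0, 0, 0, 0, 0, 1, 1, 0, 2, 0, 0, 0, 0], 63), ([0, 0, 0, 0, 0, 0, 0, 0, 0, 0, 0, 1, 1, 0, 2, 0, 0, 0, 1], 47), ([0, 0, 0, 0, 0, 0, 0, 0, 0, 0, 0, 1, 1, 0, 2, 0, 0, 1, 0], 39), ([0, 0, 0, 0, 0, 0, 0, 0, 0, 0, 0, 1, 1, 0, 2, 0, 1, 0, 0], 31), ([0, 0, 0, 0, 0, 0, 0, 0, 0, 0, 0, 1, 1, 0, 2, 1, 0, 0, 0], 23), ([0, 0, 0, 0, 0, 0, 0, 0, 0, 0, 0, 1, 1, 0, 3, 0, 0, 0, 0], 15), ([0, 0, 0, 0, 0, 0, 0, 0, 0, 0, 0, 1, 1, 1, 0, 0, 0, 0, 0], 63), ([0, 0, 0, 0, 0, 0, 0, 0, 0, 0, 0, 1, 1, 1, 0, 0, 0, 0, 1], 47), ([0, 0, 0, 0, 0, 0, 0, 0, 0, 0, 0, 1, 1, 1, 0, 0, 0, 1, 0], 39), ([0, 0, 0, 0, 0, 0, 0, 0, 0, 0, 0, 1, 1, 1, 0, 0, 1, 0, 0], 31), ([0, 0, 0, 0, 0, 0,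 0, 0, 0, 0, 0, 1, 1, 1, 0, 1, 0, 0, 0], 23), ([0, 0, 0, 0, 0, 0, 0, 0, 0, 0, 0, 1, 1, 1, 1, 0, 0, 0, 0], 15), ([0, 0, 0, 0, 0, 0, 0, 0, 0, 0, 0, 2, 0, 0, 0, 0, 2, 1, 0], 68), ([0, 0, 0, 0, 0, 0, 0, 0, 0, 0, 0, 2, 0, 0, 0, 1, 1, 0, 1], 68), ([0, 0, 0, 0, 0, 0, 0, 0, 0, 0, 0, 2, 0, 0, 0, 1, 1, 1, 0], 60), ([0, 0, 0, 0, 0, 0, 0, 0, 0, 0, 0, 2, 0, 0, 0, 1, 2, 0, 0], 52), ([0, 0, 0, 0, 0, 0, 0, 0, 0, 0, 0, 2, 0, 0, 1, 0, 0, 1, 1], 68), ([0, 0, 0, 0, 0, 0, 0, 0, 0, 0, 0, 2, 0, 0, 1, 0, 1, 0, 1], 60), ([0, 0, 0, 0, 0, 0, 0, 0, 0, 0, 0, 2, 0, 0, 1, 0, 1, 1, 0], 52), ([0, 0, 0, 0, 0, 0, 0, 0, 0, 0, 0, 2, 0, 0, 1, 0, 2, 0, 0], 44), ([0, 0, 0, 0, 0, 0, 0, 0, 0, 0, 0, 2, 0, 0, 1, 1, 0, 0, 0], 68), ([0, 0, 0, 0, 0, 0, 0, 0, 0,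 0, 0, 2, 0, 0, 1, 1, 0, 0, 1], 52), ([0, 0, 0, 0, 0, 0, 0, 0, 0, 0, 0, 2, 0, 0, 1, 1, 0, 1, 0], 44), ([0, 0, 0, 0, 0, 0, 0, 0, 0, 0, 0, 2, 0, 0, 1, 1, 1, 0, 0], 36), ([0, 0, 0, 0, 0, 0, 0, 0, 0, 0, 0, 2, 0, 0, 2, 0, 0, 0, 0], 60), ([0, 0, 0, 0, 0, 0, 0, 0, 0, 0, 0, 2, 0, 0, 2, 0, 0, 0, 1], 44), ([0, 0, 0, 0, 0, 0, 0, 0, 0, 0, 0, 2, 0, 0, 2, 0, 0, 1, 0], 36), ([0, 0, 0, 0, 0, 0, 0, 0, 0, 0, 0, 2, 0, 0, 2, 0, 1, 0, 0], 28), ([0, 0, 0, 0, 0, 0, 0, 0, 0, 0, 0, 2, 0, 0, 2, 1, 0, 0, 0], 20), ([0, 0, 0, 0, 0, 0, 0, 0, 0, 0, 0, 2, 0, 0, 3, 0, 0, 0, 0], 12), ([0, 0, 0, 0, 0, 0, 0, 0, 0, 0, 0, 2, 0, 1, 0, 0, 0, 0, 0], 60), ([0, 0, 0, 0, 0, 0, 0, 0, 0, 0, 0, 2, 0, 1, 0, 0, 0, 0, 1], 44), ([0, 0, 0, 0, 0, 0, 0, 0, 0, 0, 0, 2,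 0, 1, 0, 0, 0, 1, 0], 36), ([0, 0, 0, 0, 0, 0, 0, 0, 0, 0, 0, 2, 0, 1, 0, 0, 1, 0, 0], 28), ([0, 0, 0, 0, 0, 0, 0, 0, 0, 0, 0, 2, 0, 1, 0, 1, 0, 0, 0], 20), ([0, 0, 0, 0, 0, 0, 0, 0, 0, 0, 0, 2, 0, 1, 1, 0, 0, 0, 0], 12), ([0, 0, 0, 0, 0, 0, 0, 0, 0, 0, 0, 2, 1, 0, 0, 0, 0, 0, 0], 51), ([0, 0, 0, 0, 0, 0, 0, 0, 0, 0, 0, 2, 1, 0, 0, 0, 0, 0, 1], 35), ([0, 0, 0, 0, 0, 0, 0, 0, 0, 0, 0, 2, 1, 0, 0, 0, 0, 1, 0], 27), ([0, 0, 0, 0, 0, 0, 0, 0, 0, 0, 0, 2, 1, 0, 0, 0, 1, 0, 0], 19), ([0, 0, 0, 0, 0, 0, 0, 0, 0, 0, 0, 2, 1, 0, 0, 1, 0, 0, 0], 11), ([0, 0, 0, 0, 0, 0, 0, 0, 0, 0, 0, 2, 1, 0, 1, 0, 0, 0, 0], 3)], [([0, 0, 0, 0, 0, 0, 0, 0, 0, 0, 0, 0, 1, 0, 2, 1, 1, 1, 0], 75), ([0, 0, 0, 0, 0, 0, 0, 0, 0, 0, 0, 0, 1, 0, 2,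 1, 2, 0, 0], 67), ([0, 0, 0, 0, 0, 0, 0, 0, 0, 0, 0, 0, 1, 0, 3, 0, 1, 0, 1], 75), ([0, 0, 0, 0, 0, 0, 0, 0, 0, 0, 0, 0, 1, 0, 3, 0, 1, 1, 0], 67), ([0, 0, 0, 0, 0, 0, 0, 0, 0, 0, 0, 0, 1, 0, 3, 0, 2, 0, 0], 59), ([0, 0, 0, 0, 0, 0, 0, 0, 0, 0, 0, 0, 1, 0, 3, 1, 0, 0, 1], 67), ([0, 0, 0, 0, 0, 0, 0, 0, 0, 0, 0, 0, 1, 0, 3, 1, 0, 1, 0], 59), ([0, 0, 0, 0, 0, 0, 0, 0, 0, 0, 0, 0, 1, 0, 3, 1, 1, 0, 0], 51), ([0, 0, 0, 0, 0, 0, 0, 0, 0, 0, 0, 0, 1, 0, 4, 0, 0, 0, 0], 75), ([0, 0, 0, 0, 0, 0, 0, 0, 0, 0, 0, 0, 1, 0, 4, 0, 0, 0, 1], 59), ([0, 0, 0, 0, 0, 0, 0, 0, 0, 0, 0, 0, 1, 0, 4, 0, 0, 1, 0], 51), ([0, 0, 0, 0, 0, 0, 0, 0, 0, 0, 0, 0, 1, 0, 4, 0, 1, 0, 0], 43), ([0, 0, 0, 0, 0, 0, 0, 0, 0, 0, 0, 0, 1, 0, 4, 1, 0, 0,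 0], 35), ([0, 0, 0, 0, 0, 0, 0, 0, 0, 0, 0, 0, 1, 1, 0, 1, 1, 1, 0], 75), ([0, 0, 0, 0, 0, 0, 0, 0, 0, 0, 0, 0, 1, 1, 0, 1, 2, 0, 0], 67), ([0, 0, 0, 0, 0, 0, 0, 0, 0, 0, 0, 0, 1, 1, 1, 0, 1, 0, 1], 75), ([0, 0, 0, 0, 0, 0, 0, 0, 0, 0, 0, 0, 1, 1, 1, 0, 1, 1, 0], 67), ([0, 0, 0, 0, 0, 0, 0, 0, 0, 0, 0, 0, 1, 1, 1, 0, 2, 0, 0], 59), ([0, 0, 0, 0, 0, 0, 0, 0, 0, 0, 0, 0, 1, 1, 1, 1, 0, 0, 1], 67), ([0, 0, 0, 0, 0, 0, 0, 0, 0, 0, 0, 0, 1, 1, 1, 1, 0, 1, 0], 59), ([0, 0, 0, 0, 0, 0, 0, 0, 0, 0, 0, 0, 1, 1, 1, 1, 1, 0, 0], 51), ([0, 0, 0, 0, 0, 0, 0, 0, 0, 0, 0, 0, 1, 1, 2, 0, 0, 0, 0], 75), ([0, 0, 0, 0, 0, 0, 0, 0, 0, 0, 0, 0, 1, 1, 2, 0, 0, 0, 1], 59), ([0, 0, 0, 0, 0, 0, 0, 0, 0, 0, 0, 0, 1, 1, 2, 0, 0, 1, 0], 51),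 ([0, 0, 0, 0, 0, 0, 0, 0, 0, 0, 0, 0, 1, 1, 2, 0, 1, 0, 0], 43), ([0, 0, 0, 0, 0, 0, 0, 0, 0, 0, 0, 0, 1, 1, 2, 1, 0, 0, 0], 35), ([0, 0, 0, 0, 0, 0, 0, 0, 0, 0, 0, 0, 1, 1, 3, 0, 0, 0, 0], 27)], [([0, 0, 0, 0, 0, 0, 0, 0, 0, 0, 0, 0, 0, 1, 3, 0, 2, 0, 0], 68), ([0, 0, 0, 0, 0, 0, 0, 0, 0, 0, 0, 0, 0, 1, 3, 1, 0, 1, 0], 68), ([0, 0, 0, 0, 0, 0, 0, 0, 0, 0, 0, 0, 0, 1, 3, 1, 1, 0, 0], 60), ([0, 0, 0, 0, 0, 0, 0, 0, 0, 0, 0, 0, 0, 1, 4, 0, 0, 0, 1], 68), ([0, 0, 0, 0, 0, 0, 0, 0, 0, 0, 0, 0, 0, 1, 4, 0, 0, 1, 0], 60), ([0, 0, 0, 0, 0, 0, 0, 0, 0, 0, 0, 0, 0, 1, 4, 0, 1, 0, 0], 52), ([0, 0, 0, 0, 0, 0, 0, 0, 0, 0, 0, 0, 0, 1, 4, 1, 0, 0, 0], 44)], [], [], [], [], []]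

/-- A part of the tree of dead states. -/
noncomputable def dT0 : DT := (.node (.node (.node (.node (.node .leaf 151115727470589349204240 2 63 [0,0,0,0,0,0,0,1,1,1,0,1,1,0,0,1,1,1,0] .leaf) 151115727470589349204480 2 55 [0,0,0,0,0,0,0,1,1,1,0,1,1,0,0,1,2,0,0] (.node .leaf 151115727470589349265680 2 55 [0,0,0,0,0,0,0,1,1,1,0,1,1,0,1,0,1,1,0] .leaf)) 151115727470589349265920 2 47 [0,0,0,0,0,0,0,1,1,1,0,1,1,0,1,0,2,0,0] (.node (.node .leaf 151115727470589349269505 2 55 [0,0,0,0,0,0,0,1,1,1,0,1,1,0,1,1,0,0,1] .leaf) 151115727470589349269520 2 47 [0,0,0,0,0,0,0,1,1,1,0,1,1,0,1,1,0,1,0] .leaf)) 151115727470589349269760 2 39 [0,0,0,0,0,0,0,1,1,1,0,1,1,0,1,1,1,0,0] (.node (.node (.node .leaf 151115727470589349330945 2 47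 [0,0,0,0,0,0,0,1,1,1,0,1,1,0,2,0,0,0,1] .leaf) 151115727470589349330960 2 39 [0,0,0,0,0,0,0,1,1,1,0,1,1,0,2,0,0,1,0] (.node .leaf 151115727470589349331200 2 31 [0,0,0,0,0,0,0,1,1,1,0,1,1,0,2,0,1,0,0] .leaf)) 151115727470589349335040 2 23 [0,0,0,0,0,0,0,1,1,1,0,1,1,0,2,1,0,0,0] (.node (.node .leaf 151115727470589349396480 2 15 [0,0,0,0,0,0,0,1,1,1,0,1,1,0,3,0,0,0,0] .leaf) 151115727470589350248449 2 47 [0,0,0,0,0,0,0,1,1,1,0,1,1,1,0,0,0,0,1] .leaf))) 151115727470589350248464 2 39 [0,0,0,0,0,0,0,1,1,1,0,1,1,1,0,0,0,1,0] (.node (.node (.node (.node .leaf 151115727470589350248704 2 31 [0,0,0,0,0,0,0,1,1,1,0,1,1,1,0,0,1,0,0] .leaf) 151115727470589350252544 2 23 [0,0,0,0,0,0,0,1,1,1,0,1,1,1,0,1,0,0,0] (.node .leaf 151115727470589350313984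 2 15 [0,0,0,0,0,0,0,1,1,1,0,1,1,1,1,0,0,0,0] .leaf)) 151115727470589600862480 2 60 [0,0,0,0,0,0,0,1,1,1,0,2,0,0,0,1,1,1,0] (.node (.node .leaf 151115727470589600862720 2 52 [0,0,0,0,0,0,0,1,1,1,0,2,0,0,0,1,2,0,0] .leaf) 151115727470589600923920 2 52 [0,0,0,0,0,0,0,1,1,1,0,2,0,0,1,0,1,1,0] .leaf)) 151115727470589600924160 2 44 [0,0,0,0,0,0,0,1,1,1,0,2,0,0,1,0,2,0,0] (.node (.node (.node .leaf 151115727470589600927745 2 52 [0,0,0,0,0,0,0,1,1,1,0,2,0,0,1,1,0,0,1] .leaf) 151115727470589600927760 2 44 [0,0,0,0,0,0,0,1,1,1,0,2,0,0,1,1,0,1,0] .leaf) 151115727470589600928000 2 36 [0,0,0,0,0,0,0,1,1,1,0,2,0,0,1,1,1,0,0] (.node (.node .leaf 151115727470589600989185 2 44 [0,0,0,0,0,0,0,1,1,1,0,2,0,0,2,0,0,0,1] .leaf) 151115727470589600989200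 2 36 [0,0,0,0,0,0,0,1,1,1,0,2,0,0,2,0,0,1,0] .leaf))))

/-- A part of the tree of dead states. -/
noncomputable def dT1 : DT := (.node (.node (.node (.node (.node .leaf 151115727470589600993280 2 20 [0,0,0,0,0,0,0,1,1,1,0,2,0,0,2,1,0,0,0] .leaf) 151115727470589601054720 2 12 [0,0,0,0,0,0,0,1,1,1,0,2,0,0,3,0,0,0,0] (.node .leaf 151115727470589601906689 2 44 [0,0,0,0,0,0,0,1,1,1,0,2,0,1,0,0,0,0,1] .leaf)) 151115727470589601906704 2 36 [0,0,0,0,0,0,0,1,1,1,0,2,0,1,0,0,0,1,0] (.node (.node .leaf 151115727470589601906944 2 28 [0,0,0,0,0,0,0,1,1,1,0,2,0,1,0,0,1,0,0] .leaf) 151115727470589601910784 2 20 [0,0,0,0,0,0,0,1,1,1,0,2,0,1,0,1,0,0,0] .leaf)) 151115727470589601972224 2 12 [0,0,0,0,0,0,0,1,1,1,0,2,0,1,1,0,0,0,0] (.node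 (.node (.node .leaf 151115727470589617635329 2 35 [0,0,0,0,0,0,0,1,1,1,0,2,1,0,0,0,0,0,1] .leaf) 151115727470589617635344 2 27 [0,0,0,0,0,0,0,1,1,1,0,2,1,0,0,0,0,1,0] (.node .leaf 151115727470589617635584 2 19 [0,0,0,0,0,0,0,1,1,1,0,2,1,0,0,0,1,0,0] .leaf)) 151115727470589617639424 2 11 [0,0,0,0,0,0,0,1,1,1,0,2,1,0,0,1,0,0,0] (.node (.node .leaf 151115727470589617700864 2 3 [0,0,0,0,0,0,0,1,1,1,0,2,1,0,1,0,0,0,0] .leaf) 151115727471620141355280 2 59 [0,0,0,0,0,0,0,1,2,0,0,1,1,0,0,1,1,1,0] .leaf))) 151115727471620141355520 2 51 [0,0,0,0,0,0,0,1,2,0,0,1,1,0,0,1,2,0,0] (.node (.node (.node (.node .leaf 151115727471620141416720 2 51 [0,0,0,0,0,0,0,1,2,0,0,1,1,0,1,0,1,1,0] .leaf) 151115727471620141416960 2 43 [0,0,0,0,0,0,0,1,2,0,0,1,1,0,1,0,2,0,0]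 (.node .leaf 151115727471620141420545 2 51 [0,0,0,0,0,0,0,1,2,0,0,1,1,0,1,1,0,0,1] .leaf)) 151115727471620141420560 2 43 [0,0,0,0,0,0,0,1,2,0,0,1,1,0,1,1,0,1,0] (.node (.node .leaf 151115727471620141420800 2 35 [0,0,0,0,0,0,0,1,2,0,0,1,1,0,1,1,1,0,0] .leaf) 151115727471620141481985 2 43 [0,0,0,0,0,0,0,1,2,0,0,1,1,0,2,0,0,0,1] .leaf)) 151115727471620141482000 2 35 [0,0,0,0,0,0,0,1,2,0,0,1,1,0,2,0,0,1,0] (.node (.node (.node .leaf 151115727471620141482240 2 27 [0,0,0,0,0,0,0,1,2,0,0,1,1,0,2,0,1,0,0] .leaf) 151115727471620141486080 2 19 [0,0,0,0,0,0,0,1,2,0,0,1,1,0,2,1,0,0,0] .leaf) 151115727471620141547520 2 11 [0,0,0,0,0,0,0,1,2,0,0,1,1,0,3,0,0,0,0] (.node (.node .leaf 151115727471620142399489 2 43 [0,0,0,0,0,0,0,1,2,0,0,1,1,1,0,0,0,0,1]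 .leaf) 151115727471620142399504 2 35 [0,0,0,0,0,0,0,1,2,0,0,1,1,1,0,0,0,1,0] .leaf))))

/-- A part of the tree of dead states. -/
noncomputable def dT2 : DT := .node dT0 151115727470589600989440 2 28 [0,0,0,0,0,0,0,1,1,1,0,2,0,0,2,0,1,0,0] dT1

/-- A part of the tree of dead states. -/
noncomputable def dT3 : DT := (.node (.node (.node (.node (.node .leaf 151115727471620142403584 2 19 [0,0,0,0,0,0,0,1,2,0,0,1,1,1,0,1,0,0,0] .leaf) 151115727471620142465024 2 11 [0,0,0,0,0,0,0,1,2,0,0,1,1,1,1,0,0,0,0] (.node .leaf 151115727471620393013520 2 56 [0,0,0,0,0,0,0,1,2,0,0,2,0,0,0,1,1,1,0] .leaf)) 151115727471620393013760 2 48 [0,0,0,0,0,0,0,1,2,0,0,2,0,0,0,1,2,0,0] (.node (.node .leaf 151115727471620393074960 2 48 [0,0,0,0,0,0,0,1,2,0,0,2,0,0,1,0,1,1,0]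 .leaf) 151115727471620393075200 2 40 [0,0,0,0,0,0,0,1,2,0,0,2,0,0,1,0,2,0,0] .leaf)) 151115727471620393078785 2 48 [0,0,0,0,0,0,0,1,2,0,0,2,0,0,1,1,0,0,1] (.node (.node (.node .leaf 151115727471620393078800 2 40 [0,0,0,0,0,0,0,1,2,0,0,2,0,0,1,1,0,1,0] .leaf) 151115727471620393079040 2 32 [0,0,0,0,0,0,0,1,2,0,0,2,0,0,1,1,1,0,0] (.node .leaf 151115727471620393140225 2 40 [0,0,0,0,0,0,0,1,2,0,0,2,0,0,2,0,0,0,1] .leaf)) 151115727471620393140240 2 32 [0,0,0,0,0,0,0,1,2,0,0,2,0,0,2,0,0,1,0] (.node (.node .leaf 151115727471620393140480 2 24 [0,0,0,0,0,0,0,1,2,0,0,2,0,0,2,0,1,0,0] .leaf) 151115727471620393144320 2 16 [0,0,0,0,0,0,0,1,2,0,0,2,0,0,2,1,0,0,0] .leaf))) 151115727471620393205760 2 8 [0,0,0,0,0,0,0,1,2,0,0,2,0,0,3,0,0,0,0]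 (.node (.node (.node (.node .leaf 151115727471620394057729 2 40 [0,0,0,0,0,0,0,1,2,0,0,2,0,1,0,0,0,0,1] .leaf) 151115727471620394057744 2 32 [0,0,0,0,0,0,0,1,2,0,0,2,0,1,0,0,0,1,0] (.node .leaf 151115727471620394057984 2 24 [0,0,0,0,0,0,0,1,2,0,0,2,0,1,0,0,1,0,0] .leaf)) 151115727471620394061824 2 16 [0,0,0,0,0,0,0,1,2,0,0,2,0,1,0,1,0,0,0] (.node (.node .leaf 151115727471620394123264 2 8 [0,0,0,0,0,0,0,1,2,0,0,2,0,1,1,0,0,0,0] .leaf) 151115727471620409786369 2 31 [0,0,0,0,0,0,0,1,2,0,0,2,1,0,0,0,0,0,1] .leaf)) 151115727471620409786384 2 23 [0,0,0,0,0,0,0,1,2,0,0,2,1,0,0,0,0,1,0] (.node (.node (.node .leaf 151115727471620409786624 2 15 [0,0,0,0,0,0,0,1,2,0,0,2,1,0,0,0,1,0,0] .leaf) 151115727471620409790464 2 7 [0,0,0,0,0,0,0,1,2,0,0,2,1,0,0,1,0,0,0]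 .leaf) 226673591479082455929104 3 63 [0,0,0,0,0,0,1,1,2,1,1,1,1,0,0,1,1,1,0] (.node (.node .leaf 226673591479082455929344 3 55 [0,0,0,0,0,0,1,1,2,1,1,1,1,0,0,1,2,0,0] .leaf) 226673591479082455990544 3 55 [0,0,0,0,0,0,1,1,2,1,1,1,1,0,1,0,1,1,0] .leaf))))

/-- A part of the tree of dead states. -/
noncomputable def dT4 : DT := (.node (.node (.node (.node (.node .leaf 226673591479082455994369 3 55 [0,0,0,0,0,0,1,1,2,1,1,1,1,0,1,1,0,0,1] .leaf) 226673591479082455994384 3 47 [0,0,0,0,0,0,1,1,2,1,1,1,1,0,1,1,0,1,0] (.node .leaf 226673591479082455994624 3 39 [0,0,0,0,0,0,1,1,2,1,1,1,1,0,1,1,1,0,0] .leaf)) 226673591479082456055809 3 47 [0,0,0,0,0,0,1,1,2,1,1,1,1,0,2,0,0,0,1] (.node (.node .leaf 226673591479082456055824 3 39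 [0,0,0,0,0,0,1,1,2,1,1,1,1,0,2,0,0,1,0] .leaf) 226673591479082456056064 3 31 [0,0,0,0,0,0,1,1,2,1,1,1,1,0,2,0,1,0,0] .leaf)) 226673591479082456059904 3 23 [0,0,0,0,0,0,1,1,2,1,1,1,1,0,2,1,0,0,0] (.node (.node (.node .leaf 226673591479082456121344 3 15 [0,0,0,0,0,0,1,1,2,1,1,1,1,0,3,0,0,0,0] .leaf) 226673591479082456973313 3 47 [0,0,0,0,0,0,1,1,2,1,1,1,1,1,0,0,0,0,1] .leaf) 226673591479082456973328 3 39 [0,0,0,0,0,0,1,1,2,1,1,1,1,1,0,0,0,1,0] (.node (.node .leaf 226673591479082456973568 3 31 [0,0,0,0,0,0,1,1,2,1,1,1,1,1,0,0,1,0,0] .leaf) 226673591479082456977408 3 23 [0,0,0,0,0,0,1,1,2,1,1,1,1,1,0,1,0,0,0] .leaf))) 226673591479082457038848 3 15 [0,0,0,0,0,0,1,1,2,1,1,1,1,1,1,0,0,0,0] (.node (.node (.node (.node .leaf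 226673591479082707587344 3 60 [0,0,0,0,0,0,1,1,2,1,1,2,0,0,0,1,1,1,0] .leaf) 226673591479082707587584 3 52 [0,0,0,0,0,0,1,1,2,1,1,2,0,0,0,1,2,0,0] (.node .leaf 226673591479082707648784 3 52 [0,0,0,0,0,0,1,1,2,1,1,2,0,0,1,0,1,1,0] .leaf)) 226673591479082707649024 3 44 [0,0,0,0,0,0,1,1,2,1,1,2,0,0,1,0,2,0,0] (.node (.node .leaf 226673591479082707652609 3 52 [0,0,0,0,0,0,1,1,2,1,1,2,0,0,1,1,0,0,1] .leaf) 226673591479082707652624 3 44 [0,0,0,0,0,0,1,1,2,1,1,2,0,0,1,1,0,1,0] .leaf)) 226673591479082707652864 3 36 [0,0,0,0,0,0,1,1,2,1,1,2,0,0,1,1,1,0,0] (.node (.node (.node .leaf 226673591479082707714049 3 44 [0,0,0,0,0,0,1,1,2,1,1,2,0,0,2,0,0,0,1] .leaf) 226673591479082707714064 3 36 [0,0,0,0,0,0,1,1,2,1,1,2,0,0,2,0,0,1,0]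 .leaf) 226673591479082707714304 3 28 [0,0,0,0,0,0,1,1,2,1,1,2,0,0,2,0,1,0,0] (.node (.node .leaf 226673591479082707718144 3 20 [0,0,0,0,0,0,1,1,2,1,1,2,0,0,2,1,0,0,0] .leaf) 226673591479082707779584 3 12 [0,0,0,0,0,0,1,1,2,1,1,2,0,0,3,0,0,0,0] .leaf))))

/-- A part of the tree of dead states. -/
noncomputable def dT5 : DT := .node dT3 226673591479082455990784 3 47 [0,0,0,0,0,0,1,1,2,1,1,1,1,0,1,0,2,0,0] dT4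

/-- A part of the tree of dead states. -/
noncomputable def dT6 : DT := .node dT2 151115727471620142399744 2 27 [0,0,0,0,0,0,0,1,2,0,0,1,1,1,0,0,1,0,0] dT5

/-- A part of the tree of dead states. -/
noncomputable def dT7 : DT := (.node (.node (.node (.node (.node .leaf 226673591479082708631568 3 36 [0,0,0,0,0,0,1,1,2,1,1,2,0,1,0,0,0,1,0] .leaf) 226673591479082708631808 3 28 [0,0,0,0,0,0,1,1,2,1,1,2,0,1,0,0,1,0,0] (.node .leaf 226673591479082708635648 3 20 [0,0,0,0,0,0,1,1,2,1,1,2,0,1,0,1,0,0,0] .leaf)) 226673591479082708697088 3 12 [0,0,0,0,0,0,1,1,2,1,1,2,0,1,1,0,0,0,0] (.node (.node .leaf 226673591479082724360193 3 35 [0,0,0,0,0,0,1,1,2,1,1,2,1,0,0,0,0,0,1] .leaf) 226673591479082724360208 3 27 [0,0,0,0,0,0,1,1,2,1,1,2,1,0,0,0,0,1,0]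 .leaf)) 226673591479082724360448 3 19 [0,0,0,0,0,0,1,1,2,1,1,2,1,0,0,0,1,0,0] (.node (.node (.node .leaf 226673591479082724364288 3 11 [0,0,0,0,0,0,1,1,2,1,1,2,1,0,0,1,0,0,0] .leaf) 226673591479082724425728 3 3 [0,0,0,0,0,0,1,1,2,1,1,2,1,0,1,0,0,0,0] (.node .leaf 226673595701207106588944 3 63 [0,0,0,0,0,1,0,1,2,1,1,1,1,0,0,1,1,1,0] .leaf)) 226673595701207106589184 3 55 [0,0,0,0,0,1,0,1,2,1,1,1,1,0,0,1,2,0,0] (.node (.node .leaf 226673595701207106650384 3 55 [0,0,0,0,0,1,0,1,2,1,1,1,1,0,1,0,1,1,0] .leaf) 226673595701207106650624 3 47 [0,0,0,0,0,1,0,1,2,1,1,1,1,0,1,0,2,0,0] .leaf))) 226673595701207106654209 3 55 [0,0,0,0,0,1,0,1,2,1,1,1,1,0,1,1,0,0,1] (.node (.node (.node (.node .leaf 226673595701207106654224 3 47 [0,0,0,0,0,1,0,1,2,1,1,1,1,0,1,1,0,1,0]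 .leaf) 226673595701207106654464 3 39 [0,0,0,0,0,1,0,1,2,1,1,1,1,0,1,1,1,0,0] (.node .leaf 226673595701207106715649 3 47 [0,0,0,0,0,1,0,1,2,1,1,1,1,0,2,0,0,0,1] .leaf)) 226673595701207106715664 3 39 [0,0,0,0,0,1,0,1,2,1,1,1,1,0,2,0,0,1,0] (.node (.node .leaf 226673595701207106715904 3 31 [0,0,0,0,0,1,0,1,2,1,1,1,1,0,2,0,1,0,0] .leaf) 226673595701207106719744 3 23 [0,0,0,0,0,1,0,1,2,1,1,1,1,0,2,1,0,0,0] .leaf)) 226673595701207106781184 3 15 [0,0,0,0,0,1,0,1,2,1,1,1,1,0,3,0,0,0,0] (.node (.node (.node .leaf 226673595701207107633153 3 47 [0,0,0,0,0,1,0,1,2,1,1,1,1,1,0,0,0,0,1] .leaf) 226673595701207107633168 3 39 [0,0,0,0,0,1,0,1,2,1,1,1,1,1,0,0,0,1,0] .leaf) 226673595701207107633408 3 31 [0,0,0,0,0,1,0,1,2,1,1,1,1,1,0,0,1,0,0]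 (.node (.node .leaf 226673595701207107637248 3 23 [0,0,0,0,0,1,0,1,2,1,1,1,1,1,0,1,0,0,0] .leaf) 226673595701207107698688 3 15 [0,0,0,0,0,1,0,1,2,1,1,1,1,1,1,0,0,0,0] .leaf))))

/-- A part of the tree of dead states. -/
noncomputable def dT8 : DT := (.node (.node (.node (.node (.node .leaf 226673595701207358247424 3 52 [0,0,0,0,0,1,0,1,2,1,1,2,0,0,0,1,2,0,0] .leaf) 226673595701207358308624 3 52 [0,0,0,0,0,1,0,1,2,1,1,2,0,0,1,0,1,1,0] (.node .leaf 226673595701207358308864 3 44 [0,0,0,0,0,1,0,1,2,1,1,2,0,0,1,0,2,0,0] .leaf)) 226673595701207358312449 3 52 [0,0,0,0,0,1,0,1,2,1,1,2,0,0,1,1,0,0,1] (.node (.node .leaf 226673595701207358312464 3 44 [0,0,0,0,0,1,0,1,2,1,1,2,0,0,1,1,0,1,0] .leaf) 226673595701207358312704 3 36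 [0,0,0,0,0,1,0,1,2,1,1,2,0,0,1,1,1,0,0] .leaf)) 226673595701207358373889 3 44 [0,0,0,0,0,1,0,1,2,1,1,2,0,0,2,0,0,0,1] (.node (.node (.node .leaf 226673595701207358373904 3 36 [0,0,0,0,0,1,0,1,2,1,1,2,0,0,2,0,0,1,0] .leaf) 226673595701207358374144 3 28 [0,0,0,0,0,1,0,1,2,1,1,2,0,0,2,0,1,0,0] .leaf) 226673595701207358377984 3 20 [0,0,0,0,0,1,0,1,2,1,1,2,0,0,2,1,0,0,0] (.node (.node .leaf 226673595701207358439424 3 12 [0,0,0,0,0,1,0,1,2,1,1,2,0,0,3,0,0,0,0] .leaf) 226673595701207359291393 3 44 [0,0,0,0,0,1,0,1,2,1,1,2,0,1,0,0,0,0,1] .leaf))) 226673595701207359291408 3 36 [0,0,0,0,0,1,0,1,2,1,1,2,0,1,0,0,0,1,0] (.node (.node (.node (.node .leaf 226673595701207359291648 3 28 [0,0,0,0,0,1,0,1,2,1,1,2,0,1,0,0,1,0,0] .leaf)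 226673595701207359295488 3 20 [0,0,0,0,0,1,0,1,2,1,1,2,0,1,0,1,0,0,0] (.node .leaf 226673595701207359356928 3 12 [0,0,0,0,0,1,0,1,2,1,1,2,0,1,1,0,0,0,0] .leaf)) 226673595701207375020033 3 35 [0,0,0,0,0,1,0,1,2,1,1,2,1,0,0,0,0,0,1] (.node (.node .leaf 226673595701207375020048 3 27 [0,0,0,0,0,1,0,1,2,1,1,2,1,0,0,0,0,1,0] .leaf) 226673595701207375020288 3 19 [0,0,0,0,0,1,0,1,2,1,1,2,1,0,0,0,1,0,0] .leaf)) 226673595965089897255184 3 59 [0,0,0,0,0,1,1,0,2,1,1,1,1,0,0,1,1,1,0] (.node (.node (.node .leaf 226673595965089897255424 3 51 [0,0,0,0,0,1,1,0,2,1,1,1,1,0,0,1,2,0,0] .leaf) 226673595965089897316624 3 51 [0,0,0,0,0,1,1,0,2,1,1,1,1,0,1,0,1,1,0] .leaf) 226673595965089897316864 3 43 [0,0,0,0,0,1,1,0,2,1,1,1,1,0,1,0,2,0,0]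 (.node (.node .leaf 226673595965089897320449 3 51 [0,0,0,0,0,1,1,0,2,1,1,1,1,0,1,1,0,0,1] .leaf) 226673595965089897320464 3 43 [0,0,0,0,0,1,1,0,2,1,1,1,1,0,1,1,0,1,0] .leaf))))

/-- A part of the tree of dead states. -/
noncomputable def dT9 : DT := .node dT7 226673595701207358247184 3 60 [0,0,0,0,0,1,0,1,2,1,1,2,0,0,0,1,1,1,0] dT8

/-- A part of the tree of dead states. -/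
noncomputable def dT10 : DT := (.node (.node (.node (.node (.node .leaf 226673595965089897381889 3 43 [0,0,0,0,0,1,1,0,2,1,1,1,1,0,2,0,0,0,1] .leaf) 226673595965089897381904 3 35 [0,0,0,0,0,1,1,0,2,1,1,1,1,0,2,0,0,1,0] (.node .leaf 226673595965089897382144 3 27 [0,0,0,0,0,1,1,0,2,1,1,1,1,0,2,0,1,0,0] .leaf)) 226673595965089897385984 3 19 [0,0,0,0,0,1,1,0,2,1,1,1,1,0,2,1,0,0,0] (.node (.node .leaf 226673595965089897447424 3 11 [0,0,0,0,0,1,1,0,2,1,1,1,1,0,3,0,0,0,0] .leaf) 226673595965089898299393 3 43 [0,0,0,0,0,1,1,0,2,1,1,1,1,1,0,0,0,0,1] .leaf)) 226673595965089898299408 3 35 [0,0,0,0,0,1,1,0,2,1,1,1,1,1,0,0,0,1,0] (.node (.node (.node .leaf 226673595965089898299648 3 27 [0,0,0,0,0,1,1,0,2,1,1,1,1,1,0,0,1,0,0] .leaf)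 226673595965089898303488 3 19 [0,0,0,0,0,1,1,0,2,1,1,1,1,1,0,1,0,0,0] (.node .leaf 226673595965089898364928 3 11 [0,0,0,0,0,1,1,0,2,1,1,1,1,1,1,0,0,0,0] .leaf)) 226673595965090148913424 3 56 [0,0,0,0,0,1,1,0,2,1,1,2,0,0,0,1,1,1,0] (.node (.node .leaf 226673595965090148913664 3 48 [0,0,0,0,0,1,1,0,2,1,1,2,0,0,0,1,2,0,0] .leaf) 226673595965090148974864 3 48 [0,0,0,0,0,1,1,0,2,1,1,2,0,0,1,0,1,1,0] .leaf))) 226673595965090148975104 3 40 [0,0,0,0,0,1,1,0,2,1,1,2,0,0,1,0,2,0,0] (.node (.node (.node (.node .leaf 226673595965090148978689 3 48 [0,0,0,0,0,1,1,0,2,1,1,2,0,0,1,1,0,0,1] .leaf) 226673595965090148978704 3 40 [0,0,0,0,0,1,1,0,2,1,1,2,0,0,1,1,0,1,0] (.node .leaf 226673595965090148978944 3 32 [0,0,0,0,0,1,1,0,2,1,1,2,0,0,1,1,1,0,0]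 .leaf)) 226673595965090149040129 3 40 [0,0,0,0,0,1,1,0,2,1,1,2,0,0,2,0,0,0,1] (.node (.node .leaf 226673595965090149040144 3 32 [0,0,0,0,0,1,1,0,2,1,1,2,0,0,2,0,0,1,0] .leaf) 226673595965090149040384 3 24 [0,0,0,0,0,1,1,0,2,1,1,2,0,0,2,0,1,0,0] .leaf)) 226673595965090149044224 3 16 [0,0,0,0,0,1,1,0,2,1,1,2,0,0,2,1,0,0,0] (.node (.node (.node .leaf 226673595965090149105664 3 8 [0,0,0,0,0,1,1,0,2,1,1,2,0,0,3,0,0,0,0] .leaf) 226673595965090149957633 3 40 [0,0,0,0,0,1,1,0,2,1,1,2,0,1,0,0,0,0,1] .leaf) 226673595965090149957648 3 32 [0,0,0,0,0,1,1,0,2,1,1,2,0,1,0,0,0,1,0] (.node (.node .leaf 226673595965090149957888 3 24 [0,0,0,0,0,1,1,0,2,1,1,2,0,1,0,0,1,0,0] .leaf) 226673595965090149961728 3 16 [0,0,0,0,0,1,1,0,2,1,1,2,0,1,0,1,0,0,0]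 .leaf))))

/-- A part of the tree of dead states. -/
noncomputable def dT11 : DT := (.node (.node (.node (.node (.node .leaf 226673595965090165686273 3 31 [0,0,0,0,0,1,1,0,2,1,1,2,1,0,0,0,0,0,1] .leaf) 226673595965090165686288 3 23 [0,0,0,0,0,1,1,0,2,1,1,2,1,0,0,0,0,1,0] (.node .leaf 226673595965090165686528 3 15 [0,0,0,0,0,1,1,0,2,1,1,2,1,0,0,0,1,0,0] .leaf)) 226673595981582571671824 3 55 [0,0,0,0,0,1,1,1,1,1,1,1,1,0,0,1,1,1,0] (.node (.node .leaf 226673595981582571672064 3 47 [0,0,0,0,0,1,1,1,1,1,1,1,1,0,0,1,2,0,0] .leaf) 226673595981582571733264 3 47 [0,0,0,0,0,1,1,1,1,1,1,1,1,0,1,0,1,1,0] .leaf)) 226673595981582571733504 3 39 [0,0,0,0,0,1,1,1,1,1,1,1,1,0,1,0,2,0,0] (.node (.node (.node .leaf 226673595981582571737089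 3 47 [0,0,0,0,0,1,1,1,1,1,1,1,1,0,1,1,0,0,1] .leaf) 226673595981582571737104 3 39 [0,0,0,0,0,1,1,1,1,1,1,1,1,0,1,1,0,1,0] .leaf) 226673595981582571737344 3 31 [0,0,0,0,0,1,1,1,1,1,1,1,1,0,1,1,1,0,0] (.node (.node .leaf 226673595981582571798529 3 39 [0,0,0,0,0,1,1,1,1,1,1,1,1,0,2,0,0,0,1] .leaf) 226673595981582571798544 3 31 [0,0,0,0,0,1,1,1,1,1,1,1,1,0,2,0,0,1,0] .leaf))) 226673595981582571798784 3 23 [0,0,0,0,0,1,1,1,1,1,1,1,1,0,2,0,1,0,0] (.node (.node (.node (.node .leaf 226673595981582571802624 3 15 [0,0,0,0,0,1,1,1,1,1,1,1,1,0,2,1,0,0,0] .leaf) 226673595981582571864064 3 7 [0,0,0,0,0,1,1,1,1,1,1,1,1,0,3,0,0,0,0] (.node .leaf 226673595981582572716033 3 39 [0,0,0,0,0,1,1,1,1,1,1,1,1,1,0,0,0,0,1] .leaf)) 226673595981582572716048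 3 31 [0,0,0,0,0,1,1,1,1,1,1,1,1,1,0,0,0,1,0] (.node (.node .leaf 226673595981582572716288 3 23 [0,0,0,0,0,1,1,1,1,1,1,1,1,1,0,0,1,0,0] .leaf) 226673595981582572720128 3 15 [0,0,0,0,0,1,1,1,1,1,1,1,1,1,0,1,0,0,0] .leaf)) 226673595981582572781568 3 7 [0,0,0,0,0,1,1,1,1,1,1,1,1,1,1,0,0,0,0] (.node (.node (.node .leaf 226673595981582823330064 3 52 [0,0,0,0,0,1,1,1,1,1,1,2,0,0,0,1,1,1,0] .leaf) 226673595981582823330304 3 44 [0,0,0,0,0,1,1,1,1,1,1,2,0,0,0,1,2,0,0] .leaf) 226673595981582823391504 3 44 [0,0,0,0,0,1,1,1,1,1,1,2,0,0,1,0,1,1,0] (.node (.node .leaf 226673595981582823391744 3 36 [0,0,0,0,0,1,1,1,1,1,1,2,0,0,1,0,2,0,0] .leaf) 226673595981582823395329 3 44 [0,0,0,0,0,1,1,1,1,1,1,2,0,0,1,1,0,0,1] .leaf))))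

/-- A part of the tree of dead states. -/
noncomputable def dT12 : DT := .node dT10 226673595965090150023168 3 8 [0,0,0,0,0,1,1,0,2,1,1,2,0,1,1,0,0,0,0] dT11

/-- A part of the tree of dead states. -/
noncomputable def dT13 : DT := .node dT9 226673595965089897320704 3 35 [0,0,0,0,0,1,1,0,2,1,1,1,1,0,1,1,1,0,0] dT12

/-- A part of the tree of dead states. -/
noncomputable def dT14 : DT := .node dT6 226673591479082708631553 3 44 [0,0,0,0,0,0,1,1,2,1,1,2,0,1,0,0,0,0,1] dT13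

/-- A part of the tree of dead states. -/
noncomputable def dT15 : DT := (.node (.node (.node (.node (.node .leaf 226673595981582823395584 3 28 [0,0,0,0,0,1,1,1,1,1,1,2,0,0,1,1,1,0,0] .leaf) 226673595981582823456769 3 36 [0,0,0,0,0,1,1,1,1,1,1,2,0,0,2,0,0,0,1] (.node .leaf 226673595981582823456784 3 28 [0,0,0,0,0,1,1,1,1,1,1,2,0,0,2,0,0,1,0] .leaf)) 226673595981582823457024 3 20 [0,0,0,0,0,1,1,1,1,1,1,2,0,0,2,0,1,0,0] (.node (.node .leaf 226673595981582823460864 3 12 [0,0,0,0,0,1,1,1,1,1,1,2,0,0,2,1,0,0,0] .leaf) 226673595981582823522304 3 4 [0,0,0,0,0,1,1,1,1,1,1,2,0,0,3,0,0,0,0] .leaf)) 226673595981582824374273 3 36 [0,0,0,0,0,1,1,1,1,1,1,2,0,1,0,0,0,0,1] (.node (.node (.node .leaf 226673595981582824374288 3 28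 [0,0,0,0,0,1,1,1,1,1,1,2,0,1,0,0,0,1,0] .leaf) 226673595981582824374528 3 20 [0,0,0,0,0,1,1,1,1,1,1,2,0,1,0,0,1,0,0] (.node .leaf 226673595981582824378368 3 12 [0,0,0,0,0,1,1,1,1,1,1,2,0,1,0,1,0,0,0] .leaf)) 226673595981582824439808 3 4 [0,0,0,0,0,1,1,1,1,1,1,2,0,1,1,0,0,0,0] (.node (.node .leaf 226673595981582840102913 3 27 [0,0,0,0,0,1,1,1,1,1,1,2,1,0,0,0,0,0,1] .leaf) 226673595981582840102928 3 19 [0,0,0,0,0,1,1,1,1,1,1,2,1,0,0,0,0,1,0] .leaf))) 226673595982613363822864 3 51 [0,0,0,0,0,1,1,1,2,0,1,1,1,0,0,1,1,1,0] (.node (.node (.node (.node .leaf 226673595982613363823104 3 43 [0,0,0,0,0,1,1,1,2,0,1,1,1,0,0,1,2,0,0] .leaf) 226673595982613363884304 3 43 [0,0,0,0,0,1,1,1,2,0,1,1,1,0,1,0,1,1,0] (.node .leaf 226673595982613363884544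 3 35 [0,0,0,0,0,1,1,1,2,0,1,1,1,0,1,0,2,0,0] .leaf)) 226673595982613363888129 3 43 [0,0,0,0,0,1,1,1,2,0,1,1,1,0,1,1,0,0,1] (.node (.node .leaf 226673595982613363888144 3 35 [0,0,0,0,0,1,1,1,2,0,1,1,1,0,1,1,0,1,0] .leaf) 226673595982613363888384 3 27 [0,0,0,0,0,1,1,1,2,0,1,1,1,0,1,1,1,0,0] .leaf)) 226673595982613363949569 3 35 [0,0,0,0,0,1,1,1,2,0,1,1,1,0,2,0,0,0,1] (.node (.node (.node .leaf 226673595982613363949584 3 27 [0,0,0,0,0,1,1,1,2,0,1,1,1,0,2,0,0,1,0] .leaf) 226673595982613363949824 3 19 [0,0,0,0,0,1,1,1,2,0,1,1,1,0,2,0,1,0,0] .leaf) 226673595982613363953664 3 11 [0,0,0,0,0,1,1,1,2,0,1,1,1,0,2,1,0,0,0] (.node (.node .leaf 226673595982613364015104 3 3 [0,0,0,0,0,1,1,1,2,0,1,1,1,0,3,0,0,0,0] .leaf) 226673595982613364867073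 3 35 [0,0,0,0,0,1,1,1,2,0,1,1,1,1,0,0,0,0,1] .leaf))))

/-- A part of the tree of dead states. -/
noncomputable def dT16 : DT := (.node (.node (.node (.node (.node .leaf 226673595982613364867328 3 19 [0,0,0,0,0,1,1,1,2,0,1,1,1,1,0,0,1,0,0] .leaf) 226673595982613364871168 3 11 [0,0,0,0,0,1,1,1,2,0,1,1,1,1,0,1,0,0,0] (.node .leaf 226673595982613364932608 3 3 [0,0,0,0,0,1,1,1,2,0,1,1,1,1,1,0,0,0,0] .leaf)) 226673595982613615481104 3 48 [0,0,0,0,0,1,1,1,2,0,1,2,0,0,0,1,1,1,0] (.node (.node .leaf 226673595982613615481344 3 40 [0,0,0,0,0,1,1,1,2,0,1,2,0,0,0,1,2,0,0] .leaf) 226673595982613615542544 3 40 [0,0,0,0,0,1,1,1,2,0,1,2,0,0,1,0,1,1,0] .leaf)) 226673595982613615542784 3 32 [0,0,0,0,0,1,1,1,2,0,1,2,0,0,1,0,2,0,0] (.node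 (.node (.node .leaf 226673595982613615546369 3 40 [0,0,0,0,0,1,1,1,2,0,1,2,0,0,1,1,0,0,1] .leaf) 226673595982613615546384 3 32 [0,0,0,0,0,1,1,1,2,0,1,2,0,0,1,1,0,1,0] (.node .leaf 226673595982613615546624 3 24 [0,0,0,0,0,1,1,1,2,0,1,2,0,0,1,1,1,0,0] .leaf)) 226673595982613615607809 3 32 [0,0,0,0,0,1,1,1,2,0,1,2,0,0,2,0,0,0,1] (.node (.node .leaf 226673595982613615607824 3 24 [0,0,0,0,0,1,1,1,2,0,1,2,0,0,2,0,0,1,0] .leaf) 226673595982613615608064 3 16 [0,0,0,0,0,1,1,1,2,0,1,2,0,0,2,0,1,0,0] .leaf))) 226673595982613615611904 3 8 [0,0,0,0,0,1,1,1,2,0,1,2,0,0,2,1,0,0,0] (.node (.node (.node (.node .leaf 226673595982613615673344 3 0 [0,0,0,0,0,1,1,1,2,0,1,2,0,0,3,0,0,0,0] .leaf) 226673595982613616525313 3 32 [0,0,0,0,0,1,1,1,2,0,1,2,0,1,0,0,0,0,1]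 (.node .leaf 226673595982613616525328 3 24 [0,0,0,0,0,1,1,1,2,0,1,2,0,1,0,0,0,1,0] .leaf)) 226673595982613616525568 3 16 [0,0,0,0,0,1,1,1,2,0,1,2,0,1,0,0,1,0,0] (.node (.node .leaf 226673595982613616529408 3 8 [0,0,0,0,0,1,1,1,2,0,1,2,0,1,0,1,0,0,0] .leaf) 226673595982613616590848 3 0 [0,0,0,0,0,1,1,1,2,0,1,2,0,1,1,0,0,0,0] .leaf)) 226673595982613632253953 3 23 [0,0,0,0,0,1,1,1,2,0,1,2,1,0,0,0,0,0,1] (.node (.node (.node .leaf 226673595982677788332304 3 47 [0,0,0,0,0,1,1,1,2,1,0,1,1,0,0,1,1,1,0] .leaf) 226673595982677788332544 3 39 [0,0,0,0,0,1,1,1,2,1,0,1,1,0,0,1,2,0,0] .leaf) 226673595982677788393744 3 39 [0,0,0,0,0,1,1,1,2,1,0,1,1,0,1,0,1,1,0] (.node (.node .leaf 226673595982677788393984 3 31 [0,0,0,0,0,1,1,1,2,1,0,1,1,0,1,0,2,0,0]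 .leaf) 226673595982677788397569 3 39 [0,0,0,0,0,1,1,1,2,1,0,1,1,0,1,1,0,0,1] .leaf))))

/-- A part of the tree of dead states. -/
noncomputable def dT17 : DT := .node dT15 226673595982613364867088 3 27 [0,0,0,0,0,1,1,1,2,0,1,1,1,1,0,0,0,1,0] dT16

/-- A part of the tree of dead states. -/
noncomputable def dT18 : DT := (.node (.node (.node (.node (.node .leaf 226673595982677788397824 3 23 [0,0,0,0,0,1,1,1,2,1,0,1,1,0,1,1,1,0,0] .leaf) 226673595982677788459009 3 31 [0,0,0,0,0,1,1,1,2,1,0,1,1,0,2,0,0,0,1] (.node .leaf 226673595982677788459024 3 23 [0,0,0,0,0,1,1,1,2,1,0,1,1,0,2,0,0,1,0] .leaf)) 226673595982677788459264 3 15 [0,0,0,0,0,1,1,1,2,1,0,1,1,0,2,0,1,0,0] (.node (.node .leaf 226673595982677788463104 3 7 [0,0,0,0,0,1,1,1,2,1,0,1,1,0,2,1,0,0,0]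 .leaf) 226673595982677789376513 3 31 [0,0,0,0,0,1,1,1,2,1,0,1,1,1,0,0,0,0,1] .leaf)) 226673595982677789376528 3 23 [0,0,0,0,0,1,1,1,2,1,0,1,1,1,0,0,0,1,0] (.node (.node (.node .leaf 226673595982677789376768 3 15 [0,0,0,0,0,1,1,1,2,1,0,1,1,1,0,0,1,0,0] .leaf) 226673595982677789380608 3 7 [0,0,0,0,0,1,1,1,2,1,0,1,1,1,0,1,0,0,0] (.node .leaf 226673595982678039990544 3 44 [0,0,0,0,0,1,1,1,2,1,0,2,0,0,0,1,1,1,0] .leaf)) 226673595982678039990784 3 36 [0,0,0,0,0,1,1,1,2,1,0,2,0,0,0,1,2,0,0] (.node (.node .leaf 226673595982678040051984 3 36 [0,0,0,0,0,1,1,1,2,1,0,2,0,0,1,0,1,1,0] .leaf) 226673595982678040052224 3 28 [0,0,0,0,0,1,1,1,2,1,0,2,0,0,1,0,2,0,0] .leaf))) 226673595982678040055809 3 36 [0,0,0,0,0,1,1,1,2,1,0,2,0,0,1,1,0,0,1]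 (.node (.node (.node (.node .leaf 226673595982678040055824 3 28 [0,0,0,0,0,1,1,1,2,1,0,2,0,0,1,1,0,1,0] .leaf) 226673595982678040056064 3 20 [0,0,0,0,0,1,1,1,2,1,0,2,0,0,1,1,1,0,0] (.node .leaf 226673595982678040117249 3 28 [0,0,0,0,0,1,1,1,2,1,0,2,0,0,2,0,0,0,1] .leaf)) 226673595982678040117264 3 20 [0,0,0,0,0,1,1,1,2,1,0,2,0,0,2,0,0,1,0] (.node (.node .leaf 226673595982678040117504 3 12 [0,0,0,0,0,1,1,1,2,1,0,2,0,0,2,0,1,0,0] .leaf) 226673595982678040121344 3 4 [0,0,0,0,0,1,1,1,2,1,0,2,0,0,2,1,0,0,0] .leaf)) 226673595982678041034753 3 28 [0,0,0,0,0,1,1,1,2,1,0,2,0,1,0,0,0,0,1] (.node (.node (.node .leaf 226673595982678041034768 3 20 [0,0,0,0,0,1,1,1,2,1,0,2,0,1,0,0,0,1,0] .leaf) 226673595982678041035008 3 12 [0,0,0,0,0,1,1,1,2,1,0,2,0,1,0,0,1,0,0]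 .leaf) 226673595982678041038848 3 4 [0,0,0,0,0,1,1,1,2,1,0,2,0,1,0,1,0,0,0] (.node (.node .leaf 302231459708596676268304 4 51 [0,0,0,0,0,1,1,1,2,1,1,2,1,1,1,1,1,1,0] .leaf) 302231459708596676268544 4 43 [0,0,0,0,0,1,1,1,2,1,1,2,1,1,1,1,2,0,0] .leaf))))

/-- A part of the tree of dead states. -/
noncomputable def dT19 : DT := (.node (.node (.node (.node (.node .leaf 302231459708596676329984 4 35 [0,0,0,0,0,1,1,1,2,1,1,2,1,1,2,0,2,0,0] .leaf) 302231459708596676333569 4 43 [0,0,0,0,0,1,1,1,2,1,1,2,1,1,2,1,0,0,1] (.node .leaf 302231459708596676333584 4 35 [0,0,0,0,0,1,1,1,2,1,1,2,1,1,2,1,0,1,0] .leaf)) 302231459708596676333824 4 27 [0,0,0,0,0,1,1,1,2,1,1,2,1,1,2,1,1,0,0] (.node (.node .leaf 302231459708596676395009 4 35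 [0,0,0,0,0,1,1,1,2,1,1,2,1,1,3,0,0,0,1] .leaf) 302231459708596676395024 4 27 [0,0,0,0,0,1,1,1,2,1,1,2,1,1,3,0,0,1,0] .leaf)) 302231459708596676395264 4 19 [0,0,0,0,0,1,1,1,2,1,1,2,1,1,3,0,1,0,0] (.node (.node (.node .leaf 302231459708596676399104 4 11 [0,0,0,0,0,1,1,1,2,1,1,2,1,1,3,1,0,0,0] .leaf) 302231459708596676460544 4 3 [0,0,0,0,0,1,1,1,2,1,1,2,1,1,4,0,0,0,0] .leaf) 302231527262591086760208 4 69 [0,0,0,0,1,0,1,1,2,1,1,2,1,1,0,1,1,1,0] (.node (.node .leaf 302231527262591086760448 4 61 [0,0,0,0,1,0,1,1,2,1,1,2,1,1,0,1,2,0,0] .leaf) 302231527262591086821648 4 61 [0,0,0,0,1,0,1,1,2,1,1,2,1,1,1,0,1,1,0] .leaf))) 302231527262591086821888 4 53 [0,0,0,0,1,0,1,1,2,1,1,2,1,1,1,0,2,0,0] (.node (.node (.node (.node .leaf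 302231527262591086825473 4 61 [0,0,0,0,1,0,1,1,2,1,1,2,1,1,1,1,0,0,1] .leaf) 302231527262591086825488 4 53 [0,0,0,0,1,0,1,1,2,1,1,2,1,1,1,1,0,1,0] (.node .leaf 302231527262591086825728 4 45 [0,0,0,0,1,0,1,1,2,1,1,2,1,1,1,1,1,0,0] .leaf)) 302231527262591086886913 4 53 [0,0,0,0,1,0,1,1,2,1,1,2,1,1,2,0,0,0,1] (.node (.node .leaf 302231527262591086886928 4 45 [0,0,0,0,1,0,1,1,2,1,1,2,1,1,2,0,0,1,0] .leaf) 302231527262591086887168 4 37 [0,0,0,0,1,0,1,1,2,1,1,2,1,1,2,0,1,0,0] .leaf)) 302231527262591086891008 4 29 [0,0,0,0,1,0,1,1,2,1,1,2,1,1,2,1,0,0,0] (.node (.node (.node .leaf 302231527262591086952448 4 21 [0,0,0,0,1,0,1,1,2,1,1,2,1,1,3,0,0,0,0] .leaf) 302231531484715737420048 4 69 [0,0,0,0,1,1,0,1,2,1,1,2,1,1,0,1,1,1,0]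 .leaf) 302231531484715737420288 4 61 [0,0,0,0,1,1,0,1,2,1,1,2,1,1,0,1,2,0,0] (.node (.node .leaf 302231531484715737481488 4 61 [0,0,0,0,1,1,0,1,2,1,1,2,1,1,1,0,1,1,0] .leaf) 302231531484715737481728 4 53 [0,0,0,0,1,1,0,1,2,1,1,2,1,1,1,0,2,0,0] .leaf))))

/-- A part of the tree of dead states. -/
noncomputable def dT20 : DT := .node dT18 302231459708596676329744 4 43 [0,0,0,0,0,1,1,1,2,1,1,2,1,1,2,0,1,1,0] dT19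

/-- A part of the tree of dead states. -/
noncomputable def dT21 : DT := .node dT17 226673595982677788397584 3 31 [0,0,0,0,0,1,1,1,2,1,0,1,1,0,1,1,0,1,0] dT20

/-- A part of the tree of dead states. -/
noncomputable def dT22 : DT := (.node (.node (.node (.node (.node .leaf 302231531484715737485328 4 53 [0,0,0,0,1,1,0,1,2,1,1,2,1,1,1,1,0,1,0] .leaf) 302231531484715737485568 4 45 [0,0,0,0,1,1,0,1,2,1,1,2,1,1,1,1,1,0,0] (.node .leaf 302231531484715737546753 4 53 [0,0,0,0,1,1,0,1,2,1,1,2,1,1,2,0,0,0,1] .leaf)) 302231531484715737546768 4 45 [0,0,0,0,1,1,0,1,2,1,1,2,1,1,2,0,0,1,0] (.node (.node .leaf 302231531484715737547008 4 37 [0,0,0,0,1,1,0,1,2,1,1,2,1,1,2,0,1,0,0] .leaf) 302231531484715737550848 4 29 [0,0,0,0,1,1,0,1,2,1,1,2,1,1,2,1,0,0,0]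 .leaf)) 302231531484715737612288 4 21 [0,0,0,0,1,1,0,1,2,1,1,2,1,1,3,0,0,0,0] (.node (.node (.node .leaf 302231531748598528086288 4 65 [0,0,0,0,1,1,1,0,2,1,1,2,1,1,0,1,1,1,0] .leaf) 302231531748598528086528 4 57 [0,0,0,0,1,1,1,0,2,1,1,2,1,1,0,1,2,0,0] (.node .leaf 302231531748598528147728 4 57 [0,0,0,0,1,1,1,0,2,1,1,2,1,1,1,0,1,1,0] .leaf)) 302231531748598528147968 4 49 [0,0,0,0,1,1,1,0,2,1,1,2,1,1,1,0,2,0,0] (.node (.node .leaf 302231531748598528151553 4 57 [0,0,0,0,1,1,1,0,2,1,1,2,1,1,1,1,0,0,1] .leaf) 302231531748598528151568 4 49 [0,0,0,0,1,1,1,0,2,1,1,2,1,1,1,1,0,1,0] .leaf))) 302231531748598528151808 4 41 [0,0,0,0,1,1,1,0,2,1,1,2,1,1,1,1,1,0,0] (.node (.node (.node (.node .leaf 302231531748598528212993 4 49 [0,0,0,0,1,1,1,0,2,1,1,2,1,1,2,0,0,0,1]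 .leaf) 302231531748598528213008 4 41 [0,0,0,0,1,1,1,0,2,1,1,2,1,1,2,0,0,1,0] (.node .leaf 302231531748598528213248 4 33 [0,0,0,0,1,1,1,0,2,1,1,2,1,1,2,0,1,0,0] .leaf)) 302231531748598528217088 4 25 [0,0,0,0,1,1,1,0,2,1,1,2,1,1,2,1,0,0,0] (.node (.node .leaf 302231531748598528278528 4 17 [0,0,0,0,1,1,1,0,2,1,1,2,1,1,3,0,0,0,0] .leaf) 302231531765091202502928 4 61 [0,0,0,0,1,1,1,1,1,1,1,2,1,1,0,1,1,1,0] .leaf)) 302231531765091202503168 4 53 [0,0,0,0,1,1,1,1,1,1,1,2,1,1,0,1,2,0,0] (.node (.node (.node .leaf 302231531765091202564368 4 53 [0,0,0,0,1,1,1,1,1,1,1,2,1,1,1,0,1,1,0] .leaf) 302231531765091202564608 4 45 [0,0,0,0,1,1,1,1,1,1,1,2,1,1,1,0,2,0,0] .leaf) 302231531765091202568193 4 53 [0,0,0,0,1,1,1,1,1,1,1,2,1,1,1,1,0,0,1]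 (.node (.node .leaf 302231531765091202568208 4 45 [0,0,0,0,1,1,1,1,1,1,1,2,1,1,1,1,0,1,0] .leaf) 302231531765091202568448 4 37 [0,0,0,0,1,1,1,1,1,1,1,2,1,1,1,1,1,0,0] .leaf))))

/-- A part of the tree of dead states. -/
noncomputable def dT23 : DT := (.node (.node (.node (.node (.node .leaf 302231531765091202629648 4 37 [0,0,0,0,1,1,1,1,1,1,1,2,1,1,2,0,0,1,0] .leaf) 302231531765091202629888 4 29 [0,0,0,0,1,1,1,1,1,1,1,2,1,1,2,0,1,0,0] (.node .leaf 302231531765091202633728 4 21 [0,0,0,0,1,1,1,1,1,1,1,2,1,1,2,1,0,0,0] .leaf)) 302231531765091202695168 4 13 [0,0,0,0,1,1,1,1,1,1,1,2,1,1,3,0,0,0,0] (.node (.node .leaf 302231531766121994653968 4 57 [0,0,0,0,1,1,1,1,2,0,1,2,1,1,0,1,1,1,0] .leaf) 302231531766121994654208 4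 49 [0,0,0,0,1,1,1,1,2,0,1,2,1,1,0,1,2,0,0] .leaf)) 302231531766121994715408 4 49 [0,0,0,0,1,1,1,1,2,0,1,2,1,1,1,0,1,1,0] (.node (.node (.node .leaf 302231531766121994715648 4 41 [0,0,0,0,1,1,1,1,2,0,1,2,1,1,1,0,2,0,0] .leaf) 302231531766121994719233 4 49 [0,0,0,0,1,1,1,1,2,0,1,2,1,1,1,1,0,0,1] .leaf) 302231531766121994719248 4 41 [0,0,0,0,1,1,1,1,2,0,1,2,1,1,1,1,0,1,0] (.node (.node .leaf 302231531766121994719488 4 33 [0,0,0,0,1,1,1,1,2,0,1,2,1,1,1,1,1,0,0] .leaf) 302231531766121994780673 4 41 [0,0,0,0,1,1,1,1,2,0,1,2,1,1,2,0,0,0,1] .leaf))) 302231531766121994780688 4 33 [0,0,0,0,1,1,1,1,2,0,1,2,1,1,2,0,0,1,0] (.node (.node (.node (.node .leaf 302231531766121994780928 4 25 [0,0,0,0,1,1,1,1,2,0,1,2,1,1,2,0,1,0,0] .leaf)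 302231531766121994784768 4 17 [0,0,0,0,1,1,1,1,2,0,1,2,1,1,2,1,0,0,0] (.node .leaf 302231531766121994846208 4 9 [0,0,0,0,1,1,1,1,2,0,1,2,1,1,3,0,0,0,0] .leaf)) 302231531766186419163408 4 53 [0,0,0,0,1,1,1,1,2,1,0,2,1,1,0,1,1,1,0] (.node (.node .leaf 302231531766186419163648 4 45 [0,0,0,0,1,1,1,1,2,1,0,2,1,1,0,1,2,0,0] .leaf) 302231531766186419224848 4 45 [0,0,0,0,1,1,1,1,2,1,0,2,1,1,1,0,1,1,0] .leaf)) 302231531766186419225088 4 37 [0,0,0,0,1,1,1,1,2,1,0,2,1,1,1,0,2,0,0] (.node (.node (.node .leaf 302231531766186419228673 4 45 [0,0,0,0,1,1,1,1,2,1,0,2,1,1,1,1,0,0,1] .leaf) 302231531766186419228688 4 37 [0,0,0,0,1,1,1,1,2,1,0,2,1,1,1,1,0,1,0] .leaf) 302231531766186419228928 4 29 [0,0,0,0,1,1,1,1,2,1,0,2,1,1,1,1,1,0,0]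 (.node (.node .leaf 302231531766186419290113 4 37 [0,0,0,0,1,1,1,1,2,1,0,2,1,1,2,0,0,0,1] .leaf) 302231531766186419290128 4 29 [0,0,0,0,1,1,1,1,2,1,0,2,1,1,2,0,0,1,0] .leaf))))

/-- A part of the tree of dead states. -/
noncomputable def dT24 : DT := .node dT22 302231531765091202629633 4 45 [0,0,0,0,1,1,1,1,1,1,1,2,1,1,2,0,0,0,1] dT23

/-- A part of the tree of dead states. -/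
noncomputable def dT25 : DT := (.node (.node (.node (.node (.node .leaf 302231531766186419294208 4 13 [0,0,0,0,1,1,1,1,2,1,0,2,1,1,2,1,0,0,0] .leaf) 302231531766186419355648 4 5 [0,0,0,0,1,1,1,1,2,1,0,2,1,1,3,0,0,0,0] (.node .leaf 302231531766190445695248 4 45 [0,0,0,0,1,1,1,1,2,1,1,1,1,1,0,1,1,1,0] .leaf)) 302231531766190445695488 4 37 [0,0,0,0,1,1,1,1,2,1,1,1,1,1,0,1,2,0,0] (.node (.node .leaf 302231531766190445756688 4 37 [0,0,0,0,1,1,1,1,2,1,1,1,1,1,1,0,1,1,0] .leaf) 302231531766190445756928 4 29 [0,0,0,0,1,1,1,1,2,1,1,1,1,1,1,0,2,0,0] .leaf)) 302231531766190445760513 4 37 [0,0,0,0,1,1,1,1,2,1,1,1,1,1,1,1,0,0,1] (.node (.node (.node .leaf 302231531766190445760528 4 29 [0,0,0,0,1,1,1,1,2,1,1,1,1,1,1,1,0,1,0] .leaf)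 302231531766190445760768 4 21 [0,0,0,0,1,1,1,1,2,1,1,1,1,1,1,1,1,0,0] (.node .leaf 302231531766190445821953 4 29 [0,0,0,0,1,1,1,1,2,1,1,1,1,1,2,0,0,0,1] .leaf)) 302231531766190445821968 4 21 [0,0,0,0,1,1,1,1,2,1,1,1,1,1,2,0,0,1,0] (.node (.node .leaf 302231531766190445822208 4 13 [0,0,0,0,1,1,1,1,2,1,1,1,1,1,2,0,1,0,0] .leaf) 302231531766190445826048 4 5 [0,0,0,0,1,1,1,1,2,1,1,1,1,1,2,1,0,0,0] .leaf))) 302231531766190697353488 4 42 [0,0,0,0,1,1,1,1,2,1,1,2,0,1,0,1,1,1,0] (.node (.node (.node (.node .leaf 302231531766190697353728 4 34 [0,0,0,0,1,1,1,1,2,1,1,2,0,1,0,1,2,0,0] .leaf) 302231531766190697414928 4 34 [0,0,0,0,1,1,1,1,2,1,1,2,0,1,1,0,1,1,0] (.node .leaf 302231531766190697415168 4 26 [0,0,0,0,1,1,1,1,2,1,1,2,0,1,1,0,2,0,0]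 .leaf)) 302231531766190697418753 4 34 [0,0,0,0,1,1,1,1,2,1,1,2,0,1,1,1,0,0,1] (.node (.node .leaf 302231531766190697418768 4 26 [0,0,0,0,1,1,1,1,2,1,1,2,0,1,1,1,0,1,0] .leaf) 302231531766190697419008 4 18 [0,0,0,0,1,1,1,1,2,1,1,2,0,1,1,1,1,0,0] .leaf)) 302231531766190697480193 4 26 [0,0,0,0,1,1,1,1,2,1,1,2,0,1,2,0,0,0,1] (.node (.node (.node .leaf 302231531766190697480208 4 18 [0,0,0,0,1,1,1,1,2,1,1,2,0,1,2,0,0,1,0] .leaf) 302231531766190697480448 4 10 [0,0,0,0,1,1,1,1,2,1,1,2,0,1,2,0,1,0,0] .leaf) 302231531766190697484288 4 2 [0,0,0,0,1,1,1,1,2,1,1,2,0,1,2,1,0,0,0] (.node (.node .leaf 377790548413609644462352 5 75 [0,0,0,1,1,1,1,1,2,1,1,2,1,1,1,1,1,1,0] .leaf) 377790548413609644462592 5 67 [0,0,0,1,1,1,1,1,2,1,1,2,1,1,1,1,2,0,0]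 .leaf))))

/-- A part of the tree of dead states. -/
noncomputable def dT26 : DT := (.node (.node (.node (.node (.node .leaf 377790548413609644524032 5 59 [0,0,0,1,1,1,1,1,2,1,1,2,1,1,2,0,2,0,0] .leaf) 377790548413609644527617 5 67 [0,0,0,1,1,1,1,1,2,1,1,2,1,1,2,1,0,0,1] (.node .leaf 377790548413609644527632 5 59 [0,0,0,1,1,1,1,1,2,1,1,2,1,1,2,1,0,1,0] .leaf)) 377790548413609644527872 5 51 [0,0,0,1,1,1,1,1,2,1,1,2,1,1,2,1,1,0,0] (.node (.node .leaf 377790548413609644589057 5 59 [0,0,0,1,1,1,1,1,2,1,1,2,1,1,3,0,0,0,1] .leaf) 377790548413609644589072 5 51 [0,0,0,1,1,1,1,1,2,1,1,2,1,1,3,0,0,1,0] .leaf)) 377790548413609644589312 5 43 [0,0,0,1,1,1,1,1,2,1,1,2,1,1,3,0,1,0,0] (.node (.node (.node .leaf 377790548413609644593152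 5 35 [0,0,0,1,1,1,1,1,2,1,1,2,1,1,3,1,0,0,0] .leaf) 377790548413609644654592 5 27 [0,0,0,1,1,1,1,1,2,1,1,2,1,1,4,0,0,0,0] .leaf) 453366858883597677498896 6 75 [0,0,1,1,1,1,1,1,2,1,1,2,1,1,2,1,2,1,0] (.node (.node .leaf 453366858883597677560336 6 67 [0,0,1,1,1,1,1,1,2,1,1,2,1,1,3,0,2,1,0] .leaf) 453366858883597677563921 6 75 [0,0,1,1,1,1,1,1,2,1,1,2,1,1,3,1,0,1,1] .leaf))) 453366858883597677564161 6 67 [0,0,1,1,1,1,1,1,2,1,1,2,1,1,3,1,1,0,1] (.node (.node (.node (.node .leaf 453366858883597677564176 6 59 [0,0,1,1,1,1,1,1,2,1,1,2,1,1,3,1,1,1,0] .leaf) 453366858883597677564416 6 51 [0,0,1,1,1,1,1,1,2,1,1,2,1,1,3,1,2,0,0] (.node .leaf 453366858883597677625361 6 67 [0,0,1,1,1,1,1,1,2,1,1,2,1,1,4,0,0,1,1] .leaf)) 453366858883597677625601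 6 59 [0,0,1,1,1,1,1,1,2,1,1,2,1,1,4,0,1,0,1] (.node (.node .leaf 453366858883597677625616 6 51 [0,0,1,1,1,1,1,1,2,1,1,2,1,1,4,0,1,1,0] .leaf) 453366858883597677625856 6 43 [0,0,1,1,1,1,1,1,2,1,1,2,1,1,4,0,2,0,0] .leaf)) 453366858883597677629440 6 67 [0,0,1,1,1,1,1,1,2,1,1,2,1,1,4,1,0,0,0] (.node (.node (.node .leaf 529219870514691353809425 7 75 [0,1,1,1,1,1,1,1,2,1,1,2,1,1,3,1,2,1,1] .leaf) 529219870514691353870865 7 67 [0,1,1,1,1,1,1,1,2,1,1,2,1,1,4,0,2,1,1] .leaf) 529219870514691353874704 7 75 [0,1,1,1,1,1,1,1,2,1,1,2,1,1,4,1,1,1,0] (.node (.node .leaf 529219870514691353874944 7 67 [0,1,1,1,1,1,1,1,2,1,1,2,1,1,4,1,2,0,0] .leaf) 609500100723475322507793 8 75 [1,1,1,1,1,1,1,1,2,1,1,2,1,1,4,1,2,1,1] .leaf))))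

/-- A part of the tree of dead states. -/
noncomputable def dT27 : DT := .node dT25 377790548413609644523792 5 67 [0,0,0,1,1,1,1,1,2,1,1,2,1,1,2,0,1,1,0] dT26

/-- A part of the tree of dead states. -/
noncomputable def dT28 : DT := .node dT24 302231531766186419290368 4 21 [0,0,0,0,1,1,1,1,2,1,0,2,1,1,2,0,1,0,0] dT27

/-- A part of the tree of dead states. -/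
noncomputable def dT29 : DT := .node dT21 302231531484715737485313 4 61 [0,0,0,0,1,1,0,1,2,1,1,2,1,1,1,1,0,0,1] dT28

/-- A part of the tree of dead states. -/
noncomputable def dT30 : DT := .node dT14 226673595981582823395344 3 36 [0,0,0,0,0,1,1,1,1,1,1,2,0,0,1,1,0,1,0] dT29


/-- The dead states of the search. -/
noncomputable def deadT : DT := dT30

/-- The primal solution. -/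
noncomputable def sol : List (List ℕ × ℕ) := [([0, 1, 0, 0, 0, 0, 0, 0, 0, 0, 0, 0, 0, 0, 1, 0, 0, 0, 1], 62), ([0, 0, 1, 0, 0, 0, 0, 0, 0, 0, 0, 0, 0, 0, 0, 2, 0, 0, 0], 62), ([0, 0, 0, 2, 0, 0, 0, 0, 0, 0, 0, 0, 0, 0, 0, 0, 0, 0, 0], 62), ([0, 0, 0, 0, 2, 0, 0, 0, 0, 0, 0, 0, 0, 0, 1, 0, 0, 0, 0], 31), ([0, 0, 0, 0, 0, 2, 0, 0, 0, 0, 0, 1, 0, 0, 0, 0, 0, 0, 0], 11), ([0, 0, 0, 0, 0, 0, 0, 2, 0, 0, 1, 0, 0, 0, 0, 0, 0, 0, 0], 62), ([1, 0, 0, 0, 0, 0, 0, 0, 0, 0, 0, 0, 0, 0, 0, 0, 0, 2, 0], 62), ([0, 0, 0, 0, 0, 0, 0, 0, 3, 0, 0, 0, 0, 0, 0, 0, 0, 0, 0], 62), ([0, 0, 0, 0, 0, 0, 1, 0, 0, 2, 0, 0, 0, 0, 0, 0, 0, 0, 0], 62), ([0, 0, 0, 0, 0, 0, 1, 0, 1, 0, 1, 0, 0, 0, 0, 0, 0, 0, 0], 62), ([0, 0, 0, 0, 0, 1, 0, 0, 0,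 0, 0, 0, 0, 2, 1, 0, 0, 0, 0], 62), ([0, 0, 0, 0, 1, 0, 0, 0, 0, 0, 0, 0, 2, 0, 0, 0, 0, 0, 0], 62), ([0, 0, 0, 0, 0, 1, 0, 0, 0, 0, 0, 0, 0, 0, 5, 0, 0, 0, 0], 40), ([0, 1, 0, 0, 0, 0, 0, 0, 0, 0, 0, 0, 0, 0, 0, 0, 2, 0, 0], 62), ([0, 0, 1, 0, 0, 0, 0, 0, 0, 0, 0, 0, 0, 0, 1, 0, 1, 0, 0], 62), ([0, 0, 0, 0, 0, 0, 0, 0, 0, 0, 0, 3, 0, 0, 1, 0, 0, 0, 0], 79), ([1, 0, 0, 0, 0, 0, 0, 0, 0, 0, 0, 0, 0, 0, 0, 0, 1, 0, 1], 62)]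

/-- A packing with one bin more. -/
def assign : List ℕ := [0, 1, 2, 3, 3, 4, 4, 5, 5, 6, 6, 5, 4, 6, 7, 7, 0, 1, 2, 7, 7, 2, 7, 8, 1]

theorem hpos : ∀ s ∈ ss, 0 < s := by decide +kernel
theorem hnd : ss.Nodup := by decide +kernel
theorem hmem : ∀ a ∈ items, a ∈ ss := by decide +kernel
theorem hss : ∀ s ∈ ss, s ∈ items := by decide +kernel
theorem hlenb : bs.length = ss.length := by decide +kernel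
theorem hleny : ys.length = ss.length := by decide +kernel
theorem hcount : ∀ t : Fin ss.length, items.count (ss.get t) = bs.getD t 0 := by decide +kernel
theorem hdual : maxY ss ys capL ≤ 372 := by decide +kernel
theorem hF : eqLL (filterB ys 372 75 (enumAll ss bs capL)) (flatG groups) = true := by decide +kernel
theorem hGk : groupsOK ys 372 0 groups = true := by decide +kernel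
theorem hC0 : checkC ss ys capL 372 75 groups deadT dT0 = true := by decide +kernel
theorem hC1 : checkC ss ys capL 372 75 groups deadT dT1 = true := by decide +kernel
theorem hC3 : checkC ss ys capL 372 75 groups deadT dT3 = true := by decide +kernel
theorem hC4 : checkC ss ys capL 372 75 groups deadT dT4 = true := by decide +kernel
theorem hC7 : checkC ss ys capL 372 75 groups deadT dT7 = true := by decide +kernel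
theorem hC8 : checkC ss ys capL 372 75 groups deadT dT8 = true := by decide +kernel
theorem hC10 : checkC ss ys capL 372 75 groups deadT dT10 = true := by decide +kernel
theorem hC11 : checkC ss ys capL 372 75 groups deadT dT11 = true := by decide +kernel
theorem hC15 : checkC ss ys capL 372 75 groups deadT dT15 = true := by decide +kernel
theorem hC16 : checkC ss ys capL 372 75 groups deadT dT16 = true := by decide +kernel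
theorem hC18 : checkC ss ys capL 372 75 groups deadT dT18 = true := by decide +kernel
theorem hC19 : checkC ss ys capL 372 75 groups deadT dT19 = true := by decide +kernel
theorem hC22 : checkC ss ys capL 372 75 groups deadT dT22 = true := by decide +kernel
theorem hC23 : checkC ss ys capL 372 75 groups deadT dT23 = true := by decide +kernel
theorem hC25 : checkC ss ys capL 372 75 groups deadT dT25 = true := by decide +kernel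
theorem hC26 : checkC ss ys capL 372 75 groups deadT dT26 = true := by decide +kernel
theorem hE2 : (Nat.ble 28 75 && Nat.ble (2 * 372) (dot ys [0,0,0,0,0,0,0,1,1,1,0,2,0,0,2,0,1,0,0] + 28) && stepC ss capL groups deadT 2 [0,0,0,0,0,0,0,1,1,1,0,2,0,0,2,0,1,0,0] 28) = true := by decide +kernel
theorem hE5 : (Nat.ble 47 75 && Nat.ble (3 * 372) (dot ys [0,0,0,0,0,0,1,1,2,1,1,1,1,0,1,0,2,0,0] + 47) && stepC ss capL groups deadT 3 [0,0,0,0,0,0,1,1,2,1,1,1,1,0,1,0,2,0,0] 47) = true := by decide +kernel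
theorem hE6 : (Nat.ble 27 75 && Nat.ble (2 * 372) (dot ys [0,0,0,0,0,0,0,1,2,0,0,1,1,1,0,0,1,0,0] + 27) && stepC ss capL groups deadT 2 [0,0,0,0,0,0,0,1,2,0,0,1,1,1,0,0,1,0,0] 27) = true := by decide +kernel
theorem hE9 : (Nat.ble 60 75 && Nat.ble (3 * 372) (dot ys [0,0,0,0,0,1,0,1,2,1,1,2,0,0,0,1,1,1,0] + 60) && stepC ss capL groups deadT 3 [0,0,0,0,0,1,0,1,2,1,1,2,0,0,0,1,1,1,0] 60) = true := by decide +kernel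
theorem hE12 : (Nat.ble 8 75 && Nat.ble (3 * 372) (dot ys [0,0,0,0,0,1,1,0,2,1,1,2,0,1,1,0,0,0,0] + 8) && stepC ss capL groups deadT 3 [0,0,0,0,0,1,1,0,2,1,1,2,0,1,1,0,0,0,0] 8) = true := by decide +kernel
theorem hE13 : (Nat.ble 35 75 && Nat.ble (3 * 372) (dot ys [0,0,0,0,0,1,1,0,2,1,1,1,1,0,1,1,1,0,0] + 35) && stepC ss capL groups deadT 3 [0,0,0,0,0,1,1,0,2,1,1,1,1,0,1,1,1,0,0] 35) = true := by decide +kernel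
theorem hE14 : (Nat.ble 44 75 && Nat.ble (3 * 372) (dot ys [0,0,0,0,0,0,1,1,2,1,1,2,0,1,0,0,0,0,1] + 44) && stepC ss capL groups deadT 3 [0,0,0,0,0,0,1,1,2,1,1,2,0,1,0,0,0,0,1] 44) = true := by decide +kernel
theorem hE17 : (Nat.ble 27 75 && Nat.ble (3 * 372) (dot ys [0,0,0,0,0,1,1,1,2,0,1,1,1,1,0,0,0,1,0] + 27) && stepC ss capL groups deadT 3 [0,0,0,0,0,1,1,1,2,0,1,1,1,1,0,0,0,1,0] 27) = true := by decide +kernel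
theorem hE20 : (Nat.ble 43 75 && Nat.ble (4 * 372) (dot ys [0,0,0,0,0,1,1,1,2,1,1,2,1,1,2,0,1,1,0] + 43) && stepC ss capL groups deadT 4 [0,0,0,0,0,1,1,1,2,1,1,2,1,1,2,0,1,1,0] 43) = true := by decide +kernel
theorem hE21 : (Nat.ble 31 75 && Nat.ble (3 * 372) (dot ys [0,0,0,0,0,1,1,1,2,1,0,1,1,0,1,1,0,1,0] + 31) && stepC ss capL groups deadT 3 [0,0,0,0,0,1,1,1,2,1,0,1,1,0,1,1,0,1,0] 31) = true := by decide +kernel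
theorem hE24 : (Nat.ble 45 75 && Nat.ble (4 * 372) (dot ys [0,0,0,0,1,1,1,1,1,1,1,2,1,1,2,0,0,0,1] + 45) && stepC ss capL groups deadT 4 [0,0,0,0,1,1,1,1,1,1,1,2,1,1,2,0,0,0,1] 45) = true := by decide +kernel
theorem hE27 : (Nat.ble 67 75 && Nat.ble (5 * 372) (dot ys [0,0,0,1,1,1,1,1,2,1,1,2,1,1,2,0,1,1,0] + 67) && stepC ss capL groups deadT 5 [0,0,0,1,1,1,1,1,2,1,1,2,1,1,2,0,1,1,0] 67) = true := by decide +kernel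
theorem hE28 : (Nat.ble 21 75 && Nat.ble (4 * 372) (dot ys [0,0,0,0,1,1,1,1,2,1,0,2,1,1,2,0,1,0,0] + 21) && stepC ss capL groups deadT 4 [0,0,0,0,1,1,1,1,2,1,0,2,1,1,2,0,1,0,0] 21) = true := by decide +kernel
theorem hE29 : (Nat.ble 61 75 && Nat.ble (4 * 372) (dot ys [0,0,0,0,1,1,0,1,2,1,1,2,1,1,1,1,0,0,1] + 61) && stepC ss capL groups deadT 4 [0,0,0,0,1,1,0,1,2,1,1,2,1,1,1,1,0,0,1] 61) = true := by decide +kernel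
theorem hE30 : (Nat.ble 36 75 && Nat.ble (3 * 372) (dot ys [0,0,0,0,0,1,1,1,1,1,1,2,0,0,1,1,0,1,0] + 36) && stepC ss capL groups deadT 3 [0,0,0,0,0,1,1,1,1,1,1,2,0,0,1,1,0,1,0] 36) = true := by decide +kernel
theorem hC : checkC ss ys capL 372 75 groups deadT deadT = true := (checkC_node_true hE30 (checkC_node_true hE14 (checkC_node_true hE6 (checkC_node_true hE2 hC0 hC1) (checkC_node_true hE5 hC3 hC4)) (checkC_node_true hE13 (checkC_node_true hE9 hC7 hC8) (checkC_node_true hE12 hC10 hC11))) (checkC_node_true hE29 (checkC_node_true hE21 (checkC_node_true hE17 hC15 hC16) (checkC_node_true hE20 hC18 hC19)) (checkC_node_true hE28 (checkC_node_true hE24 hC22 hC23) (checkC_node_true hE27 hC25 hC26))))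
theorem hR : deadC ss capL deadT 8 bs = true := by decide +kernel
theorem hfit : ∀ q ∈ sol, dot ss q.1 ≤ capL := by decide +kernel
theorem hcov : ∀ t : Fin ss.length, bs.getD t 0 * 124 ≤ (sol.map (fun q => q.1.getD t 0 * q.2)).sum := by decide +kernel
theorem hV : (sol.map (fun q => q.2)).sum = 967 := by decide +kernel
theorem hval : dot ys bs * 124 = 967 * 372 := by decide +kernel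
theorem hasg1 : ∀ i ∈ Finset.range items.length, assign.getD i 0 < 9 := by decide +kernel
theorem hasg2 : ∀ j ∈ Finset.range 9,
    ∑ i ∈ Finset.range items.length, (if assign.getD i 0 = j then items.getD i 0 else 0) ≤ capL := by decide +kernel

theorem validI : ∀ a ∈ inst capL items, 0 < a ∧ a ≤ 1 := by
  intro a ha
  simp only [inst, List.mem_map] at ha
  obtain ⟨n, hn, rfl⟩ := ha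
  have h1 : 0 < n := hpos n (hmem n hn)
  have h2 : n ≤ capL := by
    revert n
    decide +kernel
  have hL : (0 : ℚ) < (capL : ℚ) := by
    simp [capL]
  constructor
  · simp only [phi]
    positivity
  · simp only [phi]
    rw [div_le_one hL]
    exact_mod_cast h2

theorem opt_eq : OPT (inst capL items) = 9 := by
  apply le_antisymm
  · exact OPT_le (packs_of_assign (by decide) assign hasg1 hasg2)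
  · have hI : ∀ a ∈ inst capL items, a ≤ 1 := fun a ha => (validI a ha).2
    exact lt_OPT hI (not_packs_tree2 (ss := ss) (bs := bs) (ys := ys) (D := 372) (G := 75)
      (groups := groups) (t := deadT) (by decide) hpos hnd hmem hlenb hleny hcount hdual (hP_of_flat hF hGk) hC hR)

theorem lp_eq : LP (inst capL items) = ((967 : ℕ) : ℝ) / ((124 : ℕ) : ℝ) :=
  LP_eq (ss := ss) (bs := bs) (ys := ys) (by decide) hpos hnd hss hmem hleny hcount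
    (D := 372) (by decide) hdual (by decide) sol hfit hcov hV hval

end Vale.Agent.P302.GapA
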