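/-
P302: the explicit instance (certificate data and kernel checks).
-/
import Vale.Agent.P302.Cert2

namespace Vale.Agent.P302.GapC

set_option maxRecDepth 100000

/-- The capacity. -/
def capL : ℕ := 118980

/-- The distinct item sizes, in units of `1 / capL`. -/
def ss : List ℕ := [90390, 90380, 90367, 72990, 52080, 40380, 40320, 40230, 40140, 39780, 39660, 39600, 39300, 38700, 38460, 38340, 14310, 14306, 14299, 14295, 14288]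

/-- The multiplicities. -/
def bs : List ℕ := [1, 1, 1, 1, 1, 2, 1, 2, 2, 2, 1, 1, 2, 1, 1, 1, 4, 1, 2, 1, 1]

/-- The items, in units of `1 / capL`. -/
def items : List ℕ := [90390, 90380, 90367, 72990, 52080, 40380, 40380, 40320, 40230, 40230, 40140, 40140, 39780, 39780, 39660, 39600, 39300, 39300, 38700, 38460, 38340, 14310, 14310, 14310, 14310, 14306, 14299, 14299, 14295, 14288]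

/-- The dual solution, in units of `1 / D`. -/
def ys : List ℕ := [672, 640, 608, 480, 336, 288, 285, 282, 276, 264, 256, 252, 240, 216, 204, 198, 96, 80, 64, 48, 32]

/-- The patterns with small waste, with their waste, by first positive index. -/
noncomputable def groups : List (List (List ℕ × ℕ)) := [[([1, 0, 0, 0, 0, 0, 0, 0, 0, 0, 0, 0, 0, 0, 0, 0, 0, 0, 0, 0, 0], 96), ([1, 0, 0, 0, 0, 0, 0, 0, 0, 0, 0, 0, 0, 0, 0, 0, 0, 0, 0, 0, 1], 64), ([1, 0, 0, 0, 0, 0, 0, 0, 0, 0, 0, 0, 0, 0, 0, 0, 0, 0, 0, 1, 0], 48), ([1, 0, 0, 0, 0, 0, 0, 0, 0, 0, 0, 0, 0, 0, 0, 0, 0, 0, 0, 1, 1], 16), ([1, 0, 0, 0, 0, 0, 0, 0, 0, 0, 0, 0, 0, 0, 0, 0, 0, 0, 1, 0, 0], 32), ([1, 0, 0, 0, 0, 0, 0, 0, 0, 0,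 0, 0, 0, 0, 0, 0, 0, 0, 1, 0, 1], 0), ([1, 0, 0, 0, 0, 0, 0, 0, 0, 0, 0, 0, 0, 0, 0, 0, 0, 1, 0, 0, 0], 16), ([1, 0, 0, 0, 0, 0, 0, 0, 0, 0, 0, 0, 0, 0, 0, 0, 1, 0, 0, 0, 0], 0)], [([0, 1, 0, 0, 0, 0, 0, 0, 0, 0, 0, 0, 0, 0, 0, 0, 0, 0, 0, 0, 0], 128), ([0, 1, 0, 0, 0, 0, 0, 0, 0, 0, 0, 0, 0, 0, 0, 0, 0, 0, 0, 0, 1], 96), ([0, 1, 0, 0, 0, 0, 0, 0, 0, 0, 0, 0, 0, 0, 0, 0, 0, 0, 0, 1, 0], 80), ([0, 1, 0, 0, 0, 0, 0, 0, 0, 0, 0, 0, 0, 0, 0, 0, 0, 0, 0, 1, 1], 48), ([0, 1, 0, 0, 0, 0, 0, 0, 0, 0, 0, 0, 0, 0, 0, 0, 0, 0, 1, 0, 0], 64), ([0, 1, 0, 0, 0, 0, 0, 0, 0, 0, 0, 0, 0, 0, 0, 0, 0, 0, 1, 0, 1], 32), ([0, 1, 0, 0, 0, 0, 0, 0, 0, 0, 0, 0, 0, 0, 0, 0, 0, 0, 1, 1, 0], 16), ([0, 1, 0, 0,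 0, 0, 0, 0, 0, 0, 0, 0, 0, 0, 0, 0, 0, 0, 2, 0, 0], 0), ([0, 1, 0, 0, 0, 0, 0, 0, 0, 0, 0, 0, 0, 0, 0, 0, 0, 1, 0, 0, 0], 48), ([0, 1, 0, 0, 0, 0, 0, 0, 0, 0, 0, 0, 0, 0, 0, 0, 0, 1, 0, 0, 1], 16), ([0, 1, 0, 0, 0, 0, 0, 0, 0, 0, 0, 0, 0, 0, 0, 0, 1, 0, 0, 0, 0], 32), ([0, 1, 0, 0, 0, 0, 0, 0, 0, 0, 0, 0, 0, 0, 0, 0, 1, 0, 0, 0, 1], 0)], [([0, 0, 1, 0, 0, 0, 0, 0, 0, 0, 0, 0, 0, 0, 0, 0, 0, 0, 0, 0, 0], 160), ([0, 0, 1, 0, 0, 0, 0, 0, 0, 0, 0, 0, 0, 0, 0, 0, 0, 0, 0, 0, 1], 128), ([0, 0, 1, 0, 0, 0, 0, 0, 0, 0, 0, 0, 0, 0, 0, 0, 0, 0, 0, 1, 0], 112), ([0, 0, 1, 0, 0, 0, 0, 0, 0, 0, 0, 0, 0, 0, 0, 0, 0, 0, 0, 1, 1], 80), ([0, 0, 1, 0, 0, 0, 0, 0, 0, 0, 0, 0, 0, 0, 0, 0, 0, 0, 1, 0, 0],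 96), ([0, 0, 1, 0, 0, 0, 0, 0, 0, 0, 0, 0, 0, 0, 0, 0, 0, 0, 1, 0, 1], 64), ([0, 0, 1, 0, 0, 0, 0, 0, 0, 0, 0, 0, 0, 0, 0, 0, 0, 0, 1, 1, 0], 48), ([0, 0, 1, 0, 0, 0, 0, 0, 0, 0, 0, 0, 0, 0, 0, 0, 0, 0, 2, 0, 0], 32), ([0, 0, 1, 0, 0, 0, 0, 0, 0, 0, 0, 0, 0, 0, 0, 0, 0, 1, 0, 0, 0], 80), ([0, 0, 1, 0, 0, 0, 0, 0, 0, 0, 0, 0, 0, 0, 0, 0, 0, 1, 0, 0, 1], 48), ([0, 0, 1, 0, 0, 0, 0, 0, 0, 0, 0, 0, 0, 0, 0, 0, 0, 1, 0, 1, 0], 32), ([0, 0, 1, 0, 0, 0, 0, 0, 0, 0, 0, 0, 0, 0, 0, 0, 0, 1, 1, 0, 0], 16), ([0, 0, 1, 0, 0, 0, 0, 0, 0, 0, 0, 0, 0, 0, 0, 0, 1, 0, 0, 0, 0], 64), ([0, 0, 1, 0, 0, 0, 0, 0, 0, 0, 0, 0, 0, 0, 0, 0, 1, 0, 0, 0, 1], 32), ([0, 0, 1, 0, 0, 0, 0, 0, 0, 0, 0, 0, 0, 0, 0, 0,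 1, 0, 0, 1, 0], 16), ([0, 0, 1, 0, 0, 0, 0, 0, 0, 0, 0, 0, 0, 0, 0, 0, 1, 0, 1, 0, 0], 0)], [([0, 0, 0, 1, 0, 0, 0, 0, 0, 0, 0, 0, 0, 0, 0, 0, 0, 0, 1, 1, 1], 144), ([0, 0, 0, 1, 0, 0, 0, 0, 0, 0, 0, 0, 0, 0, 0, 0, 0, 0, 2, 0, 0], 160), ([0, 0, 0, 1, 0, 0, 0, 0, 0, 0, 0, 0, 0, 0, 0, 0, 0, 0, 2, 0, 1], 128), ([0, 0, 0, 1, 0, 0, 0, 0, 0, 0, 0, 0, 0, 0, 0, 0, 0, 0, 2, 1, 0], 112), ([0, 0, 0, 1, 0, 0, 0, 0, 0, 0, 0, 0, 0, 0, 0, 0, 0, 1, 0, 1, 0], 160), ([0, 0, 0, 1, 0, 0, 0, 0, 0, 0, 0, 0, 0, 0, 0, 0, 0, 1, 0, 1, 1], 128), ([0, 0, 0, 1, 0, 0, 0, 0, 0, 0, 0, 0, 0, 0, 0, 0, 0, 1, 1, 0, 0], 144), ([0, 0, 0, 1, 0, 0, 0, 0, 0, 0, 0, 0, 0, 0, 0, 0, 0, 1, 1, 0, 1], 112), ([0, 0, 0, 1, 0, 0, 0,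 0, 0, 0, 0, 0, 0, 0, 0, 0, 0, 1, 1, 1, 0], 96), ([0, 0, 0, 1, 0, 0, 0, 0, 0, 0, 0, 0, 0, 0, 0, 0, 0, 1, 2, 0, 0], 80), ([0, 0, 0, 1, 0, 0, 0, 0, 0, 0, 0, 0, 0, 0, 0, 0, 1, 0, 0, 0, 1], 160), ([0, 0, 0, 1, 0, 0, 0, 0, 0, 0, 0, 0, 0, 0, 0, 0, 1, 0, 0, 1, 0], 144), ([0, 0, 0, 1, 0, 0, 0, 0, 0, 0, 0, 0, 0, 0, 0, 0, 1, 0, 0, 1, 1], 112), ([0, 0, 0, 1, 0, 0, 0, 0, 0, 0, 0, 0, 0, 0, 0, 0, 1, 0, 1, 0, 0], 128), ([0, 0, 0, 1, 0, 0, 0, 0, 0, 0, 0, 0, 0, 0, 0, 0, 1, 0, 1, 0, 1], 96), ([0, 0, 0, 1, 0, 0, 0, 0, 0, 0, 0, 0, 0, 0, 0, 0, 1, 0, 1, 1, 0], 80), ([0, 0, 0, 1, 0, 0, 0, 0, 0, 0, 0, 0, 0, 0, 0, 0, 1, 0, 2, 0, 0], 64), ([0, 0, 0, 1, 0, 0, 0, 0, 0, 0, 0, 0, 0, 0, 0, 0, 1, 1, 0, 0, 0], 112),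 ([0, 0, 0, 1, 0, 0, 0, 0, 0, 0, 0, 0, 0, 0, 0, 0, 1, 1, 0, 0, 1], 80), ([0, 0, 0, 1, 0, 0, 0, 0, 0, 0, 0, 0, 0, 0, 0, 0, 1, 1, 0, 1, 0], 64), ([0, 0, 0, 1, 0, 0, 0, 0, 0, 0, 0, 0, 0, 0, 0, 0, 1, 1, 1, 0, 0], 48), ([0, 0, 0, 1, 0, 0, 0, 0, 0, 0, 0, 0, 0, 0, 0, 0, 2, 0, 0, 0, 0], 96), ([0, 0, 0, 1, 0, 0, 0, 0, 0, 0, 0, 0, 0, 0, 0, 0, 2, 0, 0, 0, 1], 64), ([0, 0, 0, 1, 0, 0, 0, 0, 0, 0, 0, 0, 0, 0, 0, 0, 2, 0, 0, 1, 0], 48), ([0, 0, 0, 1, 0, 0, 0, 0, 0, 0, 0, 0, 0, 0, 0, 0, 2, 0, 1, 0, 0], 32), ([0, 0, 0, 1, 0, 0, 0, 0, 0, 0, 0, 0, 0, 0, 0, 0, 2, 1, 0, 0, 0], 16), ([0, 0, 0, 1, 0, 0, 0, 0, 0, 0, 0, 0, 0, 0, 0, 0, 3, 0, 0, 0, 0], 0), ([0, 0, 0, 1, 0, 0, 0, 0, 0, 0, 0, 0, 0, 0, 0, 1, 0, 0,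 0, 0, 0], 90), ([0, 0, 0, 1, 0, 0, 0, 0, 0, 0, 0, 0, 0, 0, 1, 0, 0, 0, 0, 0, 0], 84), ([0, 0, 0, 1, 0, 0, 0, 0, 0, 0, 0, 0, 0, 1, 0, 0, 0, 0, 0, 0, 0], 72), ([0, 0, 0, 1, 0, 0, 0, 0, 0, 0, 0, 0, 1, 0, 0, 0, 0, 0, 0, 0, 0], 48), ([0, 0, 0, 1, 0, 0, 0, 0, 0, 0, 0, 1, 0, 0, 0, 0, 0, 0, 0, 0, 0], 36), ([0, 0, 0, 1, 0, 0, 0, 0, 0, 0, 1, 0, 0, 0, 0, 0, 0, 0, 0, 0, 0], 32), ([0, 0, 0, 1, 0, 0, 0, 0, 0, 1, 0, 0, 0, 0, 0, 0, 0, 0, 0, 0, 0], 24), ([0, 0, 0, 1, 0, 0, 0, 0, 1, 0, 0, 0, 0, 0, 0, 0, 0, 0, 0, 0, 0], 12), ([0, 0, 0, 1, 0, 0, 0, 1, 0, 0, 0, 0, 0, 0, 0, 0, 0, 0, 0, 0, 0], 6), ([0, 0, 0, 1, 0, 0, 1, 0, 0, 0, 0, 0, 0, 0, 0, 0, 0, 0, 0, 0, 0], 3), ([0, 0, 0, 1, 0, 1, 0, 0, 0, 0, 0, 0, 0,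 0, 0, 0, 0, 0, 0, 0, 0], 0)], [([0, 0, 0, 0, 1, 0, 0, 0, 0, 0, 0, 0, 0, 0, 0, 0, 1, 0, 2, 1, 0], 160), ([0, 0, 0, 0, 1, 0, 0, 0, 0, 0, 0, 0, 0, 0, 0, 0, 1, 1, 1, 0, 1], 160), ([0, 0, 0, 0, 1, 0, 0, 0, 0, 0, 0, 0, 0, 0, 0, 0, 1, 1, 1, 1, 0], 144), ([0, 0, 0, 0, 1, 0, 0, 0, 0, 0, 0, 0, 0, 0, 0, 0, 1, 1, 2, 0, 0], 128), ([0, 0, 0, 0, 1, 0, 0, 0, 0, 0, 0, 0, 0, 0, 0, 0, 2, 0, 0, 1, 1], 160), ([0, 0, 0, 0, 1, 0, 0, 0, 0, 0, 0, 0, 0, 0, 0, 0, 2, 0, 1, 0, 1], 144), ([0, 0, 0, 0, 1, 0, 0, 0, 0, 0, 0, 0, 0, 0, 0, 0, 2, 0, 1, 1, 0], 128), ([0, 0, 0, 0, 1, 0, 0, 0, 0, 0, 0, 0, 0, 0, 0, 0, 2, 0, 2, 0, 0], 112), ([0, 0, 0, 0, 1, 0, 0, 0, 0, 0, 0, 0, 0, 0, 0, 0, 2, 1, 0, 0, 0], 160), ([0, 0, 0, 0,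 1, 0, 0, 0, 0, 0, 0, 0, 0, 0, 0, 0, 2, 1, 0, 0, 1], 128), ([0, 0, 0, 0, 1, 0, 0, 0, 0, 0, 0, 0, 0, 0, 0, 0, 2, 1, 0, 1, 0], 112), ([0, 0, 0, 0, 1, 0, 0, 0, 0, 0, 0, 0, 0, 0, 0, 0, 2, 1, 1, 0, 0], 96), ([0, 0, 0, 0, 1, 0, 0, 0, 0, 0, 0, 0, 0, 0, 0, 0, 3, 0, 0, 0, 0], 144), ([0, 0, 0, 0, 1, 0, 0, 0, 0, 0, 0, 0, 0, 0, 0, 0, 3, 0, 0, 0, 1], 112), ([0, 0, 0, 0, 1, 0, 0, 0, 0, 0, 0, 0, 0, 0, 0, 0, 3, 0, 0, 1, 0], 96), ([0, 0, 0, 0, 1, 0, 0, 0, 0, 0, 0, 0, 0, 0, 0, 0, 3, 0, 1, 0, 0], 80), ([0, 0, 0, 0, 1, 0, 0, 0, 0, 0, 0, 0, 0, 0, 0, 0, 3, 1, 0, 0, 0], 64), ([0, 0, 0, 0, 1, 0, 0, 0, 0, 0, 0, 0, 0, 0, 0, 0, 4, 0, 0, 0, 0], 48), ([0, 0, 0, 0, 1, 0, 0, 0, 0, 0, 0, 0, 0, 0, 0, 1, 0, 1, 0, 0, 0],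 154), ([0, 0, 0, 0, 1, 0, 0, 0, 0, 0, 0, 0, 0, 0, 0, 1, 1, 0, 0, 0, 0], 138), ([0, 0, 0, 0, 1, 0, 0, 0, 0, 0, 0, 0, 0, 0, 1, 0, 0, 1, 0, 0, 0], 148), ([0, 0, 0, 0, 1, 0, 0, 0, 0, 0, 0, 0, 0, 0, 1, 0, 1, 0, 0, 0, 0], 132), ([0, 0, 0, 0, 1, 0, 0, 0, 0, 0, 0, 0, 0, 1, 0, 0, 0, 0, 1, 0, 0], 152), ([0, 0, 0, 0, 1, 0, 0, 0, 0, 0, 0, 0, 0, 1, 0, 0, 0, 1, 0, 0, 0], 136), ([0, 0, 0, 0, 1, 0, 0, 0, 0, 0, 0, 0, 0, 1, 0, 0, 1, 0, 0, 0, 0], 120), ([0, 0, 0, 0, 1, 0, 0, 0, 0, 0, 0, 0, 1, 0, 0, 0, 0, 0, 0, 0, 1], 160), ([0, 0, 0, 0, 1, 0, 0, 0, 0, 0, 0, 0, 1, 0, 0, 0, 0, 0, 0, 1, 0], 144), ([0, 0, 0, 0, 1, 0, 0, 0, 0, 0, 0, 0, 1, 0, 0, 0, 0, 0, 1, 0, 0], 128), ([0, 0, 0, 0, 1, 0, 0, 0, 0, 0, 0, 0,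 1, 0, 0, 0, 0, 1, 0, 0, 0], 112), ([0, 0, 0, 0, 1, 0, 0, 0, 0, 0, 0, 0, 1, 0, 0, 0, 1, 0, 0, 0, 0], 96), ([0, 0, 0, 0, 1, 0, 0, 0, 0, 0, 0, 1, 0, 0, 0, 0, 0, 0, 0, 0, 1], 148), ([0, 0, 0, 0, 1, 0, 0, 0, 0, 0, 0, 1, 0, 0, 0, 0, 0, 0, 0, 1, 0], 132), ([0, 0, 0, 0, 1, 0, 0, 0, 0, 0, 0, 1, 0, 0, 0, 0, 0, 0, 1, 0, 0], 116), ([0, 0, 0, 0, 1, 0, 0, 0, 0, 0, 0, 1, 0, 0, 0, 0, 0, 1, 0, 0, 0], 100), ([0, 0, 0, 0, 1, 0, 0, 0, 0, 0, 0, 1, 0, 0, 0, 0, 1, 0, 0, 0, 0], 84), ([0, 0, 0, 0, 1, 0, 0, 0, 0, 0, 1, 0, 0, 0, 0, 0, 0, 0, 0, 0, 1], 144), ([0, 0, 0, 0, 1, 0, 0, 0, 0, 0, 1, 0, 0, 0, 0, 0, 0, 0, 0, 1, 0], 128), ([0, 0, 0, 0, 1, 0, 0, 0, 0, 0, 1, 0, 0, 0, 0, 0, 0, 0, 1, 0, 0], 112), ([0, 0, 0, 0,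 1, 0, 0, 0, 0, 0, 1, 0, 0, 0, 0, 0, 0, 1, 0, 0, 0], 96), ([0, 0, 0, 0, 1, 0, 0, 0, 0, 0, 1, 0, 0, 0, 0, 0, 1, 0, 0, 0, 0], 80), ([0, 0, 0, 0, 1, 0, 0, 0, 0, 1, 0, 0, 0, 0, 0, 0, 0, 0, 0, 0, 1], 136), ([0, 0, 0, 0, 1, 0, 0, 0, 0, 1, 0, 0, 0, 0, 0, 0, 0, 0, 0, 1, 0], 120), ([0, 0, 0, 0, 1, 0, 0, 0, 0, 1, 0, 0, 0, 0, 0, 0, 0, 0, 1, 0, 0], 104), ([0, 0, 0, 0, 1, 0, 0, 0, 0, 1, 0, 0, 0, 0, 0, 0, 0, 1, 0, 0, 0], 88), ([0, 0, 0, 0, 1, 0, 0, 0, 0, 1, 0, 0, 0, 0, 0, 0, 1, 0, 0, 0, 0], 72), ([0, 0, 0, 0, 1, 0, 0, 0, 1, 0, 0, 0, 0, 0, 0, 0, 0, 0, 0, 0, 0], 156), ([0, 0, 0, 0, 1, 0, 0, 0, 1, 0, 0, 0, 0, 0, 0, 0, 0, 0, 0, 0, 1], 124), ([0, 0, 0, 0, 1, 0, 0, 0, 1, 0, 0, 0, 0, 0, 0, 0, 0, 0, 0, 1,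 0], 108), ([0, 0, 0, 0, 1, 0, 0, 0, 1, 0, 0, 0, 0, 0, 0, 0, 0, 0, 1, 0, 0], 92), ([0, 0, 0, 0, 1, 0, 0, 0, 1, 0, 0, 0, 0, 0, 0, 0, 0, 1, 0, 0, 0], 76), ([0, 0, 0, 0, 1, 0, 0, 0, 1, 0, 0, 0, 0, 0, 0, 0, 1, 0, 0, 0, 0], 60), ([0, 0, 0, 0, 1, 0, 0, 1, 0, 0, 0, 0, 0, 0, 0, 0, 0, 0, 0, 0, 0], 150), ([0, 0, 0, 0, 1, 0, 0, 1, 0, 0, 0, 0, 0, 0, 0, 0, 0, 0, 0, 0, 1], 118), ([0, 0, 0, 0, 1, 0, 0, 1, 0, 0, 0, 0, 0, 0, 0, 0, 0, 0, 0, 1, 0], 102), ([0, 0, 0, 0, 1, 0, 0, 1, 0, 0, 0, 0, 0, 0, 0, 0, 0, 0, 1, 0, 0], 86), ([0, 0, 0, 0, 1, 0, 0, 1, 0, 0, 0, 0, 0, 0, 0, 0, 0, 1, 0, 0, 0], 70), ([0, 0, 0, 0, 1, 0, 0, 1, 0, 0, 0, 0, 0, 0, 0, 0, 1, 0, 0, 0, 0], 54), ([0, 0, 0, 0, 1, 0, 1, 0, 0, 0, 0, 0, 0,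 0, 0, 0, 0, 0, 0, 0, 0], 147), ([0, 0, 0, 0, 1, 0, 1, 0, 0, 0, 0, 0, 0, 0, 0, 0, 0, 0, 0, 0, 1], 115), ([0, 0, 0, 0, 1, 0, 1, 0, 0, 0, 0, 0, 0, 0, 0, 0, 0, 0, 0, 1, 0], 99), ([0, 0, 0, 0, 1, 0, 1, 0, 0, 0, 0, 0, 0, 0, 0, 0, 0, 0, 1, 0, 0], 83), ([0, 0, 0, 0, 1, 0, 1, 0, 0, 0, 0, 0, 0, 0, 0, 0, 0, 1, 0, 0, 0], 67), ([0, 0, 0, 0, 1, 0, 1, 0, 0, 0, 0, 0, 0, 0, 0, 0, 1, 0, 0, 0, 0], 51), ([0, 0, 0, 0, 1, 1, 0, 0, 0, 0, 0, 0, 0, 0, 0, 0, 0, 0, 0, 0, 0], 144), ([0, 0, 0, 0, 1, 1, 0, 0, 0, 0, 0, 0, 0, 0, 0, 0, 0, 0, 0, 0, 1], 112), ([0, 0, 0, 0, 1, 1, 0, 0, 0, 0, 0, 0, 0, 0, 0, 0, 0, 0, 0, 1, 0], 96), ([0, 0, 0, 0, 1, 1, 0, 0, 0, 0, 0, 0, 0, 0, 0, 0, 0, 0, 1, 0, 0], 80), ([0, 0, 0, 0, 1, 1,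 0, 0, 0, 0, 0, 0, 0, 0, 0, 0, 0, 1, 0, 0, 0], 64), ([0, 0, 0, 0, 1, 1, 0, 0, 0, 0, 0, 0, 0, 0, 0, 0, 1, 0, 0, 0, 0], 48)], [([0, 0, 0, 0, 0, 1, 0, 0, 0, 0, 0, 0, 0, 0, 0, 0, 1, 1, 1, 1, 1], 160), ([0, 0, 0, 0, 0, 1, 0, 0, 0, 0, 0, 0, 0, 0, 0, 0, 1, 1, 2, 0, 1], 144), ([0, 0, 0, 0, 0, 1, 0, 0, 0, 0, 0, 0, 0, 0, 0, 0, 1, 1, 2, 1, 0], 128), ([0, 0, 0, 0, 0, 1, 0, 0, 0, 0, 0, 0, 0, 0, 0, 0, 2, 0, 1, 1, 1], 144), ([0, 0, 0, 0, 0, 1, 0, 0, 0, 0, 0, 0, 0, 0, 0, 0, 2, 0, 2, 0, 0], 160), ([0, 0, 0, 0, 0, 1, 0, 0, 0, 0, 0, 0, 0, 0, 0, 0, 2, 0, 2, 0, 1], 128), ([0, 0, 0, 0, 0, 1, 0, 0, 0, 0, 0, 0, 0, 0, 0, 0, 2, 0, 2, 1, 0], 112), ([0, 0, 0, 0, 0, 1, 0, 0, 0, 0, 0, 0, 0, 0, 0, 0, 2, 1, 0, 1, 0],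 160), ([0, 0, 0, 0, 0, 1, 0, 0, 0, 0, 0, 0, 0, 0, 0, 0, 2, 1, 0, 1, 1], 128), ([0, 0, 0, 0, 0, 1, 0, 0, 0, 0, 0, 0, 0, 0, 0, 0, 2, 1, 1, 0, 0], 144), ([0, 0, 0, 0, 0, 1, 0, 0, 0, 0, 0, 0, 0, 0, 0, 0, 2, 1, 1, 0, 1], 112), ([0, 0, 0, 0, 0, 1, 0, 0, 0, 0, 0, 0, 0, 0, 0, 0, 2, 1, 1, 1, 0], 96), ([0, 0, 0, 0, 0, 1, 0, 0, 0, 0, 0, 0, 0, 0, 0, 0, 2, 1, 2, 0, 0], 80), ([0, 0, 0, 0, 0, 1, 0, 0, 0, 0, 0, 0, 0, 0, 0, 0, 3, 0, 0, 0, 1], 160), ([0, 0, 0, 0, 0, 1, 0, 0, 0, 0, 0, 0, 0, 0, 0, 0, 3, 0, 0, 1, 0], 144), ([0, 0, 0, 0, 0, 1, 0, 0, 0, 0, 0, 0, 0, 0, 0, 0, 3, 0, 0, 1, 1], 112), ([0, 0, 0, 0, 0, 1, 0, 0, 0, 0, 0, 0, 0, 0, 0, 0, 3, 0, 1, 0, 0], 128), ([0, 0, 0, 0, 0, 1, 0, 0, 0, 0, 0, 0, 0,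 0, 0, 0, 3, 0, 1, 0, 1], 96), ([0, 0, 0, 0, 0, 1, 0, 0, 0, 0, 0, 0, 0, 0, 0, 0, 3, 0, 1, 1, 0], 80), ([0, 0, 0, 0, 0, 1, 0, 0, 0, 0, 0, 0, 0, 0, 0, 0, 3, 0, 2, 0, 0], 64), ([0, 0, 0, 0, 0, 1, 0, 0, 0, 0, 0, 0, 0, 0, 0, 0, 3, 1, 0, 0, 0], 112), ([0, 0, 0, 0, 0, 1, 0, 0, 0, 0, 0, 0, 0, 0, 0, 0, 3, 1, 0, 0, 1], 80), ([0, 0, 0, 0, 0, 1, 0, 0, 0, 0, 0, 0, 0, 0, 0, 0, 3, 1, 0, 1, 0], 64), ([0, 0, 0, 0, 0, 1, 0, 0, 0, 0, 0, 0, 0, 0, 0, 0, 3, 1, 1, 0, 0], 48), ([0, 0, 0, 0, 0, 1, 0, 0, 0, 0, 0, 0, 0, 0, 0, 0, 4, 0, 0, 0, 0], 96), ([0, 0, 0, 0, 0, 1, 0, 0, 0, 0, 0, 0, 0, 0, 0, 0, 4, 0, 0, 0, 1], 64), ([0, 0, 0, 0, 0, 1, 0, 0, 0, 0, 0, 0, 0, 0, 0, 0, 4, 0, 0, 1, 0], 48), ([0, 0, 0, 0, 0, 1, 0,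 0, 0, 0, 0, 0, 0, 0, 0, 0, 4, 0, 1, 0, 0], 32), ([0, 0, 0, 0, 0, 1, 0, 0, 0, 0, 0, 0, 0, 0, 0, 0, 4, 1, 0, 0, 0], 16), ([0, 0, 0, 0, 0, 1, 0, 0, 0, 0, 0, 0, 0, 0, 0, 1, 0, 0, 2, 0, 0], 154), ([0, 0, 0, 0, 0, 1, 0, 0, 0, 0, 0, 0, 0, 0, 0, 1, 0, 1, 0, 1, 0], 154), ([0, 0, 0, 0, 0, 1, 0, 0, 0, 0, 0, 0, 0, 0, 0, 1, 0, 1, 1, 0, 0], 138), ([0, 0, 0, 0, 0, 1, 0, 0, 0, 0, 0, 0, 0, 0, 0, 1, 1, 0, 0, 0, 1], 154), ([0, 0, 0, 0, 0, 1, 0, 0, 0, 0, 0, 0, 0, 0, 0, 1, 1, 0, 0, 1, 0], 138), ([0, 0, 0, 0, 0, 1, 0, 0, 0, 0, 0, 0, 0, 0, 0, 1, 1, 0, 1, 0, 0], 122), ([0, 0, 0, 0, 0, 1, 0, 0, 0, 0, 0, 0, 0, 0, 0, 1, 1, 1, 0, 0, 0], 106), ([0, 0, 0, 0, 0, 1, 0, 0, 0, 0, 0, 0, 0, 0, 0, 1, 2, 0, 0, 0, 0], 90),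 ([0, 0, 0, 0, 0, 1, 0, 0, 0, 0, 0, 0, 0, 0, 1, 0, 0, 0, 2, 0, 0], 148), ([0, 0, 0, 0, 0, 1, 0, 0, 0, 0, 0, 0, 0, 0, 1, 0, 0, 1, 0, 1, 0], 148), ([0, 0, 0, 0, 0, 1, 0, 0, 0, 0, 0, 0, 0, 0, 1, 0, 0, 1, 1, 0, 0], 132), ([0, 0, 0, 0, 0, 1, 0, 0, 0, 0, 0, 0, 0, 0, 1, 0, 1, 0, 0, 0, 1], 148), ([0, 0, 0, 0, 0, 1, 0, 0, 0, 0, 0, 0, 0, 0, 1, 0, 1, 0, 0, 1, 0], 132), ([0, 0, 0, 0, 0, 1, 0, 0, 0, 0, 0, 0, 0, 0, 1, 0, 1, 0, 1, 0, 0], 116), ([0, 0, 0, 0, 0, 1, 0, 0, 0, 0, 0, 0, 0, 0, 1, 0, 1, 1, 0, 0, 0], 100), ([0, 0, 0, 0, 0, 1, 0, 0, 0, 0, 0, 0, 0, 0, 1, 0, 2, 0, 0, 0, 0], 84), ([0, 0, 0, 0, 0, 1, 0, 0, 0, 0, 0, 0, 0, 0, 1, 1, 0, 0, 0, 0, 0], 78), ([0, 0, 0, 0, 0, 1, 0, 0, 0, 0, 0, 0, 0, 1, 0,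 0, 0, 0, 1, 1, 0], 152), ([0, 0, 0, 0, 0, 1, 0, 0, 0, 0, 0, 0, 0, 1, 0, 0, 0, 0, 2, 0, 0], 136), ([0, 0, 0, 0, 0, 1, 0, 0, 0, 0, 0, 0, 0, 1, 0, 0, 0, 1, 0, 0, 1], 152), ([0, 0, 0, 0, 0, 1, 0, 0, 0, 0, 0, 0, 0, 1, 0, 0, 0, 1, 0, 1, 0], 136), ([0, 0, 0, 0, 0, 1, 0, 0, 0, 0, 0, 0, 0, 1, 0, 0, 0, 1, 1, 0, 0], 120), ([0, 0, 0, 0, 0, 1, 0, 0, 0, 0, 0, 0, 0, 1, 0, 0, 1, 0, 0, 0, 1], 136), ([0, 0, 0, 0, 0, 1, 0, 0, 0, 0, 0, 0, 0, 1, 0, 0, 1, 0, 0, 1, 0], 120), ([0, 0, 0, 0, 0, 1, 0, 0, 0, 0, 0, 0, 0, 1, 0, 0, 1, 0, 1, 0, 0], 104), ([0, 0, 0, 0, 0, 1, 0, 0, 0, 0, 0, 0, 0, 1, 0, 0, 1, 1, 0, 0, 0], 88), ([0, 0, 0, 0, 0, 1, 0, 0, 0, 0, 0, 0, 0, 1, 0, 0, 2, 0, 0, 0, 0], 72), ([0, 0, 0, 0, 0, 1, 0,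 0, 0, 0, 0, 0, 0, 1, 0, 1, 0, 0, 0, 0, 0], 66), ([0, 0, 0, 0, 0, 1, 0, 0, 0, 0, 0, 0, 0, 1, 1, 0, 0, 0, 0, 0, 0], 60), ([0, 0, 0, 0, 0, 1, 0, 0, 0, 0, 0, 0, 1, 0, 0, 0, 0, 0, 0, 1, 1], 160), ([0, 0, 0, 0, 0, 1, 0, 0, 0, 0, 0, 0, 1, 0, 0, 0, 0, 0, 1, 0, 1], 144), ([0, 0, 0, 0, 0, 1, 0, 0, 0, 0, 0, 0, 1, 0, 0, 0, 0, 0, 1, 1, 0], 128), ([0, 0, 0, 0, 0, 1, 0, 0, 0, 0, 0, 0, 1, 0, 0, 0, 0, 0, 2, 0, 0], 112), ([0, 0, 0, 0, 0, 1, 0, 0, 0, 0, 0, 0, 1, 0, 0, 0, 0, 1, 0, 0, 0], 160), ([0, 0, 0, 0, 0, 1, 0, 0, 0, 0, 0, 0, 1, 0, 0, 0, 0, 1, 0, 0, 1], 128), ([0, 0, 0, 0, 0, 1, 0, 0, 0, 0, 0, 0, 1, 0, 0, 0, 0, 1, 0, 1, 0], 112), ([0, 0, 0, 0, 0, 1, 0, 0, 0, 0, 0, 0, 1, 0, 0, 0, 0, 1, 1, 0, 0], 96),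 ([0, 0, 0, 0, 0, 1, 0, 0, 0, 0, 0, 0, 1, 0, 0, 0, 1, 0, 0, 0, 0], 144), ([0, 0, 0, 0, 0, 1, 0, 0, 0, 0, 0, 0, 1, 0, 0, 0, 1, 0, 0, 0, 1], 112), ([0, 0, 0, 0, 0, 1, 0, 0, 0, 0, 0, 0, 1, 0, 0, 0, 1, 0, 0, 1, 0], 96), ([0, 0, 0, 0, 0, 1, 0, 0, 0, 0, 0, 0, 1, 0, 0, 0, 1, 0, 1, 0, 0], 80), ([0, 0, 0, 0, 0, 1, 0, 0, 0, 0, 0, 0, 1, 0, 0, 0, 1, 1, 0, 0, 0], 64), ([0, 0, 0, 0, 0, 1, 0, 0, 0, 0, 0, 0, 1, 0, 0, 0, 2, 0, 0, 0, 0], 48), ([0, 0, 0, 0, 0, 1, 0, 0, 0, 0, 0, 0, 1, 0, 0, 1, 0, 0, 0, 0, 0], 42), ([0, 0, 0, 0, 0, 1, 0, 0, 0, 0, 0, 0, 1, 0, 1, 0, 0, 0, 0, 0, 0], 36), ([0, 0, 0, 0, 0, 1, 0, 0, 0, 0, 0, 0, 1, 1, 0, 0, 0, 0, 0, 0, 0], 24), ([0, 0, 0, 0, 0, 1, 0, 0, 0, 0, 0, 0, 2, 0, 0, 0, 0,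 0, 0, 0, 0], 0), ([0, 0, 0, 0, 0, 1, 0, 0, 0, 0, 0, 1, 0, 0, 0, 0, 0, 0, 0, 1, 1], 148), ([0, 0, 0, 0, 0, 1, 0, 0, 0, 0, 0, 1, 0, 0, 0, 0, 0, 0, 1, 0, 1], 132), ([0, 0, 0, 0, 0, 1, 0, 0, 0, 0, 0, 1, 0, 0, 0, 0, 0, 0, 1, 1, 0], 116), ([0, 0, 0, 0, 0, 1, 0, 0, 0, 0, 0, 1, 0, 0, 0, 0, 0, 0, 2, 0, 0], 100), ([0, 0, 0, 0, 0, 1, 0, 0, 0, 0, 0, 1, 0, 0, 0, 0, 0, 1, 0, 0, 0], 148), ([0, 0, 0, 0, 0, 1, 0, 0, 0, 0, 0, 1, 0, 0, 0, 0, 0, 1, 0, 0, 1], 116), ([0, 0, 0, 0, 0, 1, 0, 0, 0, 0, 0, 1, 0, 0, 0, 0, 0, 1, 0, 1, 0], 100), ([0, 0, 0, 0, 0, 1, 0, 0, 0, 0, 0, 1, 0, 0, 0, 0, 0, 1, 1, 0, 0], 84), ([0, 0, 0, 0, 0, 1, 0, 0, 0, 0, 0, 1, 0, 0, 0, 0, 1, 0, 0, 0, 0], 132), ([0, 0, 0, 0, 0, 1, 0, 0, 0,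 0, 0, 1, 0, 0, 0, 0, 1, 0, 0, 0, 1], 100), ([0, 0, 0, 0, 0, 1, 0, 0, 0, 0, 0, 1, 0, 0, 0, 0, 1, 0, 0, 1, 0], 84), ([0, 0, 0, 0, 0, 1, 0, 0, 0, 0, 0, 1, 0, 0, 0, 0, 1, 0, 1, 0, 0], 68), ([0, 0, 0, 0, 0, 1, 0, 0, 0, 0, 0, 1, 0, 0, 0, 0, 1, 1, 0, 0, 0], 52), ([0, 0, 0, 0, 0, 1, 0, 0, 0, 0, 0, 1, 0, 0, 0, 0, 2, 0, 0, 0, 0], 36), ([0, 0, 0, 0, 0, 1, 0, 0, 0, 0, 0, 1, 0, 0, 0, 1, 0, 0, 0, 0, 0], 30), ([0, 0, 0, 0, 0, 1, 0, 0, 0, 0, 0, 1, 0, 0, 1, 0, 0, 0, 0, 0, 0], 24), ([0, 0, 0, 0, 0, 1, 0, 0, 0, 0, 0, 1, 0, 1, 0, 0, 0, 0, 0, 0, 0], 12), ([0, 0, 0, 0, 0, 1, 0, 0, 0, 0, 1, 0, 0, 0, 0, 0, 0, 0, 0, 1, 1], 144), ([0, 0, 0, 0, 0, 1, 0, 0, 0, 0, 1, 0, 0, 0, 0, 0, 0, 0, 1, 0, 0], 160), ([0, 0,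 0, 0, 0, 1, 0, 0, 0, 0, 1, 0, 0, 0, 0, 0, 0, 0, 1, 0, 1], 128), ([0, 0, 0, 0, 0, 1, 0, 0, 0, 0, 1, 0, 0, 0, 0, 0, 0, 0, 1, 1, 0], 112), ([0, 0, 0, 0, 0, 1, 0, 0, 0, 0, 1, 0, 0, 0, 0, 0, 0, 0, 2, 0, 0], 96), ([0, 0, 0, 0, 0, 1, 0, 0, 0, 0, 1, 0, 0, 0, 0, 0, 0, 1, 0, 0, 0], 144), ([0, 0, 0, 0, 0, 1, 0, 0, 0, 0, 1, 0, 0, 0, 0, 0, 0, 1, 0, 0, 1], 112), ([0, 0, 0, 0, 0, 1, 0, 0, 0, 0, 1, 0, 0, 0, 0, 0, 0, 1, 0, 1, 0], 96), ([0, 0, 0, 0, 0, 1, 0, 0, 0, 0, 1, 0, 0, 0, 0, 0, 0, 1, 1, 0, 0], 80), ([0, 0, 0, 0, 0, 1, 0, 0, 0, 0, 1, 0, 0, 0, 0, 0, 1, 0, 0, 0, 0], 128), ([0, 0, 0, 0, 0, 1, 0, 0, 0, 0, 1, 0, 0, 0, 0, 0, 1, 0, 0, 0, 1], 96), ([0, 0, 0, 0, 0, 1, 0, 0, 0, 0, 1, 0, 0, 0, 0, 0, 1, 0,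 0, 1, 0], 80), ([0, 0, 0, 0, 0, 1, 0, 0, 0, 0, 1, 0, 0, 0, 0, 0, 1, 0, 1, 0, 0], 64), ([0, 0, 0, 0, 0, 1, 0, 0, 0, 0, 1, 0, 0, 0, 0, 0, 1, 1, 0, 0, 0], 48), ([0, 0, 0, 0, 0, 1, 0, 0, 0, 0, 1, 0, 0, 0, 0, 0, 2, 0, 0, 0, 0], 32), ([0, 0, 0, 0, 0, 1, 0, 0, 0, 0, 1, 0, 0, 0, 0, 1, 0, 0, 0, 0, 0], 26), ([0, 0, 0, 0, 0, 1, 0, 0, 0, 0, 1, 0, 0, 0, 1, 0, 0, 0, 0, 0, 0], 20), ([0, 0, 0, 0, 0, 1, 0, 0, 0, 0, 1, 0, 0, 1, 0, 0, 0, 0, 0, 0, 0], 8), ([0, 0, 0, 0, 0, 1, 0, 0, 0, 1, 0, 0, 0, 0, 0, 0, 0, 0, 0, 1, 1], 136), ([0, 0, 0, 0, 0, 1, 0, 0, 0, 1, 0, 0, 0, 0, 0, 0, 0, 0, 1, 0, 0], 152), ([0, 0, 0, 0, 0, 1, 0, 0, 0, 1, 0, 0, 0, 0, 0, 0, 0, 0, 1, 0, 1], 120), ([0, 0, 0, 0, 0, 1, 0, 0, 0, 1, 0, 0,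 0, 0, 0, 0, 0, 0, 1, 1, 0], 104), ([0, 0, 0, 0, 0, 1, 0, 0, 0, 1, 0, 0, 0, 0, 0, 0, 0, 0, 2, 0, 0], 88), ([0, 0, 0, 0, 0, 1, 0, 0, 0, 1, 0, 0, 0, 0, 0, 0, 0, 1, 0, 0, 0], 136), ([0, 0, 0, 0, 0, 1, 0, 0, 0, 1, 0, 0, 0, 0, 0, 0, 0, 1, 0, 0, 1], 104), ([0, 0, 0, 0, 0, 1, 0, 0, 0, 1, 0, 0, 0, 0, 0, 0, 0, 1, 0, 1, 0], 88), ([0, 0, 0, 0, 0, 1, 0, 0, 0, 1, 0, 0, 0, 0, 0, 0, 0, 1, 1, 0, 0], 72), ([0, 0, 0, 0, 0, 1, 0, 0, 0, 1, 0, 0, 0, 0, 0, 0, 1, 0, 0, 0, 0], 120), ([0, 0, 0, 0, 0, 1, 0, 0, 0, 1, 0, 0, 0, 0, 0, 0, 1, 0, 0, 0, 1], 88), ([0, 0, 0, 0, 0, 1, 0, 0, 0, 1, 0, 0, 0, 0, 0, 0, 1, 0, 0, 1, 0], 72), ([0, 0, 0, 0, 0, 1, 0, 0, 0, 1, 0, 0, 0, 0, 0, 0, 1, 0, 1, 0, 0], 56), ([0, 0, 0, 0, 0,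 1, 0, 0, 0, 1, 0, 0, 0, 0, 0, 0, 1, 1, 0, 0, 0], 40), ([0, 0, 0, 0, 0, 1, 0, 0, 0, 1, 0, 0, 0, 0, 0, 0, 2, 0, 0, 0, 0], 24), ([0, 0, 0, 0, 0, 1, 0, 0, 0, 1, 0, 0, 0, 0, 0, 1, 0, 0, 0, 0, 0], 18), ([0, 0, 0, 0, 0, 1, 0, 0, 0, 1, 0, 0, 0, 0, 1, 0, 0, 0, 0, 0, 0], 12), ([0, 0, 0, 0, 0, 1, 0, 0, 0, 1, 0, 0, 0, 1, 0, 0, 0, 0, 0, 0, 0], 0), ([0, 0, 0, 0, 0, 1, 0, 0, 1, 0, 0, 0, 0, 0, 0, 0, 0, 0, 0, 1, 0], 156), ([0, 0, 0, 0, 0, 1, 0, 0, 1, 0, 0, 0, 0, 0, 0, 0, 0, 0, 0, 1, 1], 124), ([0, 0, 0, 0, 0, 1, 0, 0, 1, 0, 0, 0, 0, 0, 0, 0, 0, 0, 1, 0, 0], 140), ([0, 0, 0, 0, 0, 1, 0, 0, 1, 0, 0, 0, 0, 0, 0, 0, 0, 0, 1, 0, 1], 108), ([0, 0, 0, 0, 0, 1, 0, 0, 1, 0, 0, 0, 0, 0, 0, 0, 0, 0, 1, 1, 0], 92),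 ([0, 0, 0, 0, 0, 1, 0, 0, 1, 0, 0, 0, 0, 0, 0, 0, 0, 0, 2, 0, 0], 76), ([0, 0, 0, 0, 0, 1, 0, 0, 1, 0, 0, 0, 0, 0, 0, 0, 0, 1, 0, 0, 0], 124), ([0, 0, 0, 0, 0, 1, 0, 0, 1, 0, 0, 0, 0, 0, 0, 0, 0, 1, 0, 0, 1], 92), ([0, 0, 0, 0, 0, 1, 0, 0, 1, 0, 0, 0, 0, 0, 0, 0, 0, 1, 0, 1, 0], 76), ([0, 0, 0, 0, 0, 1, 0, 0, 1, 0, 0, 0, 0, 0, 0, 0, 0, 1, 1, 0, 0], 60), ([0, 0, 0, 0, 0, 1, 0, 0, 1, 0, 0, 0, 0, 0, 0, 0, 1, 0, 0, 0, 0], 108), ([0, 0, 0, 0, 0, 1, 0, 0, 1, 0, 0, 0, 0, 0, 0, 0, 1, 0, 0, 0, 1], 76), ([0, 0, 0, 0, 0, 1, 0, 0, 1, 0, 0, 0, 0, 0, 0, 0, 1, 0, 0, 1, 0], 60), ([0, 0, 0, 0, 0, 1, 0, 0, 1, 0, 0, 0, 0, 0, 0, 0, 1, 0, 1, 0, 0], 44), ([0, 0, 0, 0, 0, 1, 0, 0, 1, 0, 0, 0, 0, 0, 0, 0, 1,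 1, 0, 0, 0], 28), ([0, 0, 0, 0, 0, 1, 0, 0, 1, 0, 0, 0, 0, 0, 0, 0, 2, 0, 0, 0, 0], 12), ([0, 0, 0, 0, 0, 1, 0, 0, 1, 0, 0, 0, 0, 0, 0, 1, 0, 0, 0, 0, 0], 6), ([0, 0, 0, 0, 0, 1, 0, 0, 1, 0, 0, 0, 0, 0, 1, 0, 0, 0, 0, 0, 0], 0), ([0, 0, 0, 0, 0, 1, 0, 1, 0, 0, 0, 0, 0, 0, 0, 0, 0, 0, 0, 1, 0], 150), ([0, 0, 0, 0, 0, 1, 0, 1, 0, 0, 0, 0, 0, 0, 0, 0, 0, 0, 0, 1, 1], 118), ([0, 0, 0, 0, 0, 1, 0, 1, 0, 0, 0, 0, 0, 0, 0, 0, 0, 0, 1, 0, 0], 134), ([0, 0, 0, 0, 0, 1, 0, 1, 0, 0, 0, 0, 0, 0, 0, 0, 0, 0, 1, 0, 1], 102), ([0, 0, 0, 0, 0, 1, 0, 1, 0, 0, 0, 0, 0, 0, 0, 0, 0, 0, 1, 1, 0], 86), ([0, 0, 0, 0, 0, 1, 0, 1, 0, 0, 0, 0, 0, 0, 0, 0, 0, 0, 2, 0, 0], 70), ([0, 0, 0, 0, 0, 1, 0, 1, 0, 0, 0,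 0, 0, 0, 0, 0, 0, 1, 0, 0, 0], 118), ([0, 0, 0, 0, 0, 1, 0, 1, 0, 0, 0, 0, 0, 0, 0, 0, 0, 1, 0, 0, 1], 86), ([0, 0, 0, 0, 0, 1, 0, 1, 0, 0, 0, 0, 0, 0, 0, 0, 0, 1, 0, 1, 0], 70), ([0, 0, 0, 0, 0, 1, 0, 1, 0, 0, 0, 0, 0, 0, 0, 0, 0, 1, 1, 0, 0], 54), ([0, 0, 0, 0, 0, 1, 0, 1, 0, 0, 0, 0, 0, 0, 0, 0, 1, 0, 0, 0, 0], 102), ([0, 0, 0, 0, 0, 1, 0, 1, 0, 0, 0, 0, 0, 0, 0, 0, 1, 0, 0, 0, 1], 70), ([0, 0, 0, 0, 0, 1, 0, 1, 0, 0, 0, 0, 0, 0, 0, 0, 1, 0, 0, 1, 0], 54), ([0, 0, 0, 0, 0, 1, 0, 1, 0, 0, 0, 0, 0, 0, 0, 0, 1, 0, 1, 0, 0], 38), ([0, 0, 0, 0, 0, 1, 0, 1, 0, 0, 0, 0, 0, 0, 0, 0, 1, 1, 0, 0, 0], 22), ([0, 0, 0, 0, 0, 1, 0, 1, 0, 0, 0, 0, 0, 0, 0, 0, 2, 0, 0, 0, 0], 6), ([0, 0, 0, 0, 0,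 1, 0, 1, 0, 0, 0, 0, 0, 0, 0, 1, 0, 0, 0, 0, 0], 0), ([0, 0, 0, 0, 0, 1, 1, 0, 0, 0, 0, 0, 0, 0, 0, 0, 0, 0, 0, 1, 0], 147), ([0, 0, 0, 0, 0, 1, 1, 0, 0, 0, 0, 0, 0, 0, 0, 0, 0, 0, 0, 1, 1], 115), ([0, 0, 0, 0, 0, 1, 1, 0, 0, 0, 0, 0, 0, 0, 0, 0, 0, 0, 1, 0, 0], 131), ([0, 0, 0, 0, 0, 1, 1, 0, 0, 0, 0, 0, 0, 0, 0, 0, 0, 0, 1, 0, 1], 99), ([0, 0, 0, 0, 0, 1, 1, 0, 0, 0, 0, 0, 0, 0, 0, 0, 0, 0, 1, 1, 0], 83), ([0, 0, 0, 0, 0, 1, 1, 0, 0, 0, 0, 0, 0, 0, 0, 0, 0, 0, 2, 0, 0], 67), ([0, 0, 0, 0, 0, 1, 1, 0, 0, 0, 0, 0, 0, 0, 0, 0, 0, 1, 0, 0, 0], 115), ([0, 0, 0, 0, 0, 1, 1, 0, 0, 0, 0, 0, 0, 0, 0, 0, 0, 1, 0, 0, 1], 83), ([0, 0, 0, 0, 0, 1, 1, 0, 0, 0, 0, 0, 0, 0, 0, 0, 0, 1, 0, 1, 0], 67),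 ([0, 0, 0, 0, 0, 1, 1, 0, 0, 0, 0, 0, 0, 0, 0, 0, 0, 1, 1, 0, 0], 51), ([0, 0, 0, 0, 0, 1, 1, 0, 0, 0, 0, 0, 0, 0, 0, 0, 1, 0, 0, 0, 0], 99), ([0, 0, 0, 0, 0, 1, 1, 0, 0, 0, 0, 0, 0, 0, 0, 0, 1, 0, 0, 0, 1], 67), ([0, 0, 0, 0, 0, 1, 1, 0, 0, 0, 0, 0, 0, 0, 0, 0, 1, 0, 0, 1, 0], 51), ([0, 0, 0, 0, 0, 1, 1, 0, 0, 0, 0, 0, 0, 0, 0, 0, 1, 0, 1, 0, 0], 35), ([0, 0, 0, 0, 0, 1, 1, 0, 0, 0, 0, 0, 0, 0, 0, 0, 1, 1, 0, 0, 0], 19), ([0, 0, 0, 0, 0, 1, 1, 0, 0, 0, 0, 0, 0, 0, 0, 0, 2, 0, 0, 0, 0], 3), ([0, 0, 0, 0, 0, 2, 0, 0, 0, 0, 0, 0, 0, 0, 0, 0, 0, 0, 0, 0, 1], 160), ([0, 0, 0, 0, 0, 2, 0, 0, 0, 0, 0, 0, 0, 0, 0, 0, 0, 0, 0, 1, 0], 144), ([0, 0, 0, 0, 0, 2, 0, 0, 0, 0, 0, 0, 0, 0, 0, 0, 0,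 0, 0, 1, 1], 112), ([0, 0, 0, 0, 0, 2, 0, 0, 0, 0, 0, 0, 0, 0, 0, 0, 0, 0, 1, 0, 0], 128), ([0, 0, 0, 0, 0, 2, 0, 0, 0, 0, 0, 0, 0, 0, 0, 0, 0, 0, 1, 0, 1], 96), ([0, 0, 0, 0, 0, 2, 0, 0, 0, 0, 0, 0, 0, 0, 0, 0, 0, 0, 1, 1, 0], 80), ([0, 0, 0, 0, 0, 2, 0, 0, 0, 0, 0, 0, 0, 0, 0, 0, 0, 0, 2, 0, 0], 64), ([0, 0, 0, 0, 0, 2, 0, 0, 0, 0, 0, 0, 0, 0, 0, 0, 0, 1, 0, 0, 0], 112), ([0, 0, 0, 0, 0, 2, 0, 0, 0, 0, 0, 0, 0, 0, 0, 0, 0, 1, 0, 0, 1], 80), ([0, 0, 0, 0, 0, 2, 0, 0, 0, 0, 0, 0, 0, 0, 0, 0, 0, 1, 0, 1, 0], 64), ([0, 0, 0, 0, 0, 2, 0, 0, 0, 0, 0, 0, 0, 0, 0, 0, 0, 1, 1, 0, 0], 48), ([0, 0, 0, 0, 0, 2, 0, 0, 0, 0, 0, 0, 0, 0, 0, 0, 1, 0, 0, 0, 0], 96), ([0, 0, 0, 0, 0, 2, 0, 0, 0, 0,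 0, 0, 0, 0, 0, 0, 1, 0, 0, 0, 1], 64), ([0, 0, 0, 0, 0, 2, 0, 0, 0, 0, 0, 0, 0, 0, 0, 0, 1, 0, 0, 1, 0], 48), ([0, 0, 0, 0, 0, 2, 0, 0, 0, 0, 0, 0, 0, 0, 0, 0, 1, 0, 1, 0, 0], 32), ([0, 0, 0, 0, 0, 2, 0, 0, 0, 0, 0, 0, 0, 0, 0, 0, 1, 1, 0, 0, 0], 16), ([0, 0, 0, 0, 0, 2, 0, 0, 0, 0, 0, 0, 0, 0, 0, 0, 2, 0, 0, 0, 0], 0)], [([0, 0, 0, 0, 0, 0, 1, 0, 0, 0, 0, 0, 0, 0, 0, 0, 1, 1, 2, 0, 1], 147), ([0, 0, 0, 0, 0, 0, 1, 0, 0, 0, 0, 0, 0, 0, 0, 0, 1, 1, 2, 1, 0], 131), ([0, 0, 0, 0, 0, 0, 1, 0, 0, 0, 0, 0, 0, 0, 0, 0, 2, 0, 1, 1, 1], 147), ([0, 0, 0, 0, 0, 0, 1, 0, 0, 0, 0, 0, 0, 0, 0, 0, 2, 0, 2, 0, 1], 131), ([0, 0, 0, 0, 0, 0, 1, 0, 0, 0, 0, 0, 0, 0, 0, 0, 2, 0, 2, 1, 0], 115), ([0, 0,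 0, 0, 0, 0, 1, 0, 0, 0, 0, 0, 0, 0, 0, 0, 2, 1, 0, 1, 1], 131), ([0, 0, 0, 0, 0, 0, 1, 0, 0, 0, 0, 0, 0, 0, 0, 0, 2, 1, 1, 0, 0], 147), ([0, 0, 0, 0, 0, 0, 1, 0, 0, 0, 0, 0, 0, 0, 0, 0, 2, 1, 1, 0, 1], 115), ([0, 0, 0, 0, 0, 0, 1, 0, 0, 0, 0, 0, 0, 0, 0, 0, 2, 1, 1, 1, 0], 99), ([0, 0, 0, 0, 0, 0, 1, 0, 0, 0, 0, 0, 0, 0, 0, 0, 2, 1, 2, 0, 0], 83), ([0, 0, 0, 0, 0, 0, 1, 0, 0, 0, 0, 0, 0, 0, 0, 0, 3, 0, 0, 1, 0], 147), ([0, 0, 0, 0, 0, 0, 1, 0, 0, 0, 0, 0, 0, 0, 0, 0, 3, 0, 0, 1, 1], 115), ([0, 0, 0, 0, 0, 0, 1, 0, 0, 0, 0, 0, 0, 0, 0, 0, 3, 0, 1, 0, 0], 131), ([0, 0, 0, 0, 0, 0, 1, 0, 0, 0, 0, 0, 0, 0, 0, 0, 3, 0, 1, 0, 1], 99), ([0, 0, 0, 0, 0, 0, 1, 0, 0, 0, 0, 0, 0, 0, 0, 0, 3, 0,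 1, 1, 0], 83), ([0, 0, 0, 0, 0, 0, 1, 0, 0, 0, 0, 0, 0, 0, 0, 0, 3, 0, 2, 0, 0], 67), ([0, 0, 0, 0, 0, 0, 1, 0, 0, 0, 0, 0, 0, 0, 0, 0, 3, 1, 0, 0, 0], 115), ([0, 0, 0, 0, 0, 0, 1, 0, 0, 0, 0, 0, 0, 0, 0, 0, 3, 1, 0, 0, 1], 83), ([0, 0, 0, 0, 0, 0, 1, 0, 0, 0, 0, 0, 0, 0, 0, 0, 3, 1, 0, 1, 0], 67), ([0, 0, 0, 0, 0, 0, 1, 0, 0, 0, 0, 0, 0, 0, 0, 0, 3, 1, 1, 0, 0], 51), ([0, 0, 0, 0, 0, 0, 1, 0, 0, 0, 0, 0, 0, 0, 0, 0, 4, 0, 0, 0, 0], 99), ([0, 0, 0, 0, 0, 0, 1, 0, 0, 0, 0, 0, 0, 0, 0, 0, 4, 0, 0, 0, 1], 67), ([0, 0, 0, 0, 0, 0, 1, 0, 0, 0, 0, 0, 0, 0, 0, 0, 4, 0, 0, 1, 0], 51), ([0, 0, 0, 0, 0, 0, 1, 0, 0, 0, 0, 0, 0, 0, 0, 0, 4, 0, 1, 0, 0], 35), ([0, 0, 0, 0, 0, 0, 1, 0, 0, 0, 0, 0,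 0, 0, 0, 0, 4, 1, 0, 0, 0], 19), ([0, 0, 0, 0, 0, 0, 1, 0, 0, 0, 0, 0, 0, 0, 0, 1, 0, 0, 2, 0, 0], 157), ([0, 0, 0, 0, 0, 0, 1, 0, 0, 0, 0, 0, 0, 0, 0, 1, 0, 1, 0, 1, 0], 157), ([0, 0, 0, 0, 0, 0, 1, 0, 0, 0, 0, 0, 0, 0, 0, 1, 0, 1, 1, 0, 0], 141), ([0, 0, 0, 0, 0, 0, 1, 0, 0, 0, 0, 0, 0, 0, 0, 1, 1, 0, 0, 0, 1], 157), ([0, 0, 0, 0, 0, 0, 1, 0, 0, 0, 0, 0, 0, 0, 0, 1, 1, 0, 0, 1, 0], 141), ([0, 0, 0, 0, 0, 0, 1, 0, 0, 0, 0, 0, 0, 0, 0, 1, 1, 0, 1, 0, 0], 125), ([0, 0, 0, 0, 0, 0, 1, 0, 0, 0, 0, 0, 0, 0, 0, 1, 1, 1, 0, 0, 0], 109), ([0, 0, 0, 0, 0, 0, 1, 0, 0, 0, 0, 0, 0, 0, 0, 1, 2, 0, 0, 0, 0], 93), ([0, 0, 0, 0, 0, 0, 1, 0, 0, 0, 0, 0, 0, 0, 1, 0, 0, 0, 2, 0, 0], 151), ([0, 0, 0, 0,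 0, 0, 1, 0, 0, 0, 0, 0, 0, 0, 1, 0, 0, 1, 0, 1, 0], 151), ([0, 0, 0, 0, 0, 0, 1, 0, 0, 0, 0, 0, 0, 0, 1, 0, 0, 1, 1, 0, 0], 135), ([0, 0, 0, 0, 0, 0, 1, 0, 0, 0, 0, 0, 0, 0, 1, 0, 1, 0, 0, 0, 1], 151), ([0, 0, 0, 0, 0, 0, 1, 0, 0, 0, 0, 0, 0, 0, 1, 0, 1, 0, 0, 1, 0], 135), ([0, 0, 0, 0, 0, 0, 1, 0, 0, 0, 0, 0, 0, 0, 1, 0, 1, 0, 1, 0, 0], 119), ([0, 0, 0, 0, 0, 0, 1, 0, 0, 0, 0, 0, 0, 0, 1, 0, 1, 1, 0, 0, 0], 103), ([0, 0, 0, 0, 0, 0, 1, 0, 0, 0, 0, 0, 0, 0, 1, 0, 2, 0, 0, 0, 0], 87), ([0, 0, 0, 0, 0, 0, 1, 0, 0, 0, 0, 0, 0, 0, 1, 1, 0, 0, 0, 0, 0], 81), ([0, 0, 0, 0, 0, 0, 1, 0, 0, 0, 0, 0, 0, 1, 0, 0, 0, 0, 1, 1, 0], 155), ([0, 0, 0, 0, 0, 0, 1, 0, 0, 0, 0, 0, 0, 1, 0, 0, 0, 0, 2, 0,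 0], 139), ([0, 0, 0, 0, 0, 0, 1, 0, 0, 0, 0, 0, 0, 1, 0, 0, 0, 1, 0, 0, 1], 155), ([0, 0, 0, 0, 0, 0, 1, 0, 0, 0, 0, 0, 0, 1, 0, 0, 0, 1, 0, 1, 0], 139), ([0, 0, 0, 0, 0, 0, 1, 0, 0, 0, 0, 0, 0, 1, 0, 0, 0, 1, 1, 0, 0], 123), ([0, 0, 0, 0, 0, 0, 1, 0, 0, 0, 0, 0, 0, 1, 0, 0, 1, 0, 0, 0, 1], 139), ([0, 0, 0, 0, 0, 0, 1, 0, 0, 0, 0, 0, 0, 1, 0, 0, 1, 0, 0, 1, 0], 123), ([0, 0, 0, 0, 0, 0, 1, 0, 0, 0, 0, 0, 0, 1, 0, 0, 1, 0, 1, 0, 0], 107), ([0, 0, 0, 0, 0, 0, 1, 0, 0, 0, 0, 0, 0, 1, 0, 0, 1, 1, 0, 0, 0], 91), ([0, 0, 0, 0, 0, 0, 1, 0, 0, 0, 0, 0, 0, 1, 0, 0, 2, 0, 0, 0, 0], 75), ([0, 0, 0, 0, 0, 0, 1, 0, 0, 0, 0, 0, 0, 1, 0, 1, 0, 0, 0, 0, 0], 69), ([0, 0, 0, 0, 0, 0, 1, 0, 0, 0, 0, 0,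 0, 1, 1, 0, 0, 0, 0, 0, 0], 63), ([0, 0, 0, 0, 0, 0, 1, 0, 0, 0, 0, 0, 1, 0, 0, 0, 0, 0, 1, 0, 1], 147), ([0, 0, 0, 0, 0, 0, 1, 0, 0, 0, 0, 0, 1, 0, 0, 0, 0, 0, 1, 1, 0], 131), ([0, 0, 0, 0, 0, 0, 1, 0, 0, 0, 0, 0, 1, 0, 0, 0, 0, 0, 2, 0, 0], 115), ([0, 0, 0, 0, 0, 0, 1, 0, 0, 0, 0, 0, 1, 0, 0, 0, 0, 1, 0, 0, 1], 131), ([0, 0, 0, 0, 0, 0, 1, 0, 0, 0, 0, 0, 1, 0, 0, 0, 0, 1, 0, 1, 0], 115), ([0, 0, 0, 0, 0, 0, 1, 0, 0, 0, 0, 0, 1, 0, 0, 0, 0, 1, 1, 0, 0], 99), ([0, 0, 0, 0, 0, 0, 1, 0, 0, 0, 0, 0, 1, 0, 0, 0, 1, 0, 0, 0, 0], 147), ([0, 0, 0, 0, 0, 0, 1, 0, 0, 0, 0, 0, 1, 0, 0, 0, 1, 0, 0, 0, 1], 115), ([0, 0, 0, 0, 0, 0, 1, 0, 0, 0, 0, 0, 1, 0, 0, 0, 1, 0, 0, 1, 0], 99), ([0, 0, 0, 0,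 0, 0, 1, 0, 0, 0, 0, 0, 1, 0, 0, 0, 1, 0, 1, 0, 0], 83), ([0, 0, 0, 0, 0, 0, 1, 0, 0, 0, 0, 0, 1, 0, 0, 0, 1, 1, 0, 0, 0], 67), ([0, 0, 0, 0, 0, 0, 1, 0, 0, 0, 0, 0, 1, 0, 0, 0, 2, 0, 0, 0, 0], 51), ([0, 0, 0, 0, 0, 0, 1, 0, 0, 0, 0, 0, 1, 0, 0, 1, 0, 0, 0, 0, 0], 45), ([0, 0, 0, 0, 0, 0, 1, 0, 0, 0, 0, 0, 1, 0, 1, 0, 0, 0, 0, 0, 0], 39), ([0, 0, 0, 0, 0, 0, 1, 0, 0, 0, 0, 0, 1, 1, 0, 0, 0, 0, 0, 0, 0], 27), ([0, 0, 0, 0, 0, 0, 1, 0, 0, 0, 0, 0, 2, 0, 0, 0, 0, 0, 0, 0, 0], 3), ([0, 0, 0, 0, 0, 0, 1, 0, 0, 0, 0, 1, 0, 0, 0, 0, 0, 0, 0, 1, 1], 151), ([0, 0, 0, 0, 0, 0, 1, 0, 0, 0, 0, 1, 0, 0, 0, 0, 0, 0, 1, 0, 1], 135), ([0, 0, 0, 0, 0, 0, 1, 0, 0, 0, 0, 1, 0, 0, 0, 0, 0, 0, 1, 1, 0],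 119), ([0, 0, 0, 0, 0, 0, 1, 0, 0, 0, 0, 1, 0, 0, 0, 0, 0, 0, 2, 0, 0], 103), ([0, 0, 0, 0, 0, 0, 1, 0, 0, 0, 0, 1, 0, 0, 0, 0, 0, 1, 0, 0, 0], 151), ([0, 0, 0, 0, 0, 0, 1, 0, 0, 0, 0, 1, 0, 0, 0, 0, 0, 1, 0, 0, 1], 119), ([0, 0, 0, 0, 0, 0, 1, 0, 0, 0, 0, 1, 0, 0, 0, 0, 0, 1, 0, 1, 0], 103), ([0, 0, 0, 0, 0, 0, 1, 0, 0, 0, 0, 1, 0, 0, 0, 0, 0, 1, 1, 0, 0], 87), ([0, 0, 0, 0, 0, 0, 1, 0, 0, 0, 0, 1, 0, 0, 0, 0, 1, 0, 0, 0, 0], 135), ([0, 0, 0, 0, 0, 0, 1, 0, 0, 0, 0, 1, 0, 0, 0, 0, 1, 0, 0, 0, 1], 103), ([0, 0, 0, 0, 0, 0, 1, 0, 0, 0, 0, 1, 0, 0, 0, 0, 1, 0, 0, 1, 0], 87), ([0, 0, 0, 0, 0, 0, 1, 0, 0, 0, 0, 1, 0, 0, 0, 0, 1, 0, 1, 0, 0], 71), ([0, 0, 0, 0, 0, 0, 1, 0, 0, 0, 0, 1, 0,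 0, 0, 0, 1, 1, 0, 0, 0], 55), ([0, 0, 0, 0, 0, 0, 1, 0, 0, 0, 0, 1, 0, 0, 0, 0, 2, 0, 0, 0, 0], 39), ([0, 0, 0, 0, 0, 0, 1, 0, 0, 0, 0, 1, 0, 0, 0, 1, 0, 0, 0, 0, 0], 33), ([0, 0, 0, 0, 0, 0, 1, 0, 0, 0, 0, 1, 0, 0, 1, 0, 0, 0, 0, 0, 0], 27), ([0, 0, 0, 0, 0, 0, 1, 0, 0, 0, 0, 1, 0, 1, 0, 0, 0, 0, 0, 0, 0], 15), ([0, 0, 0, 0, 0, 0, 1, 0, 0, 0, 1, 0, 0, 0, 0, 0, 0, 0, 0, 1, 1], 147), ([0, 0, 0, 0, 0, 0, 1, 0, 0, 0, 1, 0, 0, 0, 0, 0, 0, 0, 1, 0, 1], 131), ([0, 0, 0, 0, 0, 0, 1, 0, 0, 0, 1, 0, 0, 0, 0, 0, 0, 0, 1, 1, 0], 115), ([0, 0, 0, 0, 0, 0, 1, 0, 0, 0, 1, 0, 0, 0, 0, 0, 0, 0, 2, 0, 0], 99), ([0, 0, 0, 0, 0, 0, 1, 0, 0, 0, 1, 0, 0, 0, 0, 0, 0, 1, 0, 0, 0], 147), ([0, 0, 0, 0, 0, 0,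 1, 0, 0, 0, 1, 0, 0, 0, 0, 0, 0, 1, 0, 0, 1], 115), ([0, 0, 0, 0, 0, 0, 1, 0, 0, 0, 1, 0, 0, 0, 0, 0, 0, 1, 0, 1, 0], 99), ([0, 0, 0, 0, 0, 0, 1, 0, 0, 0, 1, 0, 0, 0, 0, 0, 0, 1, 1, 0, 0], 83), ([0, 0, 0, 0, 0, 0, 1, 0, 0, 0, 1, 0, 0, 0, 0, 0, 1, 0, 0, 0, 0], 131), ([0, 0, 0, 0, 0, 0, 1, 0, 0, 0, 1, 0, 0, 0, 0, 0, 1, 0, 0, 0, 1], 99), ([0, 0, 0, 0, 0, 0, 1, 0, 0, 0, 1, 0, 0, 0, 0, 0, 1, 0, 0, 1, 0], 83), ([0, 0, 0, 0, 0, 0, 1, 0, 0, 0, 1, 0, 0, 0, 0, 0, 1, 0, 1, 0, 0], 67), ([0, 0, 0, 0, 0, 0, 1, 0, 0, 0, 1, 0, 0, 0, 0, 0, 1, 1, 0, 0, 0], 51), ([0, 0, 0, 0, 0, 0, 1, 0, 0, 0, 1, 0, 0, 0, 0, 0, 2, 0, 0, 0, 0], 35), ([0, 0, 0, 0, 0, 0, 1, 0, 0, 0, 1, 0, 0, 0, 0, 1, 0, 0, 0, 0, 0], 29),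 ([0, 0, 0, 0, 0, 0, 1, 0, 0, 0, 1, 0, 0, 0, 1, 0, 0, 0, 0, 0, 0], 23), ([0, 0, 0, 0, 0, 0, 1, 0, 0, 0, 1, 0, 0, 1, 0, 0, 0, 0, 0, 0, 0], 11), ([0, 0, 0, 0, 0, 0, 1, 0, 0, 1, 0, 0, 0, 0, 0, 0, 0, 0, 0, 1, 1], 139), ([0, 0, 0, 0, 0, 0, 1, 0, 0, 1, 0, 0, 0, 0, 0, 0, 0, 0, 1, 0, 0], 155), ([0, 0, 0, 0, 0, 0, 1, 0, 0, 1, 0, 0, 0, 0, 0, 0, 0, 0, 1, 0, 1], 123), ([0, 0, 0, 0, 0, 0, 1, 0, 0, 1, 0, 0, 0, 0, 0, 0, 0, 0, 1, 1, 0], 107), ([0, 0, 0, 0, 0, 0, 1, 0, 0, 1, 0, 0, 0, 0, 0, 0, 0, 0, 2, 0, 0], 91), ([0, 0, 0, 0, 0, 0, 1, 0, 0, 1, 0, 0, 0, 0, 0, 0, 0, 1, 0, 0, 0], 139), ([0, 0, 0, 0, 0, 0, 1, 0, 0, 1, 0, 0, 0, 0, 0, 0, 0, 1, 0, 0, 1], 107), ([0, 0, 0, 0, 0, 0, 1, 0, 0, 1, 0, 0, 0, 0, 0,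 0, 0, 1, 0, 1, 0], 91), ([0, 0, 0, 0, 0, 0, 1, 0, 0, 1, 0, 0, 0, 0, 0, 0, 0, 1, 1, 0, 0], 75), ([0, 0, 0, 0, 0, 0, 1, 0, 0, 1, 0, 0, 0, 0, 0, 0, 1, 0, 0, 0, 0], 123), ([0, 0, 0, 0, 0, 0, 1, 0, 0, 1, 0, 0, 0, 0, 0, 0, 1, 0, 0, 0, 1], 91), ([0, 0, 0, 0, 0, 0, 1, 0, 0, 1, 0, 0, 0, 0, 0, 0, 1, 0, 0, 1, 0], 75), ([0, 0, 0, 0, 0, 0, 1, 0, 0, 1, 0, 0, 0, 0, 0, 0, 1, 0, 1, 0, 0], 59), ([0, 0, 0, 0, 0, 0, 1, 0, 0, 1, 0, 0, 0, 0, 0, 0, 1, 1, 0, 0, 0], 43), ([0, 0, 0, 0, 0, 0, 1, 0, 0, 1, 0, 0, 0, 0, 0, 0, 2, 0, 0, 0, 0], 27), ([0, 0, 0, 0, 0, 0, 1, 0, 0, 1, 0, 0, 0, 0, 0, 1, 0, 0, 0, 0, 0], 21), ([0, 0, 0, 0, 0, 0, 1, 0, 0, 1, 0, 0, 0, 0, 1, 0, 0, 0, 0, 0, 0], 15), ([0, 0, 0, 0, 0, 0, 1, 0, 0,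 1, 0, 0, 0, 1, 0, 0, 0, 0, 0, 0, 0], 3), ([0, 0, 0, 0, 0, 0, 1, 0, 1, 0, 0, 0, 0, 0, 0, 0, 0, 0, 0, 1, 0], 159), ([0, 0, 0, 0, 0, 0, 1, 0, 1, 0, 0, 0, 0, 0, 0, 0, 0, 0, 0, 1, 1], 127), ([0, 0, 0, 0, 0, 0, 1, 0, 1, 0, 0, 0, 0, 0, 0, 0, 0, 0, 1, 0, 0], 143), ([0, 0, 0, 0, 0, 0, 1, 0, 1, 0, 0, 0, 0, 0, 0, 0, 0, 0, 1, 0, 1], 111), ([0, 0, 0, 0, 0, 0, 1, 0, 1, 0, 0, 0, 0, 0, 0, 0, 0, 0, 1, 1, 0], 95), ([0, 0, 0, 0, 0, 0, 1, 0, 1, 0, 0, 0, 0, 0, 0, 0, 0, 0, 2, 0, 0], 79), ([0, 0, 0, 0, 0, 0, 1, 0, 1, 0, 0, 0, 0, 0, 0, 0, 0, 1, 0, 0, 0], 127), ([0, 0, 0, 0, 0, 0, 1, 0, 1, 0, 0, 0, 0, 0, 0, 0, 0, 1, 0, 0, 1], 95), ([0, 0, 0, 0, 0, 0, 1, 0, 1, 0, 0, 0, 0, 0, 0, 0, 0, 1, 0, 1, 0], 79), ([0, 0,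 0, 0, 0, 0, 1, 0, 1, 0, 0, 0, 0, 0, 0, 0, 0, 1, 1, 0, 0], 63), ([0, 0, 0, 0, 0, 0, 1, 0, 1, 0, 0, 0, 0, 0, 0, 0, 1, 0, 0, 0, 0], 111), ([0, 0, 0, 0, 0, 0, 1, 0, 1, 0, 0, 0, 0, 0, 0, 0, 1, 0, 0, 0, 1], 79), ([0, 0, 0, 0, 0, 0, 1, 0, 1, 0, 0, 0, 0, 0, 0, 0, 1, 0, 0, 1, 0], 63), ([0, 0, 0, 0, 0, 0, 1, 0, 1, 0, 0, 0, 0, 0, 0, 0, 1, 0, 1, 0, 0], 47), ([0, 0, 0, 0, 0, 0, 1, 0, 1, 0, 0, 0, 0, 0, 0, 0, 1, 1, 0, 0, 0], 31), ([0, 0, 0, 0, 0, 0, 1, 0, 1, 0, 0, 0, 0, 0, 0, 0, 2, 0, 0, 0, 0], 15), ([0, 0, 0, 0, 0, 0, 1, 0, 1, 0, 0, 0, 0, 0, 0, 1, 0, 0, 0, 0, 0], 9), ([0, 0, 0, 0, 0, 0, 1, 0, 1, 0, 0, 0, 0, 0, 1, 0, 0, 0, 0, 0, 0], 3), ([0, 0, 0, 0, 0, 0, 1, 1, 0, 0, 0, 0, 0, 0, 0, 0, 0, 0, 0, 1,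 0], 153), ([0, 0, 0, 0, 0, 0, 1, 1, 0, 0, 0, 0, 0, 0, 0, 0, 0, 0, 0, 1, 1], 121), ([0, 0, 0, 0, 0, 0, 1, 1, 0, 0, 0, 0, 0, 0, 0, 0, 0, 0, 1, 0, 0], 137), ([0, 0, 0, 0, 0, 0, 1, 1, 0, 0, 0, 0, 0, 0, 0, 0, 0, 0, 1, 0, 1], 105), ([0, 0, 0, 0, 0, 0, 1, 1, 0, 0, 0, 0, 0, 0, 0, 0, 0, 0, 1, 1, 0], 89), ([0, 0, 0, 0, 0, 0, 1, 1, 0, 0, 0, 0, 0, 0, 0, 0, 0, 0, 2, 0, 0], 73), ([0, 0, 0, 0, 0, 0, 1, 1, 0, 0, 0, 0, 0, 0, 0, 0, 0, 1, 0, 0, 0], 121), ([0, 0, 0, 0, 0, 0, 1, 1, 0, 0, 0, 0, 0, 0, 0, 0, 0, 1, 0, 0, 1], 89), ([0, 0, 0, 0, 0, 0, 1, 1, 0, 0, 0, 0, 0, 0, 0, 0, 0, 1, 0, 1, 0], 73), ([0, 0, 0, 0, 0, 0, 1, 1, 0, 0, 0, 0, 0, 0, 0, 0, 0, 1, 1, 0, 0], 57), ([0, 0, 0, 0, 0, 0, 1, 1, 0, 0, 0, 0, 0,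 0, 0, 0, 1, 0, 0, 0, 0], 105), ([0, 0, 0, 0, 0, 0, 1, 1, 0, 0, 0, 0, 0, 0, 0, 0, 1, 0, 0, 0, 1], 73), ([0, 0, 0, 0, 0, 0, 1, 1, 0, 0, 0, 0, 0, 0, 0, 0, 1, 0, 0, 1, 0], 57), ([0, 0, 0, 0, 0, 0, 1, 1, 0, 0, 0, 0, 0, 0, 0, 0, 1, 0, 1, 0, 0], 41), ([0, 0, 0, 0, 0, 0, 1, 1, 0, 0, 0, 0, 0, 0, 0, 0, 1, 1, 0, 0, 0], 25), ([0, 0, 0, 0, 0, 0, 1, 1, 0, 0, 0, 0, 0, 0, 0, 0, 2, 0, 0, 0, 0], 9), ([0, 0, 0, 0, 0, 0, 1, 1, 0, 0, 0, 0, 0, 0, 0, 1, 0, 0, 0, 0, 0], 3)], [([0, 0, 0, 0, 0, 0, 0, 1, 0, 0, 0, 0, 0, 0, 0, 0, 1, 1, 2, 0, 1], 150), ([0, 0, 0, 0, 0, 0, 0, 1, 0, 0, 0, 0, 0, 0, 0, 0, 1, 1, 2, 1, 0], 134), ([0, 0, 0, 0, 0, 0, 0, 1, 0, 0, 0, 0, 0, 0, 0, 0, 2, 0, 1, 1, 1], 150), ([0, 0, 0, 0, 0, 0,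 0, 1, 0, 0, 0, 0, 0, 0, 0, 0, 2, 0, 2, 0, 1], 134), ([0, 0, 0, 0, 0, 0, 0, 1, 0, 0, 0, 0, 0, 0, 0, 0, 2, 0, 2, 1, 0], 118), ([0, 0, 0, 0, 0, 0, 0, 1, 0, 0, 0, 0, 0, 0, 0, 0, 2, 1, 0, 1, 1], 134), ([0, 0, 0, 0, 0, 0, 0, 1, 0, 0, 0, 0, 0, 0, 0, 0, 2, 1, 1, 0, 0], 150), ([0, 0, 0, 0, 0, 0, 0, 1, 0, 0, 0, 0, 0, 0, 0, 0, 2, 1, 1, 0, 1], 118), ([0, 0, 0, 0, 0, 0, 0, 1, 0, 0, 0, 0, 0, 0, 0, 0, 2, 1, 1, 1, 0], 102), ([0, 0, 0, 0, 0, 0, 0, 1, 0, 0, 0, 0, 0, 0, 0, 0, 2, 1, 2, 0, 0], 86), ([0, 0, 0, 0, 0, 0, 0, 1, 0, 0, 0, 0, 0, 0, 0, 0, 3, 0, 0, 1, 0], 150), ([0, 0, 0, 0, 0, 0, 0, 1, 0, 0, 0, 0, 0, 0, 0, 0, 3, 0, 0, 1, 1], 118), ([0, 0, 0, 0, 0, 0, 0, 1, 0, 0, 0, 0, 0, 0, 0, 0, 3, 0, 1, 0, 0],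 134), ([0, 0, 0, 0, 0, 0, 0, 1, 0, 0, 0, 0, 0, 0, 0, 0, 3, 0, 1, 0, 1], 102), ([0, 0, 0, 0, 0, 0, 0, 1, 0, 0, 0, 0, 0, 0, 0, 0, 3, 0, 1, 1, 0], 86), ([0, 0, 0, 0, 0, 0, 0, 1, 0, 0, 0, 0, 0, 0, 0, 0, 3, 0, 2, 0, 0], 70), ([0, 0, 0, 0, 0, 0, 0, 1, 0, 0, 0, 0, 0, 0, 0, 0, 3, 1, 0, 0, 0], 118), ([0, 0, 0, 0, 0, 0, 0, 1, 0, 0, 0, 0, 0, 0, 0, 0, 3, 1, 0, 0, 1], 86), ([0, 0, 0, 0, 0, 0, 0, 1, 0, 0, 0, 0, 0, 0, 0, 0, 3, 1, 0, 1, 0], 70), ([0, 0, 0, 0, 0, 0, 0, 1, 0, 0, 0, 0, 0, 0, 0, 0, 3, 1, 1, 0, 0], 54), ([0, 0, 0, 0, 0, 0, 0, 1, 0, 0, 0, 0, 0, 0, 0, 0, 4, 0, 0, 0, 0], 102), ([0, 0, 0, 0, 0, 0, 0, 1, 0, 0, 0, 0, 0, 0, 0, 0, 4, 0, 0, 0, 1], 70), ([0, 0, 0, 0, 0, 0, 0, 1, 0, 0, 0, 0, 0, 0,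 0, 0, 4, 0, 0, 1, 0], 54), ([0, 0, 0, 0, 0, 0, 0, 1, 0, 0, 0, 0, 0, 0, 0, 0, 4, 0, 1, 0, 0], 38), ([0, 0, 0, 0, 0, 0, 0, 1, 0, 0, 0, 0, 0, 0, 0, 0, 4, 1, 0, 0, 0], 22), ([0, 0, 0, 0, 0, 0, 0, 1, 0, 0, 0, 0, 0, 0, 0, 1, 0, 0, 2, 0, 0], 160), ([0, 0, 0, 0, 0, 0, 0, 1, 0, 0, 0, 0, 0, 0, 0, 1, 0, 1, 0, 1, 0], 160), ([0, 0, 0, 0, 0, 0, 0, 1, 0, 0, 0, 0, 0, 0, 0, 1, 0, 1, 1, 0, 0], 144), ([0, 0, 0, 0, 0, 0, 0, 1, 0, 0, 0, 0, 0, 0, 0, 1, 1, 0, 0, 0, 1], 160), ([0, 0, 0, 0, 0, 0, 0, 1, 0, 0, 0, 0, 0, 0, 0, 1, 1, 0, 0, 1, 0], 144), ([0, 0, 0, 0, 0, 0, 0, 1, 0, 0, 0, 0, 0, 0, 0, 1, 1, 0, 1, 0, 0], 128), ([0, 0, 0, 0, 0, 0, 0, 1, 0, 0, 0, 0, 0, 0, 0, 1, 1, 1, 0, 0, 0], 112), ([0, 0, 0, 0, 0, 0,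 0, 1, 0, 0, 0, 0, 0, 0, 0, 1, 2, 0, 0, 0, 0], 96), ([0, 0, 0, 0, 0, 0, 0, 1, 0, 0, 0, 0, 0, 0, 1, 0, 0, 0, 2, 0, 0], 154), ([0, 0, 0, 0, 0, 0, 0, 1, 0, 0, 0, 0, 0, 0, 1, 0, 0, 1, 0, 1, 0], 154), ([0, 0, 0, 0, 0, 0, 0, 1, 0, 0, 0, 0, 0, 0, 1, 0, 0, 1, 1, 0, 0], 138), ([0, 0, 0, 0, 0, 0, 0, 1, 0, 0, 0, 0, 0, 0, 1, 0, 1, 0, 0, 0, 1], 154), ([0, 0, 0, 0, 0, 0, 0, 1, 0, 0, 0, 0, 0, 0, 1, 0, 1, 0, 0, 1, 0], 138), ([0, 0, 0, 0, 0, 0, 0, 1, 0, 0, 0, 0, 0, 0, 1, 0, 1, 0, 1, 0, 0], 122), ([0, 0, 0, 0, 0, 0, 0, 1, 0, 0, 0, 0, 0, 0, 1, 0, 1, 1, 0, 0, 0], 106), ([0, 0, 0, 0, 0, 0, 0, 1, 0, 0, 0, 0, 0, 0, 1, 0, 2, 0, 0, 0, 0], 90), ([0, 0, 0, 0, 0, 0, 0, 1, 0, 0, 0, 0, 0, 0, 1, 1, 0, 0, 0, 0, 0],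 84), ([0, 0, 0, 0, 0, 0, 0, 1, 0, 0, 0, 0, 0, 1, 0, 0, 0, 0, 1, 1, 0], 158), ([0, 0, 0, 0, 0, 0, 0, 1, 0, 0, 0, 0, 0, 1, 0, 0, 0, 0, 2, 0, 0], 142), ([0, 0, 0, 0, 0, 0, 0, 1, 0, 0, 0, 0, 0, 1, 0, 0, 0, 1, 0, 0, 1], 158), ([0, 0, 0, 0, 0, 0, 0, 1, 0, 0, 0, 0, 0, 1, 0, 0, 0, 1, 0, 1, 0], 142), ([0, 0, 0, 0, 0, 0, 0, 1, 0, 0, 0, 0, 0, 1, 0, 0, 0, 1, 1, 0, 0], 126), ([0, 0, 0, 0, 0, 0, 0, 1, 0, 0, 0, 0, 0, 1, 0, 0, 1, 0, 0, 0, 1], 142), ([0, 0, 0, 0, 0, 0, 0, 1, 0, 0, 0, 0, 0, 1, 0, 0, 1, 0, 0, 1, 0], 126), ([0, 0, 0, 0, 0, 0, 0, 1, 0, 0, 0, 0, 0, 1, 0, 0, 1, 0, 1, 0, 0], 110), ([0, 0, 0, 0, 0, 0, 0, 1, 0, 0, 0, 0, 0, 1, 0, 0, 1, 1, 0, 0, 0], 94), ([0, 0, 0, 0, 0, 0, 0, 1, 0, 0, 0, 0, 0,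 1, 0, 0, 2, 0, 0, 0, 0], 78), ([0, 0, 0, 0, 0, 0, 0, 1, 0, 0, 0, 0, 0, 1, 0, 1, 0, 0, 0, 0, 0], 72), ([0, 0, 0, 0, 0, 0, 0, 1, 0, 0, 0, 0, 0, 1, 1, 0, 0, 0, 0, 0, 0], 66), ([0, 0, 0, 0, 0, 0, 0, 1, 0, 0, 0, 0, 1, 0, 0, 0, 0, 0, 1, 0, 1], 150), ([0, 0, 0, 0, 0, 0, 0, 1, 0, 0, 0, 0, 1, 0, 0, 0, 0, 0, 1, 1, 0], 134), ([0, 0, 0, 0, 0, 0, 0, 1, 0, 0, 0, 0, 1, 0, 0, 0, 0, 0, 2, 0, 0], 118), ([0, 0, 0, 0, 0, 0, 0, 1, 0, 0, 0, 0, 1, 0, 0, 0, 0, 1, 0, 0, 1], 134), ([0, 0, 0, 0, 0, 0, 0, 1, 0, 0, 0, 0, 1, 0, 0, 0, 0, 1, 0, 1, 0], 118), ([0, 0, 0, 0, 0, 0, 0, 1, 0, 0, 0, 0, 1, 0, 0, 0, 0, 1, 1, 0, 0], 102), ([0, 0, 0, 0, 0, 0, 0, 1, 0, 0, 0, 0, 1, 0, 0, 0, 1, 0, 0, 0, 0], 150), ([0, 0, 0, 0, 0,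 0, 0, 1, 0, 0, 0, 0, 1, 0, 0, 0, 1, 0, 0, 0, 1], 118), ([0, 0, 0, 0, 0, 0, 0, 1, 0, 0, 0, 0, 1, 0, 0, 0, 1, 0, 0, 1, 0], 102), ([0, 0, 0, 0, 0, 0, 0, 1, 0, 0, 0, 0, 1, 0, 0, 0, 1, 0, 1, 0, 0], 86), ([0, 0, 0, 0, 0, 0, 0, 1, 0, 0, 0, 0, 1, 0, 0, 0, 1, 1, 0, 0, 0], 70), ([0, 0, 0, 0, 0, 0, 0, 1, 0, 0, 0, 0, 1, 0, 0, 0, 2, 0, 0, 0, 0], 54), ([0, 0, 0, 0, 0, 0, 0, 1, 0, 0, 0, 0, 1, 0, 0, 1, 0, 0, 0, 0, 0], 48), ([0, 0, 0, 0, 0, 0, 0, 1, 0, 0, 0, 0, 1, 0, 1, 0, 0, 0, 0, 0, 0], 42), ([0, 0, 0, 0, 0, 0, 0, 1, 0, 0, 0, 0, 1, 1, 0, 0, 0, 0, 0, 0, 0], 30), ([0, 0, 0, 0, 0, 0, 0, 1, 0, 0, 0, 0, 2, 0, 0, 0, 0, 0, 0, 0, 0], 6), ([0, 0, 0, 0, 0, 0, 0, 1, 0, 0, 0, 1, 0, 0, 0, 0, 0, 0, 0, 1, 1], 154),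 ([0, 0, 0, 0, 0, 0, 0, 1, 0, 0, 0, 1, 0, 0, 0, 0, 0, 0, 1, 0, 1], 138), ([0, 0, 0, 0, 0, 0, 0, 1, 0, 0, 0, 1, 0, 0, 0, 0, 0, 0, 1, 1, 0], 122), ([0, 0, 0, 0, 0, 0, 0, 1, 0, 0, 0, 1, 0, 0, 0, 0, 0, 0, 2, 0, 0], 106), ([0, 0, 0, 0, 0, 0, 0, 1, 0, 0, 0, 1, 0, 0, 0, 0, 0, 1, 0, 0, 0], 154), ([0, 0, 0, 0, 0, 0, 0, 1, 0, 0, 0, 1, 0, 0, 0, 0, 0, 1, 0, 0, 1], 122), ([0, 0, 0, 0, 0, 0, 0, 1, 0, 0, 0, 1, 0, 0, 0, 0, 0, 1, 0, 1, 0], 106), ([0, 0, 0, 0, 0, 0, 0, 1, 0, 0, 0, 1, 0, 0, 0, 0, 0, 1, 1, 0, 0], 90), ([0, 0, 0, 0, 0, 0, 0, 1, 0, 0, 0, 1, 0, 0, 0, 0, 1, 0, 0, 0, 0], 138), ([0, 0, 0, 0, 0, 0, 0, 1, 0, 0, 0, 1, 0, 0, 0, 0, 1, 0, 0, 0, 1], 106), ([0, 0, 0, 0, 0, 0, 0, 1, 0, 0, 0, 1, 0, 0, 0,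 0, 1, 0, 0, 1, 0], 90), ([0, 0, 0, 0, 0, 0, 0, 1, 0, 0, 0, 1, 0, 0, 0, 0, 1, 0, 1, 0, 0], 74), ([0, 0, 0, 0, 0, 0, 0, 1, 0, 0, 0, 1, 0, 0, 0, 0, 1, 1, 0, 0, 0], 58), ([0, 0, 0, 0, 0, 0, 0, 1, 0, 0, 0, 1, 0, 0, 0, 0, 2, 0, 0, 0, 0], 42), ([0, 0, 0, 0, 0, 0, 0, 1, 0, 0, 0, 1, 0, 0, 0, 1, 0, 0, 0, 0, 0], 36), ([0, 0, 0, 0, 0, 0, 0, 1, 0, 0, 0, 1, 0, 0, 1, 0, 0, 0, 0, 0, 0], 30), ([0, 0, 0, 0, 0, 0, 0, 1, 0, 0, 0, 1, 0, 1, 0, 0, 0, 0, 0, 0, 0], 18), ([0, 0, 0, 0, 0, 0, 0, 1, 0, 0, 1, 0, 0, 0, 0, 0, 0, 0, 0, 1, 1], 150), ([0, 0, 0, 0, 0, 0, 0, 1, 0, 0, 1, 0, 0, 0, 0, 0, 0, 0, 1, 0, 1], 134), ([0, 0, 0, 0, 0, 0, 0, 1, 0, 0, 1, 0, 0, 0, 0, 0, 0, 0, 1, 1, 0], 118), ([0, 0, 0, 0, 0, 0, 0, 1,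 0, 0, 1, 0, 0, 0, 0, 0, 0, 0, 2, 0, 0], 102), ([0, 0, 0, 0, 0, 0, 0, 1, 0, 0, 1, 0, 0, 0, 0, 0, 0, 1, 0, 0, 0], 150), ([0, 0, 0, 0, 0, 0, 0, 1, 0, 0, 1, 0, 0, 0, 0, 0, 0, 1, 0, 0, 1], 118), ([0, 0, 0, 0, 0, 0, 0, 1, 0, 0, 1, 0, 0, 0, 0, 0, 0, 1, 0, 1, 0], 102), ([0, 0, 0, 0, 0, 0, 0, 1, 0, 0, 1, 0, 0, 0, 0, 0, 0, 1, 1, 0, 0], 86), ([0, 0, 0, 0, 0, 0, 0, 1, 0, 0, 1, 0, 0, 0, 0, 0, 1, 0, 0, 0, 0], 134), ([0, 0, 0, 0, 0, 0, 0, 1, 0, 0, 1, 0, 0, 0, 0, 0, 1, 0, 0, 0, 1], 102), ([0, 0, 0, 0, 0, 0, 0, 1, 0, 0, 1, 0, 0, 0, 0, 0, 1, 0, 0, 1, 0], 86), ([0, 0, 0, 0, 0, 0, 0, 1, 0, 0, 1, 0, 0, 0, 0, 0, 1, 0, 1, 0, 0], 70), ([0, 0, 0, 0, 0, 0, 0, 1, 0, 0, 1, 0, 0, 0, 0, 0, 1, 1, 0, 0, 0], 54), ([0,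 0, 0, 0, 0, 0, 0, 1, 0, 0, 1, 0, 0, 0, 0, 0, 2, 0, 0, 0, 0], 38), ([0, 0, 0, 0, 0, 0, 0, 1, 0, 0, 1, 0, 0, 0, 0, 1, 0, 0, 0, 0, 0], 32), ([0, 0, 0, 0, 0, 0, 0, 1, 0, 0, 1, 0, 0, 0, 1, 0, 0, 0, 0, 0, 0], 26), ([0, 0, 0, 0, 0, 0, 0, 1, 0, 0, 1, 0, 0, 1, 0, 0, 0, 0, 0, 0, 0], 14), ([0, 0, 0, 0, 0, 0, 0, 1, 0, 1, 0, 0, 0, 0, 0, 0, 0, 0, 0, 1, 1], 142), ([0, 0, 0, 0, 0, 0, 0, 1, 0, 1, 0, 0, 0, 0, 0, 0, 0, 0, 1, 0, 0], 158), ([0, 0, 0, 0, 0, 0, 0, 1, 0, 1, 0, 0, 0, 0, 0, 0, 0, 0, 1, 0, 1], 126), ([0, 0, 0, 0, 0, 0, 0, 1, 0, 1, 0, 0, 0, 0, 0, 0, 0, 0, 1, 1, 0], 110), ([0, 0, 0, 0, 0, 0, 0, 1, 0, 1, 0, 0, 0, 0, 0, 0, 0, 0, 2, 0, 0], 94), ([0, 0, 0, 0, 0, 0, 0, 1, 0, 1, 0, 0, 0, 0, 0, 0, 0, 1,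 0, 0, 0], 142), ([0, 0, 0, 0, 0, 0, 0, 1, 0, 1, 0, 0, 0, 0, 0, 0, 0, 1, 0, 0, 1], 110), ([0, 0, 0, 0, 0, 0, 0, 1, 0, 1, 0, 0, 0, 0, 0, 0, 0, 1, 0, 1, 0], 94), ([0, 0, 0, 0, 0, 0, 0, 1, 0, 1, 0, 0, 0, 0, 0, 0, 0, 1, 1, 0, 0], 78), ([0, 0, 0, 0, 0, 0, 0, 1, 0, 1, 0, 0, 0, 0, 0, 0, 1, 0, 0, 0, 0], 126), ([0, 0, 0, 0, 0, 0, 0, 1, 0, 1, 0, 0, 0, 0, 0, 0, 1, 0, 0, 0, 1], 94), ([0, 0, 0, 0, 0, 0, 0, 1, 0, 1, 0, 0, 0, 0, 0, 0, 1, 0, 0, 1, 0], 78), ([0, 0, 0, 0, 0, 0, 0, 1, 0, 1, 0, 0, 0, 0, 0, 0, 1, 0, 1, 0, 0], 62), ([0, 0, 0, 0, 0, 0, 0, 1, 0, 1, 0, 0, 0, 0, 0, 0, 1, 1, 0, 0, 0], 46), ([0, 0, 0, 0, 0, 0, 0, 1, 0, 1, 0, 0, 0, 0, 0, 0, 2, 0, 0, 0, 0], 30), ([0, 0, 0, 0, 0, 0, 0, 1, 0, 1, 0,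 0, 0, 0, 0, 1, 0, 0, 0, 0, 0], 24), ([0, 0, 0, 0, 0, 0, 0, 1, 0, 1, 0, 0, 0, 0, 1, 0, 0, 0, 0, 0, 0], 18), ([0, 0, 0, 0, 0, 0, 0, 1, 0, 1, 0, 0, 0, 1, 0, 0, 0, 0, 0, 0, 0], 6), ([0, 0, 0, 0, 0, 0, 0, 1, 1, 0, 0, 0, 0, 0, 0, 0, 0, 0, 0, 1, 1], 130), ([0, 0, 0, 0, 0, 0, 0, 1, 1, 0, 0, 0, 0, 0, 0, 0, 0, 0, 1, 0, 0], 146), ([0, 0, 0, 0, 0, 0, 0, 1, 1, 0, 0, 0, 0, 0, 0, 0, 0, 0, 1, 0, 1], 114), ([0, 0, 0, 0, 0, 0, 0, 1, 1, 0, 0, 0, 0, 0, 0, 0, 0, 0, 1, 1, 0], 98), ([0, 0, 0, 0, 0, 0, 0, 1, 1, 0, 0, 0, 0, 0, 0, 0, 0, 0, 2, 0, 0], 82), ([0, 0, 0, 0, 0, 0, 0, 1, 1, 0, 0, 0, 0, 0, 0, 0, 0, 1, 0, 0, 0], 130), ([0, 0, 0, 0, 0, 0, 0, 1, 1, 0, 0, 0, 0, 0, 0, 0, 0, 1, 0, 0, 1], 98), ([0, 0, 0, 0,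 0, 0, 0, 1, 1, 0, 0, 0, 0, 0, 0, 0, 0, 1, 0, 1, 0], 82), ([0, 0, 0, 0, 0, 0, 0, 1, 1, 0, 0, 0, 0, 0, 0, 0, 0, 1, 1, 0, 0], 66), ([0, 0, 0, 0, 0, 0, 0, 1, 1, 0, 0, 0, 0, 0, 0, 0, 1, 0, 0, 0, 0], 114), ([0, 0, 0, 0, 0, 0, 0, 1, 1, 0, 0, 0, 0, 0, 0, 0, 1, 0, 0, 0, 1], 82), ([0, 0, 0, 0, 0, 0, 0, 1, 1, 0, 0, 0, 0, 0, 0, 0, 1, 0, 0, 1, 0], 66), ([0, 0, 0, 0, 0, 0, 0, 1, 1, 0, 0, 0, 0, 0, 0, 0, 1, 0, 1, 0, 0], 50), ([0, 0, 0, 0, 0, 0, 0, 1, 1, 0, 0, 0, 0, 0, 0, 0, 1, 1, 0, 0, 0], 34), ([0, 0, 0, 0, 0, 0, 0, 1, 1, 0, 0, 0, 0, 0, 0, 0, 2, 0, 0, 0, 0], 18), ([0, 0, 0, 0, 0, 0, 0, 1, 1, 0, 0, 0, 0, 0, 0, 1, 0, 0, 0, 0, 0], 12), ([0, 0, 0, 0, 0, 0, 0, 1, 1, 0, 0, 0, 0, 0, 1, 0, 0, 0, 0, 0, 0],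 6), ([0, 0, 0, 0, 0, 0, 0, 2, 0, 0, 0, 0, 0, 0, 0, 0, 0, 0, 0, 1, 0], 156), ([0, 0, 0, 0, 0, 0, 0, 2, 0, 0, 0, 0, 0, 0, 0, 0, 0, 0, 0, 1, 1], 124), ([0, 0, 0, 0, 0, 0, 0, 2, 0, 0, 0, 0, 0, 0, 0, 0, 0, 0, 1, 0, 0], 140), ([0, 0, 0, 0, 0, 0, 0, 2, 0, 0, 0, 0, 0, 0, 0, 0, 0, 0, 1, 0, 1], 108), ([0, 0, 0, 0, 0, 0, 0, 2, 0, 0, 0, 0, 0, 0, 0, 0, 0, 0, 1, 1, 0], 92), ([0, 0, 0, 0, 0, 0, 0, 2, 0, 0, 0, 0, 0, 0, 0, 0, 0, 0, 2, 0, 0], 76), ([0, 0, 0, 0, 0, 0, 0, 2, 0, 0, 0, 0, 0, 0, 0, 0, 0, 1, 0, 0, 0], 124), ([0, 0, 0, 0, 0, 0, 0, 2, 0, 0, 0, 0, 0, 0, 0, 0, 0, 1, 0, 0, 1], 92), ([0, 0, 0, 0, 0, 0, 0, 2, 0, 0, 0, 0, 0, 0, 0, 0, 0, 1, 0, 1, 0], 76), ([0, 0, 0, 0, 0, 0, 0, 2, 0, 0, 0, 0, 0, 0,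 0, 0, 0, 1, 1, 0, 0], 60), ([0, 0, 0, 0, 0, 0, 0, 2, 0, 0, 0, 0, 0, 0, 0, 0, 1, 0, 0, 0, 0], 108), ([0, 0, 0, 0, 0, 0, 0, 2, 0, 0, 0, 0, 0, 0, 0, 0, 1, 0, 0, 0, 1], 76), ([0, 0, 0, 0, 0, 0, 0, 2, 0, 0, 0, 0, 0, 0, 0, 0, 1, 0, 0, 1, 0], 60), ([0, 0, 0, 0, 0, 0, 0, 2, 0, 0, 0, 0, 0, 0, 0, 0, 1, 0, 1, 0, 0], 44), ([0, 0, 0, 0, 0, 0, 0, 2, 0, 0, 0, 0, 0, 0, 0, 0, 1, 1, 0, 0, 0], 28), ([0, 0, 0, 0, 0, 0, 0, 2, 0, 0, 0, 0, 0, 0, 0, 0, 2, 0, 0, 0, 0], 12), ([0, 0, 0, 0, 0, 0, 0, 2, 0, 0, 0, 0, 0, 0, 0, 1, 0, 0, 0, 0, 0], 6), ([0, 0, 0, 0, 0, 0, 0, 2, 0, 0, 0, 0, 0, 0, 1, 0, 0, 0, 0, 0, 0], 0)], [([0, 0, 0, 0, 0, 0, 0, 0, 1, 0, 0, 0, 0, 0, 0, 0, 1, 1, 2, 0, 1], 156), ([0, 0, 0, 0, 0, 0, 0, 0,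 1, 0, 0, 0, 0, 0, 0, 0, 1, 1, 2, 1, 0], 140), ([0, 0, 0, 0, 0, 0, 0, 0, 1, 0, 0, 0, 0, 0, 0, 0, 2, 0, 1, 1, 1], 156), ([0, 0, 0, 0, 0, 0, 0, 0, 1, 0, 0, 0, 0, 0, 0, 0, 2, 0, 2, 0, 1], 140), ([0, 0, 0, 0, 0, 0, 0, 0, 1, 0, 0, 0, 0, 0, 0, 0, 2, 0, 2, 1, 0], 124), ([0, 0, 0, 0, 0, 0, 0, 0, 1, 0, 0, 0, 0, 0, 0, 0, 2, 1, 0, 1, 1], 140), ([0, 0, 0, 0, 0, 0, 0, 0, 1, 0, 0, 0, 0, 0, 0, 0, 2, 1, 1, 0, 0], 156), ([0, 0, 0, 0, 0, 0, 0, 0, 1, 0, 0, 0, 0, 0, 0, 0, 2, 1, 1, 0, 1], 124), ([0, 0, 0, 0, 0, 0, 0, 0, 1, 0, 0, 0, 0, 0, 0, 0, 2, 1, 1, 1, 0], 108), ([0, 0, 0, 0, 0, 0, 0, 0, 1, 0, 0, 0, 0, 0, 0, 0, 2, 1, 2, 0, 0], 92), ([0, 0, 0, 0, 0, 0, 0, 0, 1, 0, 0, 0, 0, 0, 0, 0, 3, 0, 0, 1, 0], 156),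 ([0, 0, 0, 0, 0, 0, 0, 0, 1, 0, 0, 0, 0, 0, 0, 0, 3, 0, 0, 1, 1], 124), ([0, 0, 0, 0, 0, 0, 0, 0, 1, 0, 0, 0, 0, 0, 0, 0, 3, 0, 1, 0, 0], 140), ([0, 0, 0, 0, 0, 0, 0, 0, 1, 0, 0, 0, 0, 0, 0, 0, 3, 0, 1, 0, 1], 108), ([0, 0, 0, 0, 0, 0, 0, 0, 1, 0, 0, 0, 0, 0, 0, 0, 3, 0, 1, 1, 0], 92), ([0, 0, 0, 0, 0, 0, 0, 0, 1, 0, 0, 0, 0, 0, 0, 0, 3, 0, 2, 0, 0], 76), ([0, 0, 0, 0, 0, 0, 0, 0, 1, 0, 0, 0, 0, 0, 0, 0, 3, 1, 0, 0, 0], 124), ([0, 0, 0, 0, 0, 0, 0, 0, 1, 0, 0, 0, 0, 0, 0, 0, 3, 1, 0, 0, 1], 92), ([0, 0, 0, 0, 0, 0, 0, 0, 1, 0, 0, 0, 0, 0, 0, 0, 3, 1, 0, 1, 0], 76), ([0, 0, 0, 0, 0, 0, 0, 0, 1, 0, 0, 0, 0, 0, 0, 0, 3, 1, 1, 0, 0], 60), ([0, 0, 0, 0, 0, 0, 0, 0, 1, 0, 0, 0, 0, 0, 0, 0,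 4, 0, 0, 0, 0], 108), ([0, 0, 0, 0, 0, 0, 0, 0, 1, 0, 0, 0, 0, 0, 0, 0, 4, 0, 0, 0, 1], 76), ([0, 0, 0, 0, 0, 0, 0, 0, 1, 0, 0, 0, 0, 0, 0, 0, 4, 0, 0, 1, 0], 60), ([0, 0, 0, 0, 0, 0, 0, 0, 1, 0, 0, 0, 0, 0, 0, 0, 4, 0, 1, 0, 0], 44), ([0, 0, 0, 0, 0, 0, 0, 0, 1, 0, 0, 0, 0, 0, 0, 0, 4, 1, 0, 0, 0], 28), ([0, 0, 0, 0, 0, 0, 0, 0, 1, 0, 0, 0, 0, 0, 0, 1, 0, 1, 1, 0, 0], 150), ([0, 0, 0, 0, 0, 0, 0, 0, 1, 0, 0, 0, 0, 0, 0, 1, 1, 0, 0, 1, 0], 150), ([0, 0, 0, 0, 0, 0, 0, 0, 1, 0, 0, 0, 0, 0, 0, 1, 1, 0, 1, 0, 0], 134), ([0, 0, 0, 0, 0, 0, 0, 0, 1, 0, 0, 0, 0, 0, 0, 1, 1, 1, 0, 0, 0], 118), ([0, 0, 0, 0, 0, 0, 0, 0, 1, 0, 0, 0, 0, 0, 0, 1, 2, 0, 0, 0, 0], 102), ([0, 0, 0, 0, 0, 0, 0, 0,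 1, 0, 0, 0, 0, 0, 1, 0, 0, 0, 2, 0, 0], 160), ([0, 0, 0, 0, 0, 0, 0, 0, 1, 0, 0, 0, 0, 0, 1, 0, 0, 1, 0, 1, 0], 160), ([0, 0, 0, 0, 0, 0, 0, 0, 1, 0, 0, 0, 0, 0, 1, 0, 0, 1, 1, 0, 0], 144), ([0, 0, 0, 0, 0, 0, 0, 0, 1, 0, 0, 0, 0, 0, 1, 0, 1, 0, 0, 0, 1], 160), ([0, 0, 0, 0, 0, 0, 0, 0, 1, 0, 0, 0, 0, 0, 1, 0, 1, 0, 0, 1, 0], 144), ([0, 0, 0, 0, 0, 0, 0, 0, 1, 0, 0, 0, 0, 0, 1, 0, 1, 0, 1, 0, 0], 128), ([0, 0, 0, 0, 0, 0, 0, 0, 1, 0, 0, 0, 0, 0, 1, 0, 1, 1, 0, 0, 0], 112), ([0, 0, 0, 0, 0, 0, 0, 0, 1, 0, 0, 0, 0, 0, 1, 0, 2, 0, 0, 0, 0], 96), ([0, 0, 0, 0, 0, 0, 0, 0, 1, 0, 0, 0, 0, 0, 1, 1, 0, 0, 0, 0, 0], 90), ([0, 0, 0, 0, 0, 0, 0, 0, 1, 0, 0, 0, 0, 1, 0, 0, 0, 0, 2, 0, 0], 148),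 ([0, 0, 0, 0, 0, 0, 0, 0, 1, 0, 0, 0, 0, 1, 0, 0, 0, 1, 0, 1, 0], 148), ([0, 0, 0, 0, 0, 0, 0, 0, 1, 0, 0, 0, 0, 1, 0, 0, 0, 1, 1, 0, 0], 132), ([0, 0, 0, 0, 0, 0, 0, 0, 1, 0, 0, 0, 0, 1, 0, 0, 1, 0, 0, 0, 1], 148), ([0, 0, 0, 0, 0, 0, 0, 0, 1, 0, 0, 0, 0, 1, 0, 0, 1, 0, 0, 1, 0], 132), ([0, 0, 0, 0, 0, 0, 0, 0, 1, 0, 0, 0, 0, 1, 0, 0, 1, 0, 1, 0, 0], 116), ([0, 0, 0, 0, 0, 0, 0, 0, 1, 0, 0, 0, 0, 1, 0, 0, 1, 1, 0, 0, 0], 100), ([0, 0, 0, 0, 0, 0, 0, 0, 1, 0, 0, 0, 0, 1, 0, 0, 2, 0, 0, 0, 0], 84), ([0, 0, 0, 0, 0, 0, 0, 0, 1, 0, 0, 0, 0, 1, 0, 1, 0, 0, 0, 0, 0], 78), ([0, 0, 0, 0, 0, 0, 0, 0, 1, 0, 0, 0, 0, 1, 1, 0, 0, 0, 0, 0, 0], 72), ([0, 0, 0, 0, 0, 0, 0, 0, 1, 0, 0, 0, 1, 0, 0,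 0, 0, 0, 1, 0, 1], 156), ([0, 0, 0, 0, 0, 0, 0, 0, 1, 0, 0, 0, 1, 0, 0, 0, 0, 0, 1, 1, 0], 140), ([0, 0, 0, 0, 0, 0, 0, 0, 1, 0, 0, 0, 1, 0, 0, 0, 0, 0, 2, 0, 0], 124), ([0, 0, 0, 0, 0, 0, 0, 0, 1, 0, 0, 0, 1, 0, 0, 0, 0, 1, 0, 0, 1], 140), ([0, 0, 0, 0, 0, 0, 0, 0, 1, 0, 0, 0, 1, 0, 0, 0, 0, 1, 0, 1, 0], 124), ([0, 0, 0, 0, 0, 0, 0, 0, 1, 0, 0, 0, 1, 0, 0, 0, 0, 1, 1, 0, 0], 108), ([0, 0, 0, 0, 0, 0, 0, 0, 1, 0, 0, 0, 1, 0, 0, 0, 1, 0, 0, 0, 0], 156), ([0, 0, 0, 0, 0, 0, 0, 0, 1, 0, 0, 0, 1, 0, 0, 0, 1, 0, 0, 0, 1], 124), ([0, 0, 0, 0, 0, 0, 0, 0, 1, 0, 0, 0, 1, 0, 0, 0, 1, 0, 0, 1, 0], 108), ([0, 0, 0, 0, 0, 0, 0, 0, 1, 0, 0, 0, 1, 0, 0, 0, 1, 0, 1, 0, 0], 92), ([0, 0, 0, 0, 0, 0,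 0, 0, 1, 0, 0, 0, 1, 0, 0, 0, 1, 1, 0, 0, 0], 76), ([0, 0, 0, 0, 0, 0, 0, 0, 1, 0, 0, 0, 1, 0, 0, 0, 2, 0, 0, 0, 0], 60), ([0, 0, 0, 0, 0, 0, 0, 0, 1, 0, 0, 0, 1, 0, 0, 1, 0, 0, 0, 0, 0], 54), ([0, 0, 0, 0, 0, 0, 0, 0, 1, 0, 0, 0, 1, 0, 1, 0, 0, 0, 0, 0, 0], 48), ([0, 0, 0, 0, 0, 0, 0, 0, 1, 0, 0, 0, 1, 1, 0, 0, 0, 0, 0, 0, 0], 36), ([0, 0, 0, 0, 0, 0, 0, 0, 1, 0, 0, 0, 2, 0, 0, 0, 0, 0, 0, 0, 0], 12), ([0, 0, 0, 0, 0, 0, 0, 0, 1, 0, 0, 1, 0, 0, 0, 0, 0, 0, 0, 1, 1], 160), ([0, 0, 0, 0, 0, 0, 0, 0, 1, 0, 0, 1, 0, 0, 0, 0, 0, 0, 1, 0, 1], 144), ([0, 0, 0, 0, 0, 0, 0, 0, 1, 0, 0, 1, 0, 0, 0, 0, 0, 0, 1, 1, 0], 128), ([0, 0, 0, 0, 0, 0, 0, 0, 1, 0, 0, 1, 0, 0, 0, 0, 0, 0, 2, 0, 0], 112),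 ([0, 0, 0, 0, 0, 0, 0, 0, 1, 0, 0, 1, 0, 0, 0, 0, 0, 1, 0, 0, 0], 160), ([0, 0, 0, 0, 0, 0, 0, 0, 1, 0, 0, 1, 0, 0, 0, 0, 0, 1, 0, 0, 1], 128), ([0, 0, 0, 0, 0, 0, 0, 0, 1, 0, 0, 1, 0, 0, 0, 0, 0, 1, 0, 1, 0], 112), ([0, 0, 0, 0, 0, 0, 0, 0, 1, 0, 0, 1, 0, 0, 0, 0, 0, 1, 1, 0, 0], 96), ([0, 0, 0, 0, 0, 0, 0, 0, 1, 0, 0, 1, 0, 0, 0, 0, 1, 0, 0, 0, 0], 144), ([0, 0, 0, 0, 0, 0, 0, 0, 1, 0, 0, 1, 0, 0, 0, 0, 1, 0, 0, 0, 1], 112), ([0, 0, 0, 0, 0, 0, 0, 0, 1, 0, 0, 1, 0, 0, 0, 0, 1, 0, 0, 1, 0], 96), ([0, 0, 0, 0, 0, 0, 0, 0, 1, 0, 0, 1, 0, 0, 0, 0, 1, 0, 1, 0, 0], 80), ([0, 0, 0, 0, 0, 0, 0, 0, 1, 0, 0, 1, 0, 0, 0, 0, 1, 1, 0, 0, 0], 64), ([0, 0, 0, 0, 0, 0, 0, 0, 1, 0, 0, 1, 0, 0, 0, 0,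 2, 0, 0, 0, 0], 48), ([0, 0, 0, 0, 0, 0, 0, 0, 1, 0, 0, 1, 0, 0, 0, 1, 0, 0, 0, 0, 0], 42), ([0, 0, 0, 0, 0, 0, 0, 0, 1, 0, 0, 1, 0, 0, 1, 0, 0, 0, 0, 0, 0], 36), ([0, 0, 0, 0, 0, 0, 0, 0, 1, 0, 0, 1, 0, 1, 0, 0, 0, 0, 0, 0, 0], 24), ([0, 0, 0, 0, 0, 0, 0, 0, 1, 0, 1, 0, 0, 0, 0, 0, 0, 0, 0, 1, 1], 156), ([0, 0, 0, 0, 0, 0, 0, 0, 1, 0, 1, 0, 0, 0, 0, 0, 0, 0, 1, 0, 1], 140), ([0, 0, 0, 0, 0, 0, 0, 0, 1, 0, 1, 0, 0, 0, 0, 0, 0, 0, 1, 1, 0], 124), ([0, 0, 0, 0, 0, 0, 0, 0, 1, 0, 1, 0, 0, 0, 0, 0, 0, 0, 2, 0, 0], 108), ([0, 0, 0, 0, 0, 0, 0, 0, 1, 0, 1, 0, 0, 0, 0, 0, 0, 1, 0, 0, 0], 156), ([0, 0, 0, 0, 0, 0, 0, 0, 1, 0, 1, 0, 0, 0, 0, 0, 0, 1, 0, 0, 1], 124), ([0, 0, 0, 0, 0, 0, 0, 0,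 1, 0, 1, 0, 0, 0, 0, 0, 0, 1, 0, 1, 0], 108), ([0, 0, 0, 0, 0, 0, 0, 0, 1, 0, 1, 0, 0, 0, 0, 0, 0, 1, 1, 0, 0], 92), ([0, 0, 0, 0, 0, 0, 0, 0, 1, 0, 1, 0, 0, 0, 0, 0, 1, 0, 0, 0, 0], 140), ([0, 0, 0, 0, 0, 0, 0, 0, 1, 0, 1, 0, 0, 0, 0, 0, 1, 0, 0, 0, 1], 108), ([0, 0, 0, 0, 0, 0, 0, 0, 1, 0, 1, 0, 0, 0, 0, 0, 1, 0, 0, 1, 0], 92), ([0, 0, 0, 0, 0, 0, 0, 0, 1, 0, 1, 0, 0, 0, 0, 0, 1, 0, 1, 0, 0], 76), ([0, 0, 0, 0, 0, 0, 0, 0, 1, 0, 1, 0, 0, 0, 0, 0, 1, 1, 0, 0, 0], 60), ([0, 0, 0, 0, 0, 0, 0, 0, 1, 0, 1, 0, 0, 0, 0, 0, 2, 0, 0, 0, 0], 44), ([0, 0, 0, 0, 0, 0, 0, 0, 1, 0, 1, 0, 0, 0, 0, 1, 0, 0, 0, 0, 0], 38), ([0, 0, 0, 0, 0, 0, 0, 0, 1, 0, 1, 0, 0, 0, 1, 0, 0, 0, 0, 0, 0], 32), ([0,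 0, 0, 0, 0, 0, 0, 0, 1, 0, 1, 0, 0, 1, 0, 0, 0, 0, 0, 0, 0], 20), ([0, 0, 0, 0, 0, 0, 0, 0, 1, 1, 0, 0, 0, 0, 0, 0, 0, 0, 0, 1, 1], 148), ([0, 0, 0, 0, 0, 0, 0, 0, 1, 1, 0, 0, 0, 0, 0, 0, 0, 0, 1, 0, 1], 132), ([0, 0, 0, 0, 0, 0, 0, 0, 1, 1, 0, 0, 0, 0, 0, 0, 0, 0, 1, 1, 0], 116), ([0, 0, 0, 0, 0, 0, 0, 0, 1, 1, 0, 0, 0, 0, 0, 0, 0, 0, 2, 0, 0], 100), ([0, 0, 0, 0, 0, 0, 0, 0, 1, 1, 0, 0, 0, 0, 0, 0, 0, 1, 0, 0, 0], 148), ([0, 0, 0, 0, 0, 0, 0, 0, 1, 1, 0, 0, 0, 0, 0, 0, 0, 1, 0, 0, 1], 116), ([0, 0, 0, 0, 0, 0, 0, 0, 1, 1, 0, 0, 0, 0, 0, 0, 0, 1, 0, 1, 0], 100), ([0, 0, 0, 0, 0, 0, 0, 0, 1, 1, 0, 0, 0, 0, 0, 0, 0, 1, 1, 0, 0], 84), ([0, 0, 0, 0, 0, 0, 0, 0, 1, 1, 0, 0, 0, 0, 0, 0, 1,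 0, 0, 0, 0], 132), ([0, 0, 0, 0, 0, 0, 0, 0, 1, 1, 0, 0, 0, 0, 0, 0, 1, 0, 0, 0, 1], 100), ([0, 0, 0, 0, 0, 0, 0, 0, 1, 1, 0, 0, 0, 0, 0, 0, 1, 0, 0, 1, 0], 84), ([0, 0, 0, 0, 0, 0, 0, 0, 1, 1, 0, 0, 0, 0, 0, 0, 1, 0, 1, 0, 0], 68), ([0, 0, 0, 0, 0, 0, 0, 0, 1, 1, 0, 0, 0, 0, 0, 0, 1, 1, 0, 0, 0], 52), ([0, 0, 0, 0, 0, 0, 0, 0, 1, 1, 0, 0, 0, 0, 0, 0, 2, 0, 0, 0, 0], 36), ([0, 0, 0, 0, 0, 0, 0, 0, 1, 1, 0, 0, 0, 0, 0, 1, 0, 0, 0, 0, 0], 30), ([0, 0, 0, 0, 0, 0, 0, 0, 1, 1, 0, 0, 0, 0, 1, 0, 0, 0, 0, 0, 0], 24), ([0, 0, 0, 0, 0, 0, 0, 0, 1, 1, 0, 0, 0, 1, 0, 0, 0, 0, 0, 0, 0], 12), ([0, 0, 0, 0, 0, 0, 0, 0, 2, 0, 0, 0, 0, 0, 0, 0, 0, 0, 0, 1, 1], 136), ([0, 0, 0, 0, 0, 0, 0, 0, 2, 0,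 0, 0, 0, 0, 0, 0, 0, 0, 1, 0, 0], 152), ([0, 0, 0, 0, 0, 0, 0, 0, 2, 0, 0, 0, 0, 0, 0, 0, 0, 0, 1, 0, 1], 120), ([0, 0, 0, 0, 0, 0, 0, 0, 2, 0, 0, 0, 0, 0, 0, 0, 0, 0, 1, 1, 0], 104), ([0, 0, 0, 0, 0, 0, 0, 0, 2, 0, 0, 0, 0, 0, 0, 0, 0, 0, 2, 0, 0], 88), ([0, 0, 0, 0, 0, 0, 0, 0, 2, 0, 0, 0, 0, 0, 0, 0, 0, 1, 0, 0, 0], 136), ([0, 0, 0, 0, 0, 0, 0, 0, 2, 0, 0, 0, 0, 0, 0, 0, 0, 1, 0, 0, 1], 104), ([0, 0, 0, 0, 0, 0, 0, 0, 2, 0, 0, 0, 0, 0, 0, 0, 0, 1, 0, 1, 0], 88), ([0, 0, 0, 0, 0, 0, 0, 0, 2, 0, 0, 0, 0, 0, 0, 0, 0, 1, 1, 0, 0], 72), ([0, 0, 0, 0, 0, 0, 0, 0, 2, 0, 0, 0, 0, 0, 0, 0, 1, 0, 0, 0, 0], 120), ([0, 0, 0, 0, 0, 0, 0, 0, 2, 0, 0, 0, 0, 0, 0, 0, 1, 0, 0, 0, 1], 88), ([0, 0,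 0, 0, 0, 0, 0, 0, 2, 0, 0, 0, 0, 0, 0, 0, 1, 0, 0, 1, 0], 72), ([0, 0, 0, 0, 0, 0, 0, 0, 2, 0, 0, 0, 0, 0, 0, 0, 1, 0, 1, 0, 0], 56), ([0, 0, 0, 0, 0, 0, 0, 0, 2, 0, 0, 0, 0, 0, 0, 0, 1, 1, 0, 0, 0], 40), ([0, 0, 0, 0, 0, 0, 0, 0, 2, 0, 0, 0, 0, 0, 0, 0, 2, 0, 0, 0, 0], 24), ([0, 0, 0, 0, 0, 0, 0, 0, 2, 0, 0, 0, 0, 0, 0, 1, 0, 0, 0, 0, 0], 18), ([0, 0, 0, 0, 0, 0, 0, 0, 2, 0, 0, 0, 0, 0, 1, 0, 0, 0, 0, 0, 0], 12), ([0, 0, 0, 0, 0, 0, 0, 0, 2, 0, 0, 0, 0, 1, 0, 0, 0, 0, 0, 0, 0], 0)], [([0, 0, 0, 0, 0, 0, 0, 0, 0, 1, 0, 0, 0, 0, 0, 0, 1, 1, 2, 1, 0], 152), ([0, 0, 0, 0, 0, 0, 0, 0, 0, 1, 0, 0, 0, 0, 0, 0, 2, 0, 2, 0, 1], 152), ([0, 0, 0, 0, 0, 0, 0, 0, 0, 1, 0, 0, 0, 0, 0, 0, 2, 0, 2,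 1, 0], 136), ([0, 0, 0, 0, 0, 0, 0, 0, 0, 1, 0, 0, 0, 0, 0, 0, 2, 1, 0, 1, 1], 152), ([0, 0, 0, 0, 0, 0, 0, 0, 0, 1, 0, 0, 0, 0, 0, 0, 2, 1, 1, 0, 1], 136), ([0, 0, 0, 0, 0, 0, 0, 0, 0, 1, 0, 0, 0, 0, 0, 0, 2, 1, 1, 1, 0], 120), ([0, 0, 0, 0, 0, 0, 0, 0, 0, 1, 0, 0, 0, 0, 0, 0, 2, 1, 2, 0, 0], 104), ([0, 0, 0, 0, 0, 0, 0, 0, 0, 1, 0, 0, 0, 0, 0, 0, 3, 0, 0, 1, 1], 136), ([0, 0, 0, 0, 0, 0, 0, 0, 0, 1, 0, 0, 0, 0, 0, 0, 3, 0, 1, 0, 0], 152), ([0, 0, 0, 0, 0, 0, 0, 0, 0, 1, 0, 0, 0, 0, 0, 0, 3, 0, 1, 0, 1], 120), ([0, 0, 0, 0, 0, 0, 0, 0, 0, 1, 0, 0, 0, 0, 0, 0, 3, 0, 1, 1, 0], 104), ([0, 0, 0, 0, 0, 0, 0, 0, 0, 1, 0, 0, 0, 0, 0, 0, 3, 0, 2, 0, 0], 88), ([0, 0, 0, 0, 0, 0, 0, 0, 0, 1,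 0, 0, 0, 0, 0, 0, 3, 1, 0, 0, 0], 136), ([0, 0, 0, 0, 0, 0, 0, 0, 0, 1, 0, 0, 0, 0, 0, 0, 3, 1, 0, 0, 1], 104), ([0, 0, 0, 0, 0, 0, 0, 0, 0, 1, 0, 0, 0, 0, 0, 0, 3, 1, 0, 1, 0], 88), ([0, 0, 0, 0, 0, 0, 0, 0, 0, 1, 0, 0, 0, 0, 0, 0, 3, 1, 1, 0, 0], 72), ([0, 0, 0, 0, 0, 0, 0, 0, 0, 1, 0, 0, 0, 0, 0, 0, 4, 0, 0, 0, 0], 120), ([0, 0, 0, 0, 0, 0, 0, 0, 0, 1, 0, 0, 0, 0, 0, 0, 4, 0, 0, 0, 1], 88), ([0, 0, 0, 0, 0, 0, 0, 0, 0, 1, 0, 0, 0, 0, 0, 0, 4, 0, 0, 1, 0], 72), ([0, 0, 0, 0, 0, 0, 0, 0, 0, 1, 0, 0, 0, 0, 0, 0, 4, 0, 1, 0, 0], 56), ([0, 0, 0, 0, 0, 0, 0, 0, 0, 1, 0, 0, 0, 0, 0, 0, 4, 1, 0, 0, 0], 40), ([0, 0, 0, 0, 0, 0, 0, 0, 0, 1, 0, 0, 0, 0, 0, 1, 1, 0, 1, 0, 0], 146), ([0, 0, 0,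 0, 0, 0, 0, 0, 0, 1, 0, 0, 0, 0, 0, 1, 1, 1, 0, 0, 0], 130), ([0, 0, 0, 0, 0, 0, 0, 0, 0, 1, 0, 0, 0, 0, 0, 1, 2, 0, 0, 0, 0], 114), ([0, 0, 0, 0, 0, 0, 0, 0, 0, 1, 0, 0, 0, 0, 1, 0, 0, 1, 1, 0, 0], 156), ([0, 0, 0, 0, 0, 0, 0, 0, 0, 1, 0, 0, 0, 0, 1, 0, 1, 0, 0, 1, 0], 156), ([0, 0, 0, 0, 0, 0, 0, 0, 0, 1, 0, 0, 0, 0, 1, 0, 1, 0, 1, 0, 0], 140), ([0, 0, 0, 0, 0, 0, 0, 0, 0, 1, 0, 0, 0, 0, 1, 0, 1, 1, 0, 0, 0], 124), ([0, 0, 0, 0, 0, 0, 0, 0, 0, 1, 0, 0, 0, 0, 1, 0, 2, 0, 0, 0, 0], 108), ([0, 0, 0, 0, 0, 0, 0, 0, 0, 1, 0, 0, 0, 0, 1, 1, 0, 0, 0, 0, 0], 102), ([0, 0, 0, 0, 0, 0, 0, 0, 0, 1, 0, 0, 0, 1, 0, 0, 0, 0, 2, 0, 0], 160), ([0, 0, 0, 0, 0, 0, 0, 0, 0, 1, 0, 0, 0, 1, 0, 0, 0, 1,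 0, 1, 0], 160), ([0, 0, 0, 0, 0, 0, 0, 0, 0, 1, 0, 0, 0, 1, 0, 0, 0, 1, 1, 0, 0], 144), ([0, 0, 0, 0, 0, 0, 0, 0, 0, 1, 0, 0, 0, 1, 0, 0, 1, 0, 0, 0, 1], 160), ([0, 0, 0, 0, 0, 0, 0, 0, 0, 1, 0, 0, 0, 1, 0, 0, 1, 0, 0, 1, 0], 144), ([0, 0, 0, 0, 0, 0, 0, 0, 0, 1, 0, 0, 0, 1, 0, 0, 1, 0, 1, 0, 0], 128), ([0, 0, 0, 0, 0, 0, 0, 0, 0, 1, 0, 0, 0, 1, 0, 0, 1, 1, 0, 0, 0], 112), ([0, 0, 0, 0, 0, 0, 0, 0, 0, 1, 0, 0, 0, 1, 0, 0, 2, 0, 0, 0, 0], 96), ([0, 0, 0, 0, 0, 0, 0, 0, 0, 1, 0, 0, 0, 1, 0, 1, 0, 0, 0, 0, 0], 90), ([0, 0, 0, 0, 0, 0, 0, 0, 0, 1, 0, 0, 0, 1, 1, 0, 0, 0, 0, 0, 0], 84), ([0, 0, 0, 0, 0, 0, 0, 0, 0, 1, 0, 0, 1, 0, 0, 0, 0, 0, 1, 1, 0], 152), ([0, 0, 0, 0, 0, 0, 0, 0, 0, 1,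 0, 0, 1, 0, 0, 0, 0, 0, 2, 0, 0], 136), ([0, 0, 0, 0, 0, 0, 0, 0, 0, 1, 0, 0, 1, 0, 0, 0, 0, 1, 0, 0, 1], 152), ([0, 0, 0, 0, 0, 0, 0, 0, 0, 1, 0, 0, 1, 0, 0, 0, 0, 1, 0, 1, 0], 136), ([0, 0, 0, 0, 0, 0, 0, 0, 0, 1, 0, 0, 1, 0, 0, 0, 0, 1, 1, 0, 0], 120), ([0, 0, 0, 0, 0, 0, 0, 0, 0, 1, 0, 0, 1, 0, 0, 0, 1, 0, 0, 0, 1], 136), ([0, 0, 0, 0, 0, 0, 0, 0, 0, 1, 0, 0, 1, 0, 0, 0, 1, 0, 0, 1, 0], 120), ([0, 0, 0, 0, 0, 0, 0, 0, 0, 1, 0, 0, 1, 0, 0, 0, 1, 0, 1, 0, 0], 104), ([0, 0, 0, 0, 0, 0, 0, 0, 0, 1, 0, 0, 1, 0, 0, 0, 1, 1, 0, 0, 0], 88), ([0, 0, 0, 0, 0, 0, 0, 0, 0, 1, 0, 0, 1, 0, 0, 0, 2, 0, 0, 0, 0], 72), ([0, 0, 0, 0, 0, 0, 0, 0, 0, 1, 0, 0, 1, 0, 0, 1, 0, 0, 0, 0, 0], 66), ([0, 0,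 0, 0, 0, 0, 0, 0, 0, 1, 0, 0, 1, 0, 1, 0, 0, 0, 0, 0, 0], 60), ([0, 0, 0, 0, 0, 0, 0, 0, 0, 1, 0, 0, 1, 1, 0, 0, 0, 0, 0, 0, 0], 48), ([0, 0, 0, 0, 0, 0, 0, 0, 0, 1, 0, 0, 2, 0, 0, 0, 0, 0, 0, 0, 0], 24), ([0, 0, 0, 0, 0, 0, 0, 0, 0, 1, 0, 1, 0, 0, 0, 0, 0, 0, 1, 0, 1], 156), ([0, 0, 0, 0, 0, 0, 0, 0, 0, 1, 0, 1, 0, 0, 0, 0, 0, 0, 1, 1, 0], 140), ([0, 0, 0, 0, 0, 0, 0, 0, 0, 1, 0, 1, 0, 0, 0, 0, 0, 0, 2, 0, 0], 124), ([0, 0, 0, 0, 0, 0, 0, 0, 0, 1, 0, 1, 0, 0, 0, 0, 0, 1, 0, 0, 1], 140), ([0, 0, 0, 0, 0, 0, 0, 0, 0, 1, 0, 1, 0, 0, 0, 0, 0, 1, 0, 1, 0], 124), ([0, 0, 0, 0, 0, 0, 0, 0, 0, 1, 0, 1, 0, 0, 0, 0, 0, 1, 1, 0, 0], 108), ([0, 0, 0, 0, 0, 0, 0, 0, 0, 1, 0, 1, 0, 0, 0, 0, 1, 0,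 0, 0, 0], 156), ([0, 0, 0, 0, 0, 0, 0, 0, 0, 1, 0, 1, 0, 0, 0, 0, 1, 0, 0, 0, 1], 124), ([0, 0, 0, 0, 0, 0, 0, 0, 0, 1, 0, 1, 0, 0, 0, 0, 1, 0, 0, 1, 0], 108), ([0, 0, 0, 0, 0, 0, 0, 0, 0, 1, 0, 1, 0, 0, 0, 0, 1, 0, 1, 0, 0], 92), ([0, 0, 0, 0, 0, 0, 0, 0, 0, 1, 0, 1, 0, 0, 0, 0, 1, 1, 0, 0, 0], 76), ([0, 0, 0, 0, 0, 0, 0, 0, 0, 1, 0, 1, 0, 0, 0, 0, 2, 0, 0, 0, 0], 60), ([0, 0, 0, 0, 0, 0, 0, 0, 0, 1, 0, 1, 0, 0, 0, 1, 0, 0, 0, 0, 0], 54), ([0, 0, 0, 0, 0, 0, 0, 0, 0, 1, 0, 1, 0, 0, 1, 0, 0, 0, 0, 0, 0], 48), ([0, 0, 0, 0, 0, 0, 0, 0, 0, 1, 0, 1, 0, 1, 0, 0, 0, 0, 0, 0, 0], 36), ([0, 0, 0, 0, 0, 0, 0, 0, 0, 1, 0, 1, 1, 0, 0, 0, 0, 0, 0, 0, 0], 12), ([0, 0, 0, 0, 0, 0, 0, 0, 0, 1, 1,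 0, 0, 0, 0, 0, 0, 0, 1, 0, 1], 152), ([0, 0, 0, 0, 0, 0, 0, 0, 0, 1, 1, 0, 0, 0, 0, 0, 0, 0, 1, 1, 0], 136), ([0, 0, 0, 0, 0, 0, 0, 0, 0, 1, 1, 0, 0, 0, 0, 0, 0, 0, 2, 0, 0], 120), ([0, 0, 0, 0, 0, 0, 0, 0, 0, 1, 1, 0, 0, 0, 0, 0, 0, 1, 0, 0, 1], 136), ([0, 0, 0, 0, 0, 0, 0, 0, 0, 1, 1, 0, 0, 0, 0, 0, 0, 1, 0, 1, 0], 120), ([0, 0, 0, 0, 0, 0, 0, 0, 0, 1, 1, 0, 0, 0, 0, 0, 0, 1, 1, 0, 0], 104), ([0, 0, 0, 0, 0, 0, 0, 0, 0, 1, 1, 0, 0, 0, 0, 0, 1, 0, 0, 0, 0], 152), ([0, 0, 0, 0, 0, 0, 0, 0, 0, 1, 1, 0, 0, 0, 0, 0, 1, 0, 0, 0, 1], 120), ([0, 0, 0, 0, 0, 0, 0, 0, 0, 1, 1, 0, 0, 0, 0, 0, 1, 0, 0, 1, 0], 104), ([0, 0, 0, 0, 0, 0, 0, 0, 0, 1, 1, 0, 0, 0, 0, 0, 1, 0, 1, 0, 0], 88), ([0, 0,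 0, 0, 0, 0, 0, 0, 0, 1, 1, 0, 0, 0, 0, 0, 1, 1, 0, 0, 0], 72), ([0, 0, 0, 0, 0, 0, 0, 0, 0, 1, 1, 0, 0, 0, 0, 0, 2, 0, 0, 0, 0], 56), ([0, 0, 0, 0, 0, 0, 0, 0, 0, 1, 1, 0, 0, 0, 0, 1, 0, 0, 0, 0, 0], 50), ([0, 0, 0, 0, 0, 0, 0, 0, 0, 1, 1, 0, 0, 0, 1, 0, 0, 0, 0, 0, 0], 44), ([0, 0, 0, 0, 0, 0, 0, 0, 0, 1, 1, 0, 0, 1, 0, 0, 0, 0, 0, 0, 0], 32), ([0, 0, 0, 0, 0, 0, 0, 0, 0, 1, 1, 0, 1, 0, 0, 0, 0, 0, 0, 0, 0], 8), ([0, 0, 0, 0, 0, 0, 0, 0, 0, 2, 0, 0, 0, 0, 0, 0, 0, 0, 0, 1, 1], 160), ([0, 0, 0, 0, 0, 0, 0, 0, 0, 2, 0, 0, 0, 0, 0, 0, 0, 0, 1, 0, 1], 144), ([0, 0, 0, 0, 0, 0, 0, 0, 0, 2, 0, 0, 0, 0, 0, 0, 0, 0, 1, 1, 0], 128), ([0, 0, 0, 0, 0, 0, 0, 0, 0, 2, 0, 0, 0, 0, 0, 0, 0, 0, 2,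 0, 0], 112), ([0, 0, 0, 0, 0, 0, 0, 0, 0, 2, 0, 0, 0, 0, 0, 0, 0, 1, 0, 0, 0], 160), ([0, 0, 0, 0, 0, 0, 0, 0, 0, 2, 0, 0, 0, 0, 0, 0, 0, 1, 0, 0, 1], 128), ([0, 0, 0, 0, 0, 0, 0, 0, 0, 2, 0, 0, 0, 0, 0, 0, 0, 1, 0, 1, 0], 112), ([0, 0, 0, 0, 0, 0, 0, 0, 0, 2, 0, 0, 0, 0, 0, 0, 0, 1, 1, 0, 0], 96), ([0, 0, 0, 0, 0, 0, 0, 0, 0, 2, 0, 0, 0, 0, 0, 0, 1, 0, 0, 0, 0], 144), ([0, 0, 0, 0, 0, 0, 0, 0, 0, 2, 0, 0, 0, 0, 0, 0, 1, 0, 0, 0, 1], 112), ([0, 0, 0, 0, 0, 0, 0, 0, 0, 2, 0, 0, 0, 0, 0, 0, 1, 0, 0, 1, 0], 96), ([0, 0, 0, 0, 0, 0, 0, 0, 0, 2, 0, 0, 0, 0, 0, 0, 1, 0, 1, 0, 0], 80), ([0, 0, 0, 0, 0, 0, 0, 0, 0, 2, 0, 0, 0, 0, 0, 0, 1, 1, 0, 0, 0], 64), ([0, 0, 0, 0, 0, 0, 0, 0, 0, 2, 0,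 0, 0, 0, 0, 0, 2, 0, 0, 0, 0], 48), ([0, 0, 0, 0, 0, 0, 0, 0, 0, 2, 0, 0, 0, 0, 0, 1, 0, 0, 0, 0, 0], 42), ([0, 0, 0, 0, 0, 0, 0, 0, 0, 2, 0, 0, 0, 0, 1, 0, 0, 0, 0, 0, 0], 36), ([0, 0, 0, 0, 0, 0, 0, 0, 0, 2, 0, 0, 0, 1, 0, 0, 0, 0, 0, 0, 0], 24), ([0, 0, 0, 0, 0, 0, 0, 0, 0, 2, 0, 0, 1, 0, 0, 0, 0, 0, 0, 0, 0], 0)], [([0, 0, 0, 0, 0, 0, 0, 0, 0, 0, 1, 0, 0, 0, 0, 0, 1, 1, 2, 1, 0], 160), ([0, 0, 0, 0, 0, 0, 0, 0, 0, 0, 1, 0, 0, 0, 0, 0, 2, 0, 2, 0, 1], 160), ([0, 0, 0, 0, 0, 0, 0, 0, 0, 0, 1, 0, 0, 0, 0, 0, 2, 0, 2, 1, 0], 144), ([0, 0, 0, 0, 0, 0, 0, 0, 0, 0, 1, 0, 0, 0, 0, 0, 2, 1, 0, 1, 1], 160), ([0, 0, 0, 0, 0, 0, 0, 0, 0, 0, 1, 0, 0, 0, 0, 0, 2, 1, 1, 0, 1], 144), ([0, 0, 0,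 0, 0, 0, 0, 0, 0, 0, 1, 0, 0, 0, 0, 0, 2, 1, 1, 1, 0], 128), ([0, 0, 0, 0, 0, 0, 0, 0, 0, 0, 1, 0, 0, 0, 0, 0, 2, 1, 2, 0, 0], 112), ([0, 0, 0, 0, 0, 0, 0, 0, 0, 0, 1, 0, 0, 0, 0, 0, 3, 0, 0, 1, 1], 144), ([0, 0, 0, 0, 0, 0, 0, 0, 0, 0, 1, 0, 0, 0, 0, 0, 3, 0, 1, 0, 0], 160), ([0, 0, 0, 0, 0, 0, 0, 0, 0, 0, 1, 0, 0, 0, 0, 0, 3, 0, 1, 0, 1], 128), ([0, 0, 0, 0, 0, 0, 0, 0, 0, 0, 1, 0, 0, 0, 0, 0, 3, 0, 1, 1, 0], 112), ([0, 0, 0, 0, 0, 0, 0, 0, 0, 0, 1, 0, 0, 0, 0, 0, 3, 0, 2, 0, 0], 96), ([0, 0, 0, 0, 0, 0, 0, 0, 0, 0, 1, 0, 0, 0, 0, 0, 3, 1, 0, 0, 0], 144), ([0, 0, 0, 0, 0, 0, 0, 0, 0, 0, 1, 0, 0, 0, 0, 0, 3, 1, 0, 0, 1], 112), ([0, 0, 0, 0, 0, 0, 0, 0, 0, 0, 1, 0, 0, 0, 0, 0, 3, 1,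 0, 1, 0], 96), ([0, 0, 0, 0, 0, 0, 0, 0, 0, 0, 1, 0, 0, 0, 0, 0, 3, 1, 1, 0, 0], 80), ([0, 0, 0, 0, 0, 0, 0, 0, 0, 0, 1, 0, 0, 0, 0, 0, 4, 0, 0, 0, 0], 128), ([0, 0, 0, 0, 0, 0, 0, 0, 0, 0, 1, 0, 0, 0, 0, 0, 4, 0, 0, 0, 1], 96), ([0, 0, 0, 0, 0, 0, 0, 0, 0, 0, 1, 0, 0, 0, 0, 0, 4, 0, 0, 1, 0], 80), ([0, 0, 0, 0, 0, 0, 0, 0, 0, 0, 1, 0, 0, 0, 0, 0, 4, 0, 1, 0, 0], 64), ([0, 0, 0, 0, 0, 0, 0, 0, 0, 0, 1, 0, 0, 0, 0, 0, 4, 1, 0, 0, 0], 48), ([0, 0, 0, 0, 0, 0, 0, 0, 0, 0, 1, 0, 0, 0, 0, 1, 1, 0, 1, 0, 0], 154), ([0, 0, 0, 0, 0, 0, 0, 0, 0, 0, 1, 0, 0, 0, 0, 1, 1, 1, 0, 0, 0], 138), ([0, 0, 0, 0, 0, 0, 0, 0, 0, 0, 1, 0, 0, 0, 0, 1, 2, 0, 0, 0, 0], 122), ([0, 0, 0, 0, 0, 0, 0, 0, 0, 0, 1,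 0, 0, 0, 1, 0, 1, 0, 1, 0, 0], 148), ([0, 0, 0, 0, 0, 0, 0, 0, 0, 0, 1, 0, 0, 0, 1, 0, 1, 1, 0, 0, 0], 132), ([0, 0, 0, 0, 0, 0, 0, 0, 0, 0, 1, 0, 0, 0, 1, 0, 2, 0, 0, 0, 0], 116), ([0, 0, 0, 0, 0, 0, 0, 0, 0, 0, 1, 0, 0, 0, 1, 1, 0, 0, 0, 0, 0], 110), ([0, 0, 0, 0, 0, 0, 0, 0, 0, 0, 1, 0, 0, 1, 0, 0, 0, 1, 1, 0, 0], 152), ([0, 0, 0, 0, 0, 0, 0, 0, 0, 0, 1, 0, 0, 1, 0, 0, 1, 0, 0, 1, 0], 152), ([0, 0, 0, 0, 0, 0, 0, 0, 0, 0, 1, 0, 0, 1, 0, 0, 1, 0, 1, 0, 0], 136), ([0, 0, 0, 0, 0, 0, 0, 0, 0, 0, 1, 0, 0, 1, 0, 0, 1, 1, 0, 0, 0], 120), ([0, 0, 0, 0, 0, 0, 0, 0, 0, 0, 1, 0, 0, 1, 0, 0, 2, 0, 0, 0, 0], 104), ([0, 0, 0, 0, 0, 0, 0, 0, 0, 0, 1, 0, 0, 1, 0, 1, 0, 0, 0, 0, 0], 98), ([0, 0,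 0, 0, 0, 0, 0, 0, 0, 0, 1, 0, 0, 1, 1, 0, 0, 0, 0, 0, 0], 92), ([0, 0, 0, 0, 0, 0, 0, 0, 0, 0, 1, 0, 1, 0, 0, 0, 0, 0, 1, 1, 0], 160), ([0, 0, 0, 0, 0, 0, 0, 0, 0, 0, 1, 0, 1, 0, 0, 0, 0, 0, 2, 0, 0], 144), ([0, 0, 0, 0, 0, 0, 0, 0, 0, 0, 1, 0, 1, 0, 0, 0, 0, 1, 0, 0, 1], 160), ([0, 0, 0, 0, 0, 0, 0, 0, 0, 0, 1, 0, 1, 0, 0, 0, 0, 1, 0, 1, 0], 144), ([0, 0, 0, 0, 0, 0, 0, 0, 0, 0, 1, 0, 1, 0, 0, 0, 0, 1, 1, 0, 0], 128), ([0, 0, 0, 0, 0, 0, 0, 0, 0, 0, 1, 0, 1, 0, 0, 0, 1, 0, 0, 0, 1], 144), ([0, 0, 0, 0, 0, 0, 0, 0, 0, 0, 1, 0, 1, 0, 0, 0, 1, 0, 0, 1, 0], 128), ([0, 0, 0, 0, 0, 0, 0, 0, 0, 0, 1, 0, 1, 0, 0, 0, 1, 0, 1, 0, 0], 112), ([0, 0, 0, 0, 0, 0, 0, 0, 0, 0, 1, 0, 1, 0, 0, 0, 1,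 1, 0, 0, 0], 96), ([0, 0, 0, 0, 0, 0, 0, 0, 0, 0, 1, 0, 1, 0, 0, 0, 2, 0, 0, 0, 0], 80), ([0, 0, 0, 0, 0, 0, 0, 0, 0, 0, 1, 0, 1, 0, 0, 1, 0, 0, 0, 0, 0], 74), ([0, 0, 0, 0, 0, 0, 0, 0, 0, 0, 1, 0, 1, 0, 1, 0, 0, 0, 0, 0, 0], 68), ([0, 0, 0, 0, 0, 0, 0, 0, 0, 0, 1, 0, 1, 1, 0, 0, 0, 0, 0, 0, 0], 56), ([0, 0, 0, 0, 0, 0, 0, 0, 0, 0, 1, 0, 2, 0, 0, 0, 0, 0, 0, 0, 0], 32), ([0, 0, 0, 0, 0, 0, 0, 0, 0, 0, 1, 1, 0, 0, 0, 0, 0, 0, 1, 1, 0], 148), ([0, 0, 0, 0, 0, 0, 0, 0, 0, 0, 1, 1, 0, 0, 0, 0, 0, 0, 2, 0, 0], 132), ([0, 0, 0, 0, 0, 0, 0, 0, 0, 0, 1, 1, 0, 0, 0, 0, 0, 1, 0, 0, 1], 148), ([0, 0, 0, 0, 0, 0, 0, 0, 0, 0, 1, 1, 0, 0, 0, 0, 0, 1, 0, 1, 0], 132), ([0, 0, 0, 0, 0, 0, 0, 0, 0, 0,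 1, 1, 0, 0, 0, 0, 0, 1, 1, 0, 0], 116), ([0, 0, 0, 0, 0, 0, 0, 0, 0, 0, 1, 1, 0, 0, 0, 0, 1, 0, 0, 0, 1], 132), ([0, 0, 0, 0, 0, 0, 0, 0, 0, 0, 1, 1, 0, 0, 0, 0, 1, 0, 0, 1, 0], 116), ([0, 0, 0, 0, 0, 0, 0, 0, 0, 0, 1, 1, 0, 0, 0, 0, 1, 0, 1, 0, 0], 100), ([0, 0, 0, 0, 0, 0, 0, 0, 0, 0, 1, 1, 0, 0, 0, 0, 1, 1, 0, 0, 0], 84), ([0, 0, 0, 0, 0, 0, 0, 0, 0, 0, 1, 1, 0, 0, 0, 0, 2, 0, 0, 0, 0], 68), ([0, 0, 0, 0, 0, 0, 0, 0, 0, 0, 1, 1, 0, 0, 0, 1, 0, 0, 0, 0, 0], 62), ([0, 0, 0, 0, 0, 0, 0, 0, 0, 0, 1, 1, 0, 0, 1, 0, 0, 0, 0, 0, 0], 56), ([0, 0, 0, 0, 0, 0, 0, 0, 0, 0, 1, 1, 0, 1, 0, 0, 0, 0, 0, 0, 0], 44), ([0, 0, 0, 0, 0, 0, 0, 0, 0, 0, 1, 1, 1, 0, 0, 0, 0, 0, 0, 0, 0], 20)], [([0, 0,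 0, 0, 0, 0, 0, 0, 0, 0, 0, 1, 0, 0, 0, 0, 2, 0, 2, 1, 0], 148), ([0, 0, 0, 0, 0, 0, 0, 0, 0, 0, 0, 1, 0, 0, 0, 0, 2, 1, 1, 0, 1], 148), ([0, 0, 0, 0, 0, 0, 0, 0, 0, 0, 0, 1, 0, 0, 0, 0, 2, 1, 1, 1, 0], 132), ([0, 0, 0, 0, 0, 0, 0, 0, 0, 0, 0, 1, 0, 0, 0, 0, 2, 1, 2, 0, 0], 116), ([0, 0, 0, 0, 0, 0, 0, 0, 0, 0, 0, 1, 0, 0, 0, 0, 3, 0, 0, 1, 1], 148), ([0, 0, 0, 0, 0, 0, 0, 0, 0, 0, 0, 1, 0, 0, 0, 0, 3, 0, 1, 0, 1], 132), ([0, 0, 0, 0, 0, 0, 0, 0, 0, 0, 0, 1, 0, 0, 0, 0, 3, 0, 1, 1, 0], 116), ([0, 0, 0, 0, 0, 0, 0, 0, 0, 0, 0, 1, 0, 0, 0, 0, 3, 0, 2, 0, 0], 100), ([0, 0, 0, 0, 0, 0, 0, 0, 0, 0, 0, 1, 0, 0, 0, 0, 3, 1, 0, 0, 0], 148), ([0, 0, 0, 0, 0, 0, 0, 0, 0, 0, 0, 1, 0, 0, 0, 0, 3,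 1, 0, 0, 1], 116), ([0, 0, 0, 0, 0, 0, 0, 0, 0, 0, 0, 1, 0, 0, 0, 0, 3, 1, 0, 1, 0], 100), ([0, 0, 0, 0, 0, 0, 0, 0, 0, 0, 0, 1, 0, 0, 0, 0, 3, 1, 1, 0, 0], 84), ([0, 0, 0, 0, 0, 0, 0, 0, 0, 0, 0, 1, 0, 0, 0, 0, 4, 0, 0, 0, 0], 132), ([0, 0, 0, 0, 0, 0, 0, 0, 0, 0, 0, 1, 0, 0, 0, 0, 4, 0, 0, 0, 1], 100), ([0, 0, 0, 0, 0, 0, 0, 0, 0, 0, 0, 1, 0, 0, 0, 0, 4, 0, 0, 1, 0], 84), ([0, 0, 0, 0, 0, 0, 0, 0, 0, 0, 0, 1, 0, 0, 0, 0, 4, 0, 1, 0, 0], 68), ([0, 0, 0, 0, 0, 0, 0, 0, 0, 0, 0, 1, 0, 0, 0, 0, 4, 1, 0, 0, 0], 52), ([0, 0, 0, 0, 0, 0, 0, 0, 0, 0, 0, 1, 0, 0, 0, 1, 1, 0, 1, 0, 0], 158), ([0, 0, 0, 0, 0, 0, 0, 0, 0, 0, 0, 1, 0, 0, 0, 1, 1, 1, 0, 0, 0], 142), ([0, 0, 0, 0, 0, 0, 0, 0, 0,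 0, 0, 1, 0, 0, 0, 1, 2, 0, 0, 0, 0], 126), ([0, 0, 0, 0, 0, 0, 0, 0, 0, 0, 0, 1, 0, 0, 1, 0, 1, 0, 1, 0, 0], 152), ([0, 0, 0, 0, 0, 0, 0, 0, 0, 0, 0, 1, 0, 0, 1, 0, 1, 1, 0, 0, 0], 136), ([0, 0, 0, 0, 0, 0, 0, 0, 0, 0, 0, 1, 0, 0, 1, 0, 2, 0, 0, 0, 0], 120), ([0, 0, 0, 0, 0, 0, 0, 0, 0, 0, 0, 1, 0, 0, 1, 1, 0, 0, 0, 0, 0], 114), ([0, 0, 0, 0, 0, 0, 0, 0, 0, 0, 0, 1, 0, 1, 0, 0, 0, 1, 1, 0, 0], 156), ([0, 0, 0, 0, 0, 0, 0, 0, 0, 0, 0, 1, 0, 1, 0, 0, 1, 0, 0, 1, 0], 156), ([0, 0, 0, 0, 0, 0, 0, 0, 0, 0, 0, 1, 0, 1, 0, 0, 1, 0, 1, 0, 0], 140), ([0, 0, 0, 0, 0, 0, 0, 0, 0, 0, 0, 1, 0, 1, 0, 0, 1, 1, 0, 0, 0], 124), ([0, 0, 0, 0, 0, 0, 0, 0, 0, 0, 0, 1, 0, 1, 0, 0, 2, 0, 0, 0, 0], 108), ([0,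 0, 0, 0, 0, 0, 0, 0, 0, 0, 0, 1, 0, 1, 0, 1, 0, 0, 0, 0, 0], 102), ([0, 0, 0, 0, 0, 0, 0, 0, 0, 0, 0, 1, 0, 1, 1, 0, 0, 0, 0, 0, 0], 96), ([0, 0, 0, 0, 0, 0, 0, 0, 0, 0, 0, 1, 1, 0, 0, 0, 0, 0, 2, 0, 0], 148), ([0, 0, 0, 0, 0, 0, 0, 0, 0, 0, 0, 1, 1, 0, 0, 0, 0, 1, 0, 1, 0], 148), ([0, 0, 0, 0, 0, 0, 0, 0, 0, 0, 0, 1, 1, 0, 0, 0, 0, 1, 1, 0, 0], 132), ([0, 0, 0, 0, 0, 0, 0, 0, 0, 0, 0, 1, 1, 0, 0, 0, 1, 0, 0, 0, 1], 148), ([0, 0, 0, 0, 0, 0, 0, 0, 0, 0, 0, 1, 1, 0, 0, 0, 1, 0, 0, 1, 0], 132), ([0, 0, 0, 0, 0, 0, 0, 0, 0, 0, 0, 1, 1, 0, 0, 0, 1, 0, 1, 0, 0], 116), ([0, 0, 0, 0, 0, 0, 0, 0, 0, 0, 0, 1, 1, 0, 0, 0, 1, 1, 0, 0, 0], 100), ([0, 0, 0, 0, 0, 0, 0, 0, 0, 0, 0, 1, 1, 0, 0, 0,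 2, 0, 0, 0, 0], 84), ([0, 0, 0, 0, 0, 0, 0, 0, 0, 0, 0, 1, 1, 0, 0, 1, 0, 0, 0, 0, 0], 78), ([0, 0, 0, 0, 0, 0, 0, 0, 0, 0, 0, 1, 1, 0, 1, 0, 0, 0, 0, 0, 0], 72), ([0, 0, 0, 0, 0, 0, 0, 0, 0, 0, 0, 1, 1, 1, 0, 0, 0, 0, 0, 0, 0], 60), ([0, 0, 0, 0, 0, 0, 0, 0, 0, 0, 0, 1, 2, 0, 0, 0, 0, 0, 0, 0, 0], 36)], [([0, 0, 0, 0, 0, 0, 0, 0, 0, 0, 0, 0, 1, 0, 0, 0, 2, 0, 2, 1, 0], 160), ([0, 0, 0, 0, 0, 0, 0, 0, 0, 0, 0, 0, 1, 0, 0, 0, 2, 1, 1, 0, 1], 160), ([0, 0, 0, 0, 0, 0, 0, 0, 0, 0, 0, 0, 1, 0, 0, 0, 2, 1, 1, 1, 0], 144), ([0, 0, 0, 0, 0, 0, 0, 0, 0, 0, 0, 0, 1, 0, 0, 0, 2, 1, 2, 0, 0], 128), ([0, 0, 0, 0, 0, 0, 0, 0, 0, 0, 0, 0, 1, 0, 0, 0, 3, 0, 0, 1, 1], 160), ([0, 0, 0, 0, 0, 0, 0, 0,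 0, 0, 0, 0, 1, 0, 0, 0, 3, 0, 1, 0, 1], 144), ([0, 0, 0, 0, 0, 0, 0, 0, 0, 0, 0, 0, 1, 0, 0, 0, 3, 0, 1, 1, 0], 128), ([0, 0, 0, 0, 0, 0, 0, 0, 0, 0, 0, 0, 1, 0, 0, 0, 3, 0, 2, 0, 0], 112), ([0, 0, 0, 0, 0, 0, 0, 0, 0, 0, 0, 0, 1, 0, 0, 0, 3, 1, 0, 0, 0], 160), ([0, 0, 0, 0, 0, 0, 0, 0, 0, 0, 0, 0, 1, 0, 0, 0, 3, 1, 0, 0, 1], 128), ([0, 0, 0, 0, 0, 0, 0, 0, 0, 0, 0, 0, 1, 0, 0, 0, 3, 1, 0, 1, 0], 112), ([0, 0, 0, 0, 0, 0, 0, 0, 0, 0, 0, 0, 1, 0, 0, 0, 3, 1, 1, 0, 0], 96), ([0, 0, 0, 0, 0, 0, 0, 0, 0, 0, 0, 0, 1, 0, 0, 0, 4, 0, 0, 0, 0], 144), ([0, 0, 0, 0, 0, 0, 0, 0, 0, 0, 0, 0, 1, 0, 0, 0, 4, 0, 0, 0, 1], 112), ([0, 0, 0, 0, 0, 0, 0, 0, 0, 0, 0, 0, 1, 0, 0, 0, 4, 0, 0, 1, 0], 96),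 ([0, 0, 0, 0, 0, 0, 0, 0, 0, 0, 0, 0, 1, 0, 0, 0, 4, 0, 1, 0, 0], 80), ([0, 0, 0, 0, 0, 0, 0, 0, 0, 0, 0, 0, 1, 0, 0, 0, 4, 1, 0, 0, 0], 64), ([0, 0, 0, 0, 0, 0, 0, 0, 0, 0, 0, 0, 1, 0, 0, 1, 1, 1, 0, 0, 0], 154), ([0, 0, 0, 0, 0, 0, 0, 0, 0, 0, 0, 0, 1, 0, 0, 1, 2, 0, 0, 0, 0], 138), ([0, 0, 0, 0, 0, 0, 0, 0, 0, 0, 0, 0, 1, 0, 1, 0, 1, 1, 0, 0, 0], 148), ([0, 0, 0, 0, 0, 0, 0, 0, 0, 0, 0, 0, 1, 0, 1, 0, 2, 0, 0, 0, 0], 132), ([0, 0, 0, 0, 0, 0, 0, 0, 0, 0, 0, 0, 1, 0, 1, 1, 0, 0, 0, 0, 0], 126), ([0, 0, 0, 0, 0, 0, 0, 0, 0, 0, 0, 0, 1, 1, 0, 0, 1, 0, 1, 0, 0], 152), ([0, 0, 0, 0, 0, 0, 0, 0, 0, 0, 0, 0, 1, 1, 0, 0, 1, 1, 0, 0, 0], 136), ([0, 0, 0, 0, 0, 0, 0, 0, 0, 0, 0, 0, 1, 1, 0,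 0, 2, 0, 0, 0, 0], 120), ([0, 0, 0, 0, 0, 0, 0, 0, 0, 0, 0, 0, 1, 1, 0, 1, 0, 0, 0, 0, 0], 114), ([0, 0, 0, 0, 0, 0, 0, 0, 0, 0, 0, 0, 1, 1, 1, 0, 0, 0, 0, 0, 0], 108), ([0, 0, 0, 0, 0, 0, 0, 0, 0, 0, 0, 0, 2, 0, 0, 0, 0, 0, 2, 0, 0], 160), ([0, 0, 0, 0, 0, 0, 0, 0, 0, 0, 0, 0, 2, 0, 0, 0, 0, 1, 0, 1, 0], 160), ([0, 0, 0, 0, 0, 0, 0, 0, 0, 0, 0, 0, 2, 0, 0, 0, 0, 1, 1, 0, 0], 144), ([0, 0, 0, 0, 0, 0, 0, 0, 0, 0, 0, 0, 2, 0, 0, 0, 1, 0, 0, 0, 1], 160), ([0, 0, 0, 0, 0, 0, 0, 0, 0, 0, 0, 0, 2, 0, 0, 0, 1, 0, 0, 1, 0], 144), ([0, 0, 0, 0, 0, 0, 0, 0, 0, 0, 0, 0, 2, 0, 0, 0, 1, 0, 1, 0, 0], 128), ([0, 0, 0, 0, 0, 0, 0, 0, 0, 0, 0, 0, 2, 0, 0, 0, 1, 1, 0, 0, 0], 112), ([0, 0, 0, 0, 0, 0,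 0, 0, 0, 0, 0, 0, 2, 0, 0, 0, 2, 0, 0, 0, 0], 96), ([0, 0, 0, 0, 0, 0, 0, 0, 0, 0, 0, 0, 2, 0, 0, 1, 0, 0, 0, 0, 0], 90), ([0, 0, 0, 0, 0, 0, 0, 0, 0, 0, 0, 0, 2, 0, 1, 0, 0, 0, 0, 0, 0], 84), ([0, 0, 0, 0, 0, 0, 0, 0, 0, 0, 0, 0, 2, 1, 0, 0, 0, 0, 0, 0, 0], 72)], [([0, 0, 0, 0, 0, 0, 0, 0, 0, 0, 0, 0, 0, 1, 0, 0, 2, 1, 2, 0, 0], 152), ([0, 0, 0, 0, 0, 0, 0, 0, 0, 0, 0, 0, 0, 1, 0, 0, 3, 0, 1, 1, 0], 152), ([0, 0, 0, 0, 0, 0, 0, 0, 0, 0, 0, 0, 0, 1, 0, 0, 3, 0, 2, 0, 0], 136), ([0, 0, 0, 0, 0, 0, 0, 0, 0, 0, 0, 0, 0, 1, 0, 0, 3, 1, 0, 0, 1], 152), ([0, 0, 0, 0, 0, 0, 0, 0, 0, 0, 0, 0, 0, 1, 0, 0, 3, 1, 0, 1, 0], 136), ([0, 0, 0, 0, 0, 0, 0, 0, 0, 0, 0, 0, 0, 1, 0, 0, 3, 1, 1, 0, 0],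 120), ([0, 0, 0, 0, 0, 0, 0, 0, 0, 0, 0, 0, 0, 1, 0, 0, 4, 0, 0, 0, 1], 136), ([0, 0, 0, 0, 0, 0, 0, 0, 0, 0, 0, 0, 0, 1, 0, 0, 4, 0, 0, 1, 0], 120), ([0, 0, 0, 0, 0, 0, 0, 0, 0, 0, 0, 0, 0, 1, 0, 0, 4, 0, 1, 0, 0], 104), ([0, 0, 0, 0, 0, 0, 0, 0, 0, 0, 0, 0, 0, 1, 0, 0, 4, 1, 0, 0, 0], 88), ([0, 0, 0, 0, 0, 0, 0, 0, 0, 0, 0, 0, 0, 1, 1, 0, 2, 0, 0, 0, 0], 156), ([0, 0, 0, 0, 0, 0, 0, 0, 0, 0, 0, 0, 0, 1, 1, 1, 0, 0, 0, 0, 0], 150)], [([0, 0, 0, 0, 0, 0, 0, 0, 0, 0, 0, 0, 0, 0, 1, 0, 3, 0, 2, 0, 0], 148), ([0, 0, 0, 0, 0, 0, 0, 0, 0, 0, 0, 0, 0, 0, 1, 0, 3, 1, 0, 1, 0], 148), ([0, 0, 0, 0, 0, 0, 0, 0, 0, 0, 0, 0, 0, 0, 1, 0, 3, 1, 1, 0, 0], 132), ([0, 0, 0, 0, 0, 0, 0, 0, 0, 0, 0, 0,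 0, 0, 1, 0, 4, 0, 0, 0, 1], 148), ([0, 0, 0, 0, 0, 0, 0, 0, 0, 0, 0, 0, 0, 0, 1, 0, 4, 0, 0, 1, 0], 132), ([0, 0, 0, 0, 0, 0, 0, 0, 0, 0, 0, 0, 0, 0, 1, 0, 4, 0, 1, 0, 0], 116), ([0, 0, 0, 0, 0, 0, 0, 0, 0, 0, 0, 0, 0, 0, 1, 0, 4, 1, 0, 0, 0], 100)], [([0, 0, 0, 0, 0, 0, 0, 0, 0, 0, 0, 0, 0, 0, 0, 1, 3, 0, 2, 0, 0], 154), ([0, 0, 0, 0, 0, 0, 0, 0, 0, 0, 0, 0, 0, 0, 0, 1, 3, 1, 0, 1, 0], 154), ([0, 0, 0, 0, 0, 0, 0, 0, 0, 0, 0, 0, 0, 0, 0, 1, 3, 1, 1, 0, 0], 138), ([0, 0, 0, 0, 0, 0, 0, 0, 0, 0, 0, 0, 0, 0, 0, 1, 4, 0, 0, 0, 1], 154), ([0, 0, 0, 0, 0, 0, 0, 0, 0, 0, 0, 0, 0, 0, 0, 1, 4, 0, 0, 1, 0], 138), ([0, 0, 0, 0, 0, 0, 0, 0, 0, 0, 0, 0, 0, 0, 0, 1, 4, 0, 1, 0, 0], 122), ([0, 0,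 0, 0, 0, 0, 0, 0, 0, 0, 0, 0, 0, 0, 0, 1, 4, 1, 0, 0, 0], 106)], [([0, 0, 0, 0, 0, 0, 0, 0, 0, 0, 0, 0, 0, 0, 0, 0, 4, 1, 1, 1, 1], 160), ([0, 0, 0, 0, 0, 0, 0, 0, 0, 0, 0, 0, 0, 0, 0, 0, 4, 1, 2, 0, 1], 144), ([0, 0, 0, 0, 0, 0, 0, 0, 0, 0, 0, 0, 0, 0, 0, 0, 4, 1, 2, 1, 0], 128)], [], [], [], []]

/-- A part of the tree of dead states. -/
noncomputable def dT0 : DT := (.node (.node (.node (.node (.node .leaf 38685626227968377574391808 2 8 [0,0,0,0,0,0,0,0,1,1,1,1,2,0,0,0,0,0,0,0,0] .leaf) 38685626227984870248808448 2 0 [0,0,0,0,0,0,0,0,1,2,0,1,2,0,0,0,0,0,0,0,0] (.node .leaf 38685626227985961438937088 2 8 [0,0,0,0,0,0,0,0,1,2,1,1,0,1,0,0,0,0,0,0,0] .leaf)) 38685626228249843962216448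 2 14 [0,0,0,0,0,0,0,0,2,1,1,1,0,0,0,1,0,0,0,0,0] (.node (.node .leaf 38685626228249843977945088 2 8 [0,0,0,0,0,0,0,0,2,1,1,1,0,0,1,0,0,0,0,0,0] .leaf) 38685626228266336636633088 2 6 [0,0,0,0,0,0,0,0,2,2,0,1,0,0,0,1,0,0,0,0,0] (.node .leaf 38685626228266336652361728 2 0 [0,0,0,0,0,0,0,0,2,2,0,1,0,0,1,0,0,0,0,0,0] .leaf))) 38685626228267367428784128 2 2 [0,0,0,0,0,0,0,0,2,2,1,0,0,0,0,1,0,0,0,0,0] (.node (.node (.node .leaf 38685626232190502225051648 2 2 [0,0,0,0,0,0,0,1,0,1,1,1,2,0,0,0,0,0,0,0,0] .leaf) 38685626232208086089596928 2 2 [0,0,0,0,0,0,0,1,0,2,1,1,0,1,0,0,0,0,0,0,0] (.node .leaf 38685626232471968612876288 2 8 [0,0,0,0,0,0,0,1,1,1,1,1,0,0,0,1,0,0,0,0,0] .leaf)) 38685626232471968628604928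 2 2 [0,0,0,0,0,0,0,1,1,1,1,1,0,0,1,0,0,0,0,0,0] (.node (.node .leaf 38685626232488461287292928 2 0 [0,0,0,0,0,0,0,1,1,2,0,1,0,0,0,1,0,0,0,0,0] .leaf) 38685626236694093263536128 2 2 [0,0,0,0,0,0,0,2,0,1,1,1,0,0,0,1,0,0,0,0,0] .leaf))) 58028439346323636451540992 3 14 [0,0,0,0,0,0,0,1,1,2,1,1,2,1,0,0,0,0,0,0,0] (.node (.node (.node (.node .leaf 58028439346587518990548992 3 14 [0,0,0,0,0,0,0,1,2,1,1,1,2,0,1,0,0,0,0,0,0] .leaf) 58028439346587519242207232 3 2 [0,0,0,0,0,0,0,1,2,1,1,1,2,1,0,0,0,0,0,0,0] (.node .leaf 58028439346604011664965632 3 6 [0,0,0,0,0,0,0,1,2,2,0,1,2,0,1,0,0,0,0,0,0] .leaf)) 58028439346605042457116672 3 2 [0,0,0,0,0,0,0,1,2,2,1,0,2,0,1,0,0,0,0,0,0] (.node (.node .leaf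 58028439346605102855094272 3 14 [0,0,0,0,0,0,0,1,2,2,1,1,0,1,1,0,0,0,0,0,0] .leaf) 58028439350545761102200832 3 8 [0,0,0,0,0,0,0,2,0,2,1,1,2,1,0,0,0,0,0,0,0] (.node .leaf 58028439350809643625480192 3 14 [0,0,0,0,0,0,0,2,1,1,1,1,2,0,0,1,0,0,0,0,0] .leaf))) 58028439350809643641208832 3 8 [0,0,0,0,0,0,0,2,1,1,1,1,2,0,1,0,0,0,0,0,0] (.node (.node (.node .leaf 58028439350826136299896832 3 6 [0,0,0,0,0,0,0,2,1,2,0,1,2,0,0,1,0,0,0,0,0] .leaf) 58028439350826136315625472 3 0 [0,0,0,0,0,0,0,2,1,2,0,1,2,0,1,0,0,0,0,0,0] (.node .leaf 58028439350827167092047872 3 2 [0,0,0,0,0,0,0,2,1,2,1,0,2,0,0,1,0,0,0,0,0] .leaf)) 58028439350827227490025472 3 14 [0,0,0,0,0,0,0,2,1,2,1,1,0,1,0,1,0,0,0,0,0] (.node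 (.node .leaf 58028439350827227505754112 3 8 [0,0,0,0,0,0,0,2,1,2,1,1,0,1,1,0,0,0,0,0,0] .leaf) 58028439351073526416146432 3 2 [0,0,0,0,0,0,0,2,2,0,1,1,2,0,0,1,0,0,0,0,0] .leaf))))

/-- A part of the tree of dead states. -/
noncomputable def dT1 : DT := (.node (.node (.node (.node (.node .leaf 58028439351091110280691712 3 2 [0,0,0,0,0,0,0,2,2,1,1,1,0,1,0,1,0,0,0,0,0] .leaf) 58028439351107602703450112 3 6 [0,0,0,0,0,0,0,2,2,2,0,1,0,0,1,1,0,0,0,0,0] (.node .leaf 58028439351108633495601152 3 2 [0,0,0,0,0,0,0,2,2,2,1,0,0,0,1,1,0,0,0,0,0] .leaf)) 58028439413877630862098432 3 11 [0,0,0,0,0,0,1,0,1,2,1,1,2,1,0,0,0,0,0,0,0] (.node (.node .leaf 58028439414141513401106432 3 11 [0,0,0,0,0,0,1,0,2,1,1,1,2,0,1,0,0,0,0,0,0]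 .leaf) 58028439414158006075523072 3 3 [0,0,0,0,0,0,1,0,2,2,0,1,2,0,1,0,0,0,0,0,0] (.node .leaf 58028439414159097265651712 3 11 [0,0,0,0,0,0,1,0,2,2,1,1,0,1,1,0,0,0,0,0,0] .leaf))) 58028439418099755512758272 3 5 [0,0,0,0,0,0,1,1,0,2,1,1,2,1,0,0,0,0,0,0,0] (.node (.node (.node .leaf 58028439418363638036037632 3 11 [0,0,0,0,0,0,1,1,1,1,1,1,2,0,0,1,0,0,0,0,0] .leaf) 58028439418363638051766272 3 5 [0,0,0,0,0,0,1,1,1,1,1,1,2,0,1,0,0,0,0,0,0] (.node .leaf 58028439418380130710454272 3 3 [0,0,0,0,0,0,1,1,1,2,0,1,2,0,0,1,0,0,0,0,0] .leaf)) 58028439418381221900582912 3 11 [0,0,0,0,0,0,1,1,1,2,1,1,0,1,0,1,0,0,0,0,0] (.node (.node .leaf 58028439418381221916311552 3 5 [0,0,0,0,0,0,1,1,1,2,1,1,0,1,1,0,0,0,0,0,0]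 .leaf) 58028439418645104439590912 3 11 [0,0,0,0,0,0,1,1,2,1,1,1,0,0,1,1,0,0,0,0,0] .leaf))) 58028439418661597114007552 3 3 [0,0,0,0,0,0,1,1,2,2,0,1,0,0,1,1,0,0,0,0,0] (.node (.node (.node (.node .leaf 58028439422585762686697472 3 5 [0,0,0,0,0,0,1,2,0,1,1,1,2,0,0,1,0,0,0,0,0] .leaf) 58028439422603346551242752 3 5 [0,0,0,0,0,0,1,2,0,2,1,1,0,1,0,1,0,0,0,0,0] (.node .leaf 58028439422867229090250752 3 5 [0,0,0,0,0,0,1,2,1,1,1,1,0,0,1,1,0,0,0,0,0] .leaf)) 77371252532496772278255616 4 17 [0,0,0,0,0,0,1,1,2,2,1,1,2,1,1,0,0,0,0,0,0] (.node (.node .leaf 77371252536718896913186816 4 17 [0,0,0,0,0,0,1,2,1,2,1,1,2,1,0,1,0,0,0,0,0] .leaf) 77371252536718896928915456 4 11 [0,0,0,0,0,0,1,2,1,2,1,1,2,1,1,0,0,0,0,0,0]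 (.node .leaf 77371252536982779452194816 4 17 [0,0,0,0,0,0,1,2,2,1,1,1,2,0,1,1,0,0,0,0,0] .leaf))) 77371252536982779703853056 4 5 [0,0,0,0,0,0,1,2,2,1,1,1,2,1,0,1,0,0,0,0,0] (.node (.node (.node .leaf 77371252536999272126611456 4 9 [0,0,0,0,0,0,1,2,2,2,0,1,2,0,1,1,0,0,0,0,0] .leaf) 77371252537000302918762496 4 5 [0,0,0,0,0,0,1,2,2,2,1,0,2,0,1,1,0,0,0,0,0] (.node .leaf 77371252537000363316740096 4 17 [0,0,0,0,0,0,1,2,2,2,1,1,0,1,1,1,0,0,0,0,0] .leaf)) 77371253613360682847174656 4 14 [0,0,0,0,0,1,0,1,2,2,1,1,2,1,1,0,0,0,0,0,0] (.node (.node .leaf 77371253617582807482105856 4 14 [0,0,0,0,0,1,0,2,1,2,1,1,2,1,0,1,0,0,0,0,0] .leaf) 77371253617582807497834496 4 8 [0,0,0,0,0,1,0,2,1,2,1,1,2,1,1,0,0,0,0,0,0]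 .leaf))))

/-- A part of the tree of dead states. -/
noncomputable def dT2 : DT := .node dT0 58028439351091110029033472 3 14 [0,0,0,0,0,0,0,2,2,1,1,1,0,0,1,1,0,0,0,0,0] dT1

/-- A part of the tree of dead states. -/
noncomputable def dT3 : DT := (.node (.node (.node (.node (.node .leaf 77371253617846690272772096 4 2 [0,0,0,0,0,1,0,2,2,1,1,1,2,1,0,1,0,0,0,0,0] .leaf) 77371253617863182695530496 4 6 [0,0,0,0,0,1,0,2,2,2,0,1,2,0,1,1,0,0,0,0,0] (.node .leaf 77371253617864213487681536 4 2 [0,0,0,0,0,1,0,2,2,2,1,0,2,0,1,1,0,0,0,0,0] .leaf)) 77371253617864273885659136 4 14 [0,0,0,0,0,1,0,2,2,2,1,1,0,1,1,1,0,0,0,0,0] (.node (.node .leaf 77371253680914677257732096 4 11 [0,0,0,0,0,1,1,0,2,2,1,1,2,1,1,0,0,0,0,0,0]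 .leaf) 77371253685136801892663296 4 11 [0,0,0,0,0,1,1,1,1,2,1,1,2,1,0,1,0,0,0,0,0] (.node .leaf 77371253685136801908391936 4 5 [0,0,0,0,0,1,1,1,1,2,1,1,2,1,1,0,0,0,0,0,0] .leaf))) 77371253685400684431671296 4 11 [0,0,0,0,0,1,1,1,2,1,1,1,2,0,1,1,0,0,0,0,0] (.node (.node (.node .leaf 77371253685417177106087936 4 3 [0,0,0,0,0,1,1,1,2,2,0,1,2,0,1,1,0,0,0,0,0] .leaf) 77371253685418268296216576 4 11 [0,0,0,0,0,1,1,1,2,2,1,1,0,1,1,1,0,0,0,0,0] (.node .leaf 77371253689358926543323136 4 5 [0,0,0,0,0,1,1,2,0,2,1,1,2,1,0,1,0,0,0,0,0] .leaf)) 77371253689622809082331136 4 5 [0,0,0,0,0,1,1,2,1,1,1,1,2,0,1,1,0,0,0,0,0] (.node (.node .leaf 77371253689640392946876416 4 5 [0,0,0,0,0,1,1,2,1,2,1,1,0,1,1,1,0,0,0,0,0]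 .leaf) 96714066803755943308820480 5 17 [0,0,0,0,0,1,1,2,2,2,1,1,2,1,1,1,0,0,0,0,0] .leaf))) 96714067884619853877739520 5 14 [0,0,0,0,0,2,0,2,2,2,1,1,2,1,1,1,0,0,0,0,0] (.node (.node (.node (.node .leaf 96714067952173848288296960 5 11 [0,0,0,0,0,2,1,1,2,2,1,1,2,1,1,1,0,0,0,0,0] .leaf) 96714067956395972938956800 5 5 [0,0,0,0,0,2,1,2,1,2,1,1,2,1,1,1,0,0,0,0,0] (.node .leaf 116056898364334083813740816 6 161 [0,0,0,0,1,1,1,2,2,2,1,1,2,1,1,1,1,1,1,1,0] .leaf)) 116056898364334083813741056 6 145 [0,0,0,0,1,1,1,2,2,2,1,1,2,1,1,1,1,1,2,0,0] (.node (.node .leaf 116056898364334083813802256 6 145 [0,0,0,0,1,1,1,2,2,2,1,1,2,1,1,1,2,0,1,1,0] .leaf) 116056898364334083813802496 6 129 [0,0,0,0,1,1,1,2,2,2,1,1,2,1,1,1,2,0,2,0,0]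 (.node .leaf 116056898364334083813806081 6 145 [0,0,0,0,1,1,1,2,2,2,1,1,2,1,1,1,2,1,0,0,1] .leaf))) 116056898364334083813806096 6 129 [0,0,0,0,1,1,1,2,2,2,1,1,2,1,1,1,2,1,0,1,0] (.node (.node (.node .leaf 116056898364334083813806336 6 113 [0,0,0,0,1,1,1,2,2,2,1,1,2,1,1,1,2,1,1,0,0] .leaf) 116056898364334083813867521 6 129 [0,0,0,0,1,1,1,2,2,2,1,1,2,1,1,1,3,0,0,0,1] (.node .leaf 116056898364334083813867536 6 113 [0,0,0,0,1,1,1,2,2,2,1,1,2,1,1,1,3,0,0,1,0] .leaf)) 116056898364334083813867776 6 97 [0,0,0,0,1,1,1,2,2,2,1,1,2,1,1,1,3,0,1,0,0] (.node (.node .leaf 116056898364334083813871616 6 81 [0,0,0,0,1,1,1,2,2,2,1,1,2,1,1,1,3,1,0,0,0] .leaf) 116056898364334083813933056 6 65 [0,0,0,0,1,1,1,2,2,2,1,1,2,1,1,1,4,0,0,0,0]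 .leaf))))

/-- A part of the tree of dead states. -/
noncomputable def dT4 : DT := (.node (.node (.node (.node (.node .leaf 116056899445197994382660096 6 142 [0,0,0,0,1,2,0,2,2,2,1,1,2,1,1,1,1,1,2,0,0] .leaf) 116056899445197994382721296 6 142 [0,0,0,0,1,2,0,2,2,2,1,1,2,1,1,1,2,0,1,1,0] (.node .leaf 116056899445197994382721536 6 126 [0,0,0,0,1,2,0,2,2,2,1,1,2,1,1,1,2,0,2,0,0] .leaf)) 116056899445197994382725121 6 142 [0,0,0,0,1,2,0,2,2,2,1,1,2,1,1,1,2,1,0,0,1] (.node (.node .leaf 116056899445197994382725136 6 126 [0,0,0,0,1,2,0,2,2,2,1,1,2,1,1,1,2,1,0,1,0] .leaf) 116056899445197994382725376 6 110 [0,0,0,0,1,2,0,2,2,2,1,1,2,1,1,1,2,1,1,0,0] (.node .leaf 116056899445197994382786561 6 126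 [0,0,0,0,1,2,0,2,2,2,1,1,2,1,1,1,3,0,0,0,1] .leaf))) 116056899445197994382786576 6 110 [0,0,0,0,1,2,0,2,2,2,1,1,2,1,1,1,3,0,0,1,0] (.node (.node (.node .leaf 116056899445197994382786816 6 94 [0,0,0,0,1,2,0,2,2,2,1,1,2,1,1,1,3,0,1,0,0] .leaf) 116056899445197994382790656 6 78 [0,0,0,0,1,2,0,2,2,2,1,1,2,1,1,1,3,1,0,0,0] (.node .leaf 116056899445197994382852096 6 62 [0,0,0,0,1,2,0,2,2,2,1,1,2,1,1,1,4,0,0,0,0] .leaf)) 116056899512751988793217296 6 155 [0,0,0,0,1,2,1,1,2,2,1,1,2,1,1,1,1,1,1,1,0] (.node (.node .leaf 116056899512751988793217536 6 139 [0,0,0,0,1,2,1,1,2,2,1,1,2,1,1,1,1,1,2,0,0] .leaf) 116056899512751988793278736 6 139 [0,0,0,0,1,2,1,1,2,2,1,1,2,1,1,1,2,0,1,1,0] .leaf))) 116056899512751988793278976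 6 123 [0,0,0,0,1,2,1,1,2,2,1,1,2,1,1,1,2,0,2,0,0] (.node (.node (.node (.node .leaf 116056899512751988793282561 6 139 [0,0,0,0,1,2,1,1,2,2,1,1,2,1,1,1,2,1,0,0,1] .leaf) 116056899512751988793282576 6 123 [0,0,0,0,1,2,1,1,2,2,1,1,2,1,1,1,2,1,0,1,0] (.node .leaf 116056899512751988793282816 6 107 [0,0,0,0,1,2,1,1,2,2,1,1,2,1,1,1,2,1,1,0,0] .leaf)) 116056899512751988793344001 6 123 [0,0,0,0,1,2,1,1,2,2,1,1,2,1,1,1,3,0,0,0,1] (.node (.node .leaf 116056899512751988793344016 6 107 [0,0,0,0,1,2,1,1,2,2,1,1,2,1,1,1,3,0,0,1,0] .leaf) 116056899512751988793344256 6 91 [0,0,0,0,1,2,1,1,2,2,1,1,2,1,1,1,3,0,1,0,0] .leaf)) 116056899512751988793348096 6 75 [0,0,0,0,1,2,1,1,2,2,1,1,2,1,1,1,3,1,0,0,0] (.node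 (.node (.node .leaf 116056899512751988793409536 6 59 [0,0,0,0,1,2,1,1,2,2,1,1,2,1,1,1,4,0,0,0,0] .leaf) 116056899516974113443877136 6 149 [0,0,0,0,1,2,1,2,1,2,1,1,2,1,1,1,1,1,1,1,0] (.node .leaf 116056899516974113443877376 6 133 [0,0,0,0,1,2,1,2,1,2,1,1,2,1,1,1,1,1,2,0,0] .leaf)) 116056899516974113443938576 6 133 [0,0,0,0,1,2,1,2,1,2,1,1,2,1,1,1,2,0,1,1,0] (.node (.node .leaf 116056899516974113443938816 6 117 [0,0,0,0,1,2,1,2,1,2,1,1,2,1,1,1,2,0,2,0,0] .leaf) 116056899516974113443942401 6 133 [0,0,0,0,1,2,1,2,1,2,1,1,2,1,1,1,2,1,0,0,1] .leaf))))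

/-- A part of the tree of dead states. -/
noncomputable def dT5 : DT := .node dT3 116056899445197994382659856 6 158 [0,0,0,0,1,2,0,2,2,2,1,1,2,1,1,1,1,1,1,1,0] dT4

/-- A part of the tree of dead states. -/
noncomputable def dT6 : DT := .node dT2 77371253617846690021113856 4 14 [0,0,0,0,0,1,0,2,2,1,1,1,2,0,1,1,0,0,0,0,0] dT5

/-- A part of the tree of dead states. -/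
noncomputable def dT7 : DT := (.node (.node (.node (.node (.node .leaf 116056899516974113443942656 6 101 [0,0,0,0,1,2,1,2,1,2,1,1,2,1,1,1,2,1,1,0,0] .leaf) 116056899516974113444003841 6 117 [0,0,0,0,1,2,1,2,1,2,1,1,2,1,1,1,3,0,0,0,1] (.node .leaf 116056899516974113444003856 6 101 [0,0,0,0,1,2,1,2,1,2,1,1,2,1,1,1,3,0,0,1,0] .leaf)) 116056899516974113444004096 6 85 [0,0,0,0,1,2,1,2,1,2,1,1,2,1,1,1,3,0,1,0,0] (.node (.node .leaf 116056899516974113444007936 6 69 [0,0,0,0,1,2,1,2,1,2,1,1,2,1,1,1,3,1,0,0,0] .leaf) 116056899516974113444069376 6 53 [0,0,0,0,1,2,1,2,1,2,1,1,2,1,1,1,4,0,0,0,0] (.node .leaf 116056899517237996234543376 6 137 [0,0,0,0,1,2,1,2,2,1,1,1,2,1,1,1,1,1,1,1,0] .leaf))) 116056899517237996234543616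 6 121 [0,0,0,0,1,2,1,2,2,1,1,1,2,1,1,1,1,1,2,0,0] (.node (.node (.node .leaf 116056899517237996234604816 6 121 [0,0,0,0,1,2,1,2,2,1,1,1,2,1,1,1,2,0,1,1,0] .leaf) 116056899517237996234605056 6 105 [0,0,0,0,1,2,1,2,2,1,1,1,2,1,1,1,2,0,2,0,0] (.node .leaf 116056899517237996234608641 6 121 [0,0,0,0,1,2,1,2,2,1,1,1,2,1,1,1,2,1,0,0,1] .leaf)) 116056899517237996234608656 6 105 [0,0,0,0,1,2,1,2,2,1,1,1,2,1,1,1,2,1,0,1,0] (.node (.node .leaf 116056899517237996234608896 6 89 [0,0,0,0,1,2,1,2,2,1,1,1,2,1,1,1,2,1,1,0,0] .leaf) 116056899517237996234670081 6 105 [0,0,0,0,1,2,1,2,2,1,1,1,2,1,1,1,3,0,0,0,1] .leaf))) 116056899517237996234670096 6 89 [0,0,0,0,1,2,1,2,2,1,1,1,2,1,1,1,3,0,0,1,0] (.node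 (.node (.node (.node .leaf 116056899517237996234670336 6 73 [0,0,0,0,1,2,1,2,2,1,1,1,2,1,1,1,3,0,1,0,0] .leaf) 116056899517237996234674176 6 57 [0,0,0,0,1,2,1,2,2,1,1,1,2,1,1,1,3,1,0,0,0] (.node .leaf 116056899517237996234735616 6 41 [0,0,0,0,1,2,1,2,2,1,1,1,2,1,1,1,4,0,0,0,0] .leaf)) 116056899517254488908960016 6 129 [0,0,0,0,1,2,1,2,2,2,0,1,2,1,1,1,1,1,1,1,0] (.node (.node .leaf 116056899517254488908960256 6 113 [0,0,0,0,1,2,1,2,2,2,0,1,2,1,1,1,1,1,2,0,0] .leaf) 116056899517254488909021456 6 113 [0,0,0,0,1,2,1,2,2,2,0,1,2,1,1,1,2,0,1,1,0] (.node .leaf 116056899517254488909021696 6 97 [0,0,0,0,1,2,1,2,2,2,0,1,2,1,1,1,2,0,2,0,0] .leaf))) 116056899517254488909025281 6 113 [0,0,0,0,1,2,1,2,2,2,0,1,2,1,1,1,2,1,0,0,1]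 (.node (.node (.node .leaf 116056899517254488909025296 6 97 [0,0,0,0,1,2,1,2,2,2,0,1,2,1,1,1,2,1,0,1,0] .leaf) 116056899517254488909025536 6 81 [0,0,0,0,1,2,1,2,2,2,0,1,2,1,1,1,2,1,1,0,0] (.node .leaf 116056899517254488909086721 6 97 [0,0,0,0,1,2,1,2,2,2,0,1,2,1,1,1,3,0,0,0,1] .leaf)) 116056899517254488909086736 6 81 [0,0,0,0,1,2,1,2,2,2,0,1,2,1,1,1,3,0,0,1,0] (.node (.node .leaf 116056899517254488909086976 6 65 [0,0,0,0,1,2,1,2,2,2,0,1,2,1,1,1,3,0,1,0,0] .leaf) 116056899517254488909090816 6 49 [0,0,0,0,1,2,1,2,2,2,0,1,2,1,1,1,3,1,0,0,0] .leaf))))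

/-- A part of the tree of dead states. -/
noncomputable def dT8 : DT := (.node (.node (.node (.node (.node .leaf 116056899517255519701111056 6 125 [0,0,0,0,1,2,1,2,2,2,1,0,2,1,1,1,1,1,1,1,0] .leaf) 116056899517255519701111296 6 109 [0,0,0,0,1,2,1,2,2,2,1,0,2,1,1,1,1,1,2,0,0] (.node .leaf 116056899517255519701172496 6 109 [0,0,0,0,1,2,1,2,2,2,1,0,2,1,1,1,2,0,1,1,0] .leaf)) 116056899517255519701172736 6 93 [0,0,0,0,1,2,1,2,2,2,1,0,2,1,1,1,2,0,2,0,0] (.node (.node .leaf 116056899517255519701176321 6 109 [0,0,0,0,1,2,1,2,2,2,1,0,2,1,1,1,2,1,0,0,1] .leaf) 116056899517255519701176336 6 93 [0,0,0,0,1,2,1,2,2,2,1,0,2,1,1,1,2,1,0,1,0] (.node .leaf 116056899517255519701176576 6 77 [0,0,0,0,1,2,1,2,2,2,1,0,2,1,1,1,2,1,1,0,0]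 .leaf))) 116056899517255519701237761 6 93 [0,0,0,0,1,2,1,2,2,2,1,0,2,1,1,1,3,0,0,0,1] (.node (.node (.node .leaf 116056899517255519701237776 6 77 [0,0,0,0,1,2,1,2,2,2,1,0,2,1,1,1,3,0,0,1,0] .leaf) 116056899517255519701238016 6 61 [0,0,0,0,1,2,1,2,2,2,1,0,2,1,1,1,3,0,1,0,0] (.node .leaf 116056899517255519701241856 6 45 [0,0,0,0,1,2,1,2,2,2,1,0,2,1,1,1,3,1,0,0,0] .leaf)) 116056899517255519701303296 6 29 [0,0,0,0,1,2,1,2,2,2,1,0,2,1,1,1,4,0,0,0,0] (.node (.node .leaf 116056899517255584125620496 6 113 [0,0,0,0,1,2,1,2,2,2,1,1,1,1,1,1,1,1,1,1,0] .leaf) 116056899517255584125620736 6 97 [0,0,0,0,1,2,1,2,2,2,1,1,1,1,1,1,1,1,2,0,0] .leaf))) 116056899517255584125681936 6 97 [0,0,0,0,1,2,1,2,2,2,1,1,1,1,1,1,2,0,1,1,0]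 (.node (.node (.node (.node .leaf 116056899517255584125682176 6 81 [0,0,0,0,1,2,1,2,2,2,1,1,1,1,1,1,2,0,2,0,0] .leaf) 116056899517255584125685761 6 97 [0,0,0,0,1,2,1,2,2,2,1,1,1,1,1,1,2,1,0,0,1] (.node .leaf 116056899517255584125685776 6 81 [0,0,0,0,1,2,1,2,2,2,1,1,1,1,1,1,2,1,0,1,0] .leaf)) 116056899517255584125686016 6 65 [0,0,0,0,1,2,1,2,2,2,1,1,1,1,1,1,2,1,1,0,0] (.node (.node .leaf 116056899517255584125747201 6 81 [0,0,0,0,1,2,1,2,2,2,1,1,1,1,1,1,3,0,0,0,1] .leaf) 116056899517255584125747216 6 65 [0,0,0,0,1,2,1,2,2,2,1,1,1,1,1,1,3,0,0,1,0] (.node .leaf 116056899517255584125747456 6 49 [0,0,0,0,1,2,1,2,2,2,1,1,1,1,1,1,3,0,1,0,0] .leaf))) 116056899517255584125751296 6 33 [0,0,0,0,1,2,1,2,2,2,1,1,1,1,1,1,3,1,0,0,0]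 (.node (.node (.node .leaf 116056899517255584125812736 6 17 [0,0,0,0,1,2,1,2,2,2,1,1,1,1,1,1,4,0,0,0,0] .leaf) 116056899517255588152152336 6 89 [0,0,0,0,1,2,1,2,2,2,1,1,2,0,1,1,1,1,1,1,0] (.node .leaf 116056899517255588152152576 6 73 [0,0,0,0,1,2,1,2,2,2,1,1,2,0,1,1,1,1,2,0,0] .leaf)) 116056899517255588152213776 6 73 [0,0,0,0,1,2,1,2,2,2,1,1,2,0,1,1,2,0,1,1,0] (.node (.node .leaf 116056899517255588152214016 6 57 [0,0,0,0,1,2,1,2,2,2,1,1,2,0,1,1,2,0,2,0,0] .leaf) 116056899517255588152217601 6 73 [0,0,0,0,1,2,1,2,2,2,1,1,2,0,1,1,2,1,0,0,1] .leaf))))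

/-- A part of the tree of dead states. -/
noncomputable def dT9 : DT := .node dT7 116056899517254488909152256 6 33 [0,0,0,0,1,2,1,2,2,2,0,1,2,1,1,1,4,0,0,0,0] dT8

/-- A part of the tree of dead states. -/
noncomputable def dT10 : DT := (.node (.node (.node (.node (.node .leaf 116056899517255588152217856 6 41 [0,0,0,0,1,2,1,2,2,2,1,1,2,0,1,1,2,1,1,0,0] .leaf) 116056899517255588152279041 6 57 [0,0,0,0,1,2,1,2,2,2,1,1,2,0,1,1,3,0,0,0,1] (.node .leaf 116056899517255588152279056 6 41 [0,0,0,0,1,2,1,2,2,2,1,1,2,0,1,1,3,0,0,1,0] .leaf)) 116056899517255588152279296 6 25 [0,0,0,0,1,2,1,2,2,2,1,1,2,0,1,1,3,0,1,0,0] (.node (.node .leaf 116056899517255588152283136 6 9 [0,0,0,0,1,2,1,2,2,2,1,1,2,0,1,1,3,1,0,0,0]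 .leaf) 116056899517255588403810576 6 77 [0,0,0,0,1,2,1,2,2,2,1,1,2,1,0,1,1,1,1,1,0] (.node .leaf 116056899517255588403810816 6 61 [0,0,0,0,1,2,1,2,2,2,1,1,2,1,0,1,1,1,2,0,0] .leaf))) 116056899517255588403872016 6 61 [0,0,0,0,1,2,1,2,2,2,1,1,2,1,0,1,2,0,1,1,0] (.node (.node (.node .leaf 116056899517255588403872256 6 45 [0,0,0,0,1,2,1,2,2,2,1,1,2,1,0,1,2,0,2,0,0] .leaf) 116056899517255588403875841 6 61 [0,0,0,0,1,2,1,2,2,2,1,1,2,1,0,1,2,1,0,0,1] (.node .leaf 116056899517255588403875856 6 45 [0,0,0,0,1,2,1,2,2,2,1,1,2,1,0,1,2,1,0,1,0] .leaf)) 116056899517255588403876096 6 29 [0,0,0,0,1,2,1,2,2,2,1,1,2,1,0,1,2,1,1,0,0] (.node (.node .leaf 116056899517255588403937281 6 45 [0,0,0,0,1,2,1,2,2,2,1,1,2,1,0,1,3,0,0,0,1]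 .leaf) 116056899517255588403937296 6 29 [0,0,0,0,1,2,1,2,2,2,1,1,2,1,0,1,3,0,0,1,0] .leaf))) 116056899517255588403937536 6 13 [0,0,0,0,1,2,1,2,2,2,1,1,2,1,0,1,3,0,1,0,0] (.node (.node (.node (.node .leaf 116056899517255588419539216 6 71 [0,0,0,0,1,2,1,2,2,2,1,1,2,1,1,0,1,1,1,1,0] .leaf) 116056899517255588419539456 6 55 [0,0,0,0,1,2,1,2,2,2,1,1,2,1,1,0,1,1,2,0,0] (.node .leaf 116056899517255588419600656 6 55 [0,0,0,0,1,2,1,2,2,2,1,1,2,1,1,0,2,0,1,1,0] .leaf)) 116056899517255588419600896 6 39 [0,0,0,0,1,2,1,2,2,2,1,1,2,1,1,0,2,0,2,0,0] (.node (.node .leaf 116056899517255588419604481 6 55 [0,0,0,0,1,2,1,2,2,2,1,1,2,1,1,0,2,1,0,0,1] .leaf) 116056899517255588419604496 6 39 [0,0,0,0,1,2,1,2,2,2,1,1,2,1,1,0,2,1,0,1,0]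 (.node .leaf 116056899517255588419604736 6 23 [0,0,0,0,1,2,1,2,2,2,1,1,2,1,1,0,2,1,1,0,0] .leaf))) 116056899517255588419665921 6 39 [0,0,0,0,1,2,1,2,2,2,1,1,2,1,1,0,3,0,0,0,1] (.node (.node (.node .leaf 116056899517255588419665936 6 23 [0,0,0,0,1,2,1,2,2,2,1,1,2,1,1,0,3,0,0,1,0] .leaf) 116056899517255588419666176 6 7 [0,0,0,0,1,2,1,2,2,2,1,1,2,1,1,0,3,0,1,0,0] (.node .leaf 116056899517255588420517889 6 129 [0,0,0,0,1,2,1,2,2,2,1,1,2,1,1,1,0,0,0,0,1] .leaf)) 116056899517255588420517904 6 113 [0,0,0,0,1,2,1,2,2,2,1,1,2,1,1,1,0,0,0,1,0] (.node (.node .leaf 116056899517255588420518144 6 97 [0,0,0,0,1,2,1,2,2,2,1,1,2,1,1,1,0,0,1,0,0] .leaf) 116056899517255588420521984 6 81 [0,0,0,0,1,2,1,2,2,2,1,1,2,1,1,1,0,1,0,0,0]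 .leaf))))

/-- A part of the tree of dead states. -/
noncomputable def dT11 : DT := (.node (.node (.node (.node (.node .leaf 135400007778994834568712464 7 161 [0,0,0,1,1,2,1,2,2,2,1,1,2,1,1,1,1,1,1,1,0] .leaf) 135400007778994834568712704 7 145 [0,0,0,1,1,2,1,2,2,2,1,1,2,1,1,1,1,1,2,0,0] (.node .leaf 135400007778994834568773904 7 145 [0,0,0,1,1,2,1,2,2,2,1,1,2,1,1,1,2,0,1,1,0] .leaf)) 135400007778994834568774144 7 129 [0,0,0,1,1,2,1,2,2,2,1,1,2,1,1,1,2,0,2,0,0] (.node (.node .leaf 135400007778994834568777729 7 145 [0,0,0,1,1,2,1,2,2,2,1,1,2,1,1,1,2,1,0,0,1] .leaf) 135400007778994834568777744 7 129 [0,0,0,1,1,2,1,2,2,2,1,1,2,1,1,1,2,1,0,1,0] (.node .leaf 135400007778994834568777984 7 113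 [0,0,0,1,1,2,1,2,2,2,1,1,2,1,1,1,2,1,1,0,0] .leaf))) 135400007778994834568839169 7 129 [0,0,0,1,1,2,1,2,2,2,1,1,2,1,1,1,3,0,0,0,1] (.node (.node (.node .leaf 135400007778994834568839184 7 113 [0,0,0,1,1,2,1,2,2,2,1,1,2,1,1,1,3,0,0,1,0] .leaf) 135400007778994834568839424 7 97 [0,0,0,1,1,2,1,2,2,2,1,1,2,1,1,1,3,0,1,0,0] (.node .leaf 135400007778994834568843264 7 81 [0,0,0,1,1,2,1,2,2,2,1,1,2,1,1,1,3,1,0,0,0] .leaf)) 135400007778994834568904704 7 65 [0,0,0,1,1,2,1,2,2,2,1,1,2,1,1,1,4,0,0,0,0] (.node (.node .leaf 154747543259311771009290768 8 161 [0,0,1,1,1,2,1,2,2,2,1,1,2,1,1,1,2,1,2,1,0] .leaf) 154747543259311771009352208 8 145 [0,0,1,1,1,2,1,2,2,2,1,1,2,1,1,1,3,0,2,1,0] .leaf))) 154747543259311771009355793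 8 161 [0,0,1,1,1,2,1,2,2,2,1,1,2,1,1,1,3,1,0,1,1] (.node (.node (.node (.node .leaf 154747543259311771009356033 8 145 [0,0,1,1,1,2,1,2,2,2,1,1,2,1,1,1,3,1,1,0,1] .leaf) 154747543259311771009356048 8 129 [0,0,1,1,1,2,1,2,2,2,1,1,2,1,1,1,3,1,1,1,0] (.node .leaf 154747543259311771009356288 8 113 [0,0,1,1,1,2,1,2,2,2,1,1,2,1,1,1,3,1,2,0,0] .leaf)) 154747543259311771009417233 8 145 [0,0,1,1,1,2,1,2,2,2,1,1,2,1,1,1,4,0,0,1,1] (.node (.node .leaf 154747543259311771009417473 8 129 [0,0,1,1,1,2,1,2,2,2,1,1,2,1,1,1,4,0,1,0,1] .leaf) 154747543259311771009417488 8 113 [0,0,1,1,1,2,1,2,2,2,1,1,2,1,1,1,4,0,1,1,0] .leaf)) 154747543259311771009417728 8 97 [0,0,1,1,1,2,1,2,2,2,1,1,2,1,1,1,4,0,2,0,0]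 (.node (.node (.node .leaf 154747543259311771009421312 8 145 [0,0,1,1,1,2,1,2,2,2,1,1,2,1,1,1,4,1,0,0,0] .leaf) 174165914236871752128074257 9 161 [0,1,1,1,1,2,1,2,2,2,1,1,2,1,1,1,3,1,2,1,1] (.node .leaf 174165914236871752128135697 9 145 [0,1,1,1,1,2,1,2,2,2,1,1,2,1,1,1,4,0,2,1,1] .leaf)) 174165914236871752128139536 9 161 [0,1,1,1,1,2,1,2,2,2,1,1,2,1,1,1,4,1,1,1,0] (.node (.node .leaf 174165914236871752128139776 9 145 [0,1,1,1,1,2,1,2,2,2,1,1,2,1,1,1,4,1,2,0,0] .leaf) 194717653170320448098144785 10 161 [1,1,1,1,1,2,1,2,2,2,1,1,2,1,1,1,4,1,2,1,1] .leaf))))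

/-- A part of the tree of dead states. -/
noncomputable def dT12 : DT := .node dT10 116056899517255588420583424 6 65 [0,0,0,0,1,2,1,2,2,2,1,1,2,1,1,1,1,0,0,0,0] dT11

/-- A part of the tree of dead states. -/
noncomputable def dT13 : DT := .node dT9 116056899517255588152217616 6 57 [0,0,0,0,1,2,1,2,2,2,1,1,2,0,1,1,2,1,0,1,0] dT12

/-- A part of the tree of dead states. -/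
noncomputable def dT14 : DT := .node dT6 116056899516974113443942416 6 117 [0,0,0,0,1,2,1,2,1,2,1,1,2,1,1,1,2,1,0,1,0] dT13


/-- The dead states of the search. -/
noncomputable def deadT : DT := dT14

/-- The primal solution. -/
noncomputable def sol : List (List ℕ × ℕ) := [([0, 1, 0, 0, 0, 0, 0, 0, 0, 0, 0, 0, 0, 0, 0, 0, 0, 0, 2, 0, 0], 384), ([1, 0, 0, 0, 0, 0, 0, 0, 0, 0, 0, 0, 0, 0, 0, 0, 0, 0, 0, 2, 0], 384), ([0, 0, 0, 0, 0, 1, 0, 0, 0, 1, 0, 0, 0, 1, 0, 0, 0, 0, 0, 0, 0], 96), ([0, 0, 0, 0, 2, 0, 0, 0, 0, 0, 0, 0, 0, 0, 0, 0, 1, 0, 0, 0, 0], 384), ([1, 0, 0, 0, 0, 0, 0, 0, 0, 0, 0, 0, 0, 0, 0, 0, 0, 0, 1, 0, 1], 384), ([0, 0, 0, 0, 0, 0, 2, 0, 0, 0, 0, 0, 0, 0, 0, 1, 0, 0, 0,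 0, 0], 384), ([0, 0, 0, 0, 0, 1, 0, 1, 0, 0, 0, 0, 0, 0, 0, 1, 0, 0, 0, 0, 0], 384), ([0, 0, 0, 0, 0, 0, 0, 0, 2, 0, 0, 0, 0, 1, 0, 0, 0, 0, 0, 0, 0], 672), ([0, 0, 0, 1, 0, 1, 0, 0, 0, 0, 0, 0, 0, 0, 0, 0, 0, 0, 0, 0, 0], 360), ([0, 0, 0, 0, 0, 0, 0, 0, 0, 0, 3, 0, 0, 0, 0, 0, 0, 0, 0, 0, 0], 256), ([0, 0, 0, 0, 0, 0, 0, 0, 0, 1, 0, 2, 0, 0, 0, 0, 0, 0, 0, 0, 0], 384), ([0, 0, 0, 0, 0, 1, 0, 0, 0, 0, 0, 0, 2, 0, 0, 0, 0, 0, 0, 0, 0], 504), ([0, 0, 1, 0, 0, 0, 0, 0, 0, 0, 0, 0, 0, 0, 0, 0, 0, 2, 0, 0, 0], 384), ([0, 0, 0, 0, 0, 1, 0, 0, 1, 0, 0, 0, 0, 0, 1, 0, 0, 0, 0, 0, 0], 192), ([0, 0, 0, 1, 0, 0, 0, 0, 0, 0, 0, 0, 0, 0, 0, 0, 3, 0, 0, 0, 0], 408), ([0, 0, 0, 0, 0, 0, 0, 0, 0, 0,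 0, 0, 0, 0, 0, 0, 8, 0, 0, 0, 0], 87), ([0, 0, 1, 0, 0, 0, 0, 0, 0, 0, 0, 0, 0, 0, 0, 0, 1, 0, 1, 0, 0], 384), ([0, 1, 0, 0, 0, 0, 0, 0, 0, 0, 0, 0, 0, 0, 0, 0, 1, 0, 0, 0, 1], 384), ([0, 0, 0, 0, 0, 0, 0, 0, 0, 2, 0, 0, 1, 0, 0, 0, 0, 0, 0, 0, 0], 528), ([0, 0, 0, 0, 0, 0, 0, 2, 0, 0, 0, 0, 0, 0, 1, 0, 0, 0, 0, 0, 0], 576)]

/-- A packing with one bin more. -/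
def assign : List ℕ := [0, 1, 2, 3, 4, 3, 4, 5, 5, 6, 6, 7, 7, 8, 8, 9, 8, 9, 7, 6, 5, 0, 1, 2, 4, 9, 2, 9, 10, 1]

theorem hpos : ∀ s ∈ ss, 0 < s := by decide +kernel
theorem hnd : ss.Nodup := by decide +kernel
theorem hmem : ∀ a ∈ items, a ∈ ss := by decide +kernel
theorem hss : ∀ s ∈ ss, s ∈ items := by decide +kernel
theorem hlenb : bs.length = ss.length := by decide +kernel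
theorem hleny : ys.length = ss.length := by decide +kernel
theorem hcount : ∀ t : Fin ss.length, items.count (ss.get t) = bs.getD t 0 := by decide +kernel
theorem hdual : maxY ss ys capL ≤ 768 := by decide +kernel
theorem hF : eqLL (filterB ys 768 161 (enumAll ss bs capL)) (flatG groups) = true := by decide +kernel
theorem hGk : groupsOK ys 768 0 groups = true := by decide +kernel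
theorem hC0 : checkC ss ys capL 768 161 groups deadT dT0 = true := by decide +kernel
theorem hC1 : checkC ss ys capL 768 161 groups deadT dT1 = true := by decide +kernel
theorem hC3 : checkC ss ys capL 768 161 groups deadT dT3 = true := by decide +kernel
theorem hC4 : checkC ss ys capL 768 161 groups deadT dT4 = true := by decide +kernel
theorem hC7 : checkC ss ys capL 768 161 groups deadT dT7 = true := by decide +kernel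
theorem hC8 : checkC ss ys capL 768 161 groups deadT dT8 = true := by decide +kernel
theorem hC10 : checkC ss ys capL 768 161 groups deadT dT10 = true := by decide +kernel
theorem hC11 : checkC ss ys capL 768 161 groups deadT dT11 = true := by decide +kernel
theorem hE2 : (Nat.ble 14 161 && Nat.ble (3 * 768) (dot ys [0,0,0,0,0,0,0,2,2,1,1,1,0,0,1,1,0,0,0,0,0] + 14) && stepC ss capL groups deadT 3 [0,0,0,0,0,0,0,2,2,1,1,1,0,0,1,1,0,0,0,0,0] 14) = true := by decide +kernel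
theorem hE5 : (Nat.ble 158 161 && Nat.ble (6 * 768) (dot ys [0,0,0,0,1,2,0,2,2,2,1,1,2,1,1,1,1,1,1,1,0] + 158) && stepC ss capL groups deadT 6 [0,0,0,0,1,2,0,2,2,2,1,1,2,1,1,1,1,1,1,1,0] 158) = true := by decide +kernel
theorem hE6 : (Nat.ble 14 161 && Nat.ble (4 * 768) (dot ys [0,0,0,0,0,1,0,2,2,1,1,1,2,0,1,1,0,0,0,0,0] + 14) && stepC ss capL groups deadT 4 [0,0,0,0,0,1,0,2,2,1,1,1,2,0,1,1,0,0,0,0,0] 14) = true := by decide +kernel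
theorem hE9 : (Nat.ble 33 161 && Nat.ble (6 * 768) (dot ys [0,0,0,0,1,2,1,2,2,2,0,1,2,1,1,1,4,0,0,0,0] + 33) && stepC ss capL groups deadT 6 [0,0,0,0,1,2,1,2,2,2,0,1,2,1,1,1,4,0,0,0,0] 33) = true := by decide +kernel
theorem hE12 : (Nat.ble 65 161 && Nat.ble (6 * 768) (dot ys [0,0,0,0,1,2,1,2,2,2,1,1,2,1,1,1,1,0,0,0,0] + 65) && stepC ss capL groups deadT 6 [0,0,0,0,1,2,1,2,2,2,1,1,2,1,1,1,1,0,0,0,0] 65) = true := by decide +kernel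
theorem hE13 : (Nat.ble 57 161 && Nat.ble (6 * 768) (dot ys [0,0,0,0,1,2,1,2,2,2,1,1,2,0,1,1,2,1,0,1,0] + 57) && stepC ss capL groups deadT 6 [0,0,0,0,1,2,1,2,2,2,1,1,2,0,1,1,2,1,0,1,0] 57) = true := by decide +kernel
theorem hE14 : (Nat.ble 117 161 && Nat.ble (6 * 768) (dot ys [0,0,0,0,1,2,1,2,1,2,1,1,2,1,1,1,2,1,0,1,0] + 117) && stepC ss capL groups deadT 6 [0,0,0,0,1,2,1,2,1,2,1,1,2,1,1,1,2,1,0,1,0] 117) = true := by decide +kernel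
theorem hC : checkC ss ys capL 768 161 groups deadT deadT = true := (checkC_node_true hE14 (checkC_node_true hE6 (checkC_node_true hE2 hC0 hC1) (checkC_node_true hE5 hC3 hC4)) (checkC_node_true hE13 (checkC_node_true hE9 hC7 hC8) (checkC_node_true hE12 hC10 hC11)))
theorem hR : deadC ss capL deadT 10 bs = true := by decide +kernel
theorem hfit : ∀ q ∈ sol, dot ss q.1 ≤ capL := by decide +kernel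
theorem hcov : ∀ t : Fin ss.length, bs.getD t 0 * 768 ≤ (sol.map (fun q => q.1.getD t 0 * q.2)).sum := by decide +kernel
theorem hV : (sol.map (fun q => q.2)).sum = 7519 := by decide +kernel
theorem hval : dot ys bs * 768 = 7519 * 768 := by decide +kernel
theorem hasg1 : ∀ i ∈ Finset.range items.length, assign.getD i 0 < 11 := by decide +kernel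
theorem hasg2 : ∀ j ∈ Finset.range 11,
    ∑ i ∈ Finset.range items.length, (if assign.getD i 0 = j then items.getD i 0 else 0) ≤ capL := by decide +kernel

theorem validI : ∀ a ∈ inst capL items, 0 < a ∧ a ≤ 1 := by
  intro a ha
  simp only [inst, List.mem_map] at ha
  obtain ⟨n, hn, rfl⟩ := ha
  have h1 : 0 < n := hpos n (hmem n hn)
  have h2 : n ≤ capL := by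
    revert n
    decide +kernel
  have hL : (0 : ℚ) < (capL : ℚ) := by
    simp [capL]
  constructor
  · simp only [phi]
    positivity
  · simp only [phi]
    rw [div_le_one hL]
    exact_mod_cast h2

theorem opt_eq : OPT (inst capL items) = 11 := by
  apply le_antisymm
  · exact OPT_le (packs_of_assign (by decide) assign hasg1 hasg2)
  · have hI : ∀ a ∈ inst capL items, a ≤ 1 := fun a ha => (validI a ha).2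
    exact lt_OPT hI (not_packs_tree2 (ss := ss) (bs := bs) (ys := ys) (D := 768) (G := 161)
      (groups := groups) (t := deadT) (by decide) hpos hnd hmem hlenb hleny hcount hdual (hP_of_flat hF hGk) hC hR)

theorem lp_eq : LP (inst capL items) = ((7519 : ℕ) : ℝ) / ((768 : ℕ) : ℝ) :=
  LP_eq (ss := ss) (bs := bs) (ys := ys) (by decide) hpos hnd hss hmem hleny hcount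
    (D := 768) (by decide) hdual (by decide) sol hfit hcov hV hval

end Vale.Agent.P302.GapC
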